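import Claimed.Agent.R315.Ct.Reg

/-!
# Row 315, package Sc (P Appendix C.1, `local:anchors`): choice of the thresholds.   Architect: helper257.   PACKAGE L-SC-ANCHOR.   PROVED (helper297).

1. `sc_image_null`: a `C¹` map `h : U → ℝ^ι` sends `μH[card ι]`-null subsets of `U` to Lebesgue null sets.
   Every `x ∈ U` has a neighbourhood on which `h` is Lipschitz (`ContDiffAt.exists_lipschitzOnWith`); countable subcover (`TopologicalSpace.countable_cover_nhdsWithin` / Lindelöf);
   `LipschitzOnWith.hausdorffMeasure_image_le`, `MeasureTheory.hausdorffMeasure_pi_real`, `measure_biUnion_null_iff`.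
2. `sc_thresholds`: `P = Measure.infinitePi (fun _ => (0.6)⁻¹ • volume.restrict (Ioo (-0.3) 0.3))` is a probability measure.  For each `k`,
   `{t | t|_{I k} ∈ N k}` is contained in the cylinder over `toMeasurable volume (N k)`, whose `P`-measure is `Measure.pi (..) (..) = 0` (`Measure.infinitePi_cylinder`; the finite product is `≪ volume`:
   it is `c • (volume.restrict (pi univ Ioo))`, `Measure.restrict_pi_pi`/`Measure.pi` of smul).  `{t | t j ∉ Ioo}` is null (`infinitePi_map_eval`).  Countable union of null sets `≠ univ`.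
3. `sc_anchor_null`: countable atlas (`if_exists_atlas`); in a chart `ψ⁻¹ Σ ∩ U = gmtSing` (`ct_sing_iff`), `CtLAM.chart`, `Gmt.gmt_sing_null` (data: `GmtData` of the chart, see `Ct/Lam.lean`), step 1 for `f ∘ ψ`.
4. `sc_anchors`: exclusions indexed by `(k, I)`, `I : Finset J` with `card I = d k - 7` (countable); if `d k - 7 ≤ s.card` take `I ⊆ s` (`Finset.exists_subset_card_eq`).
-/

set_option autoImplicit false
open scoped ContDiff Topology ENNReal
open MeasureTheory Set Metric Filter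

namespace Claimed.Agent.R315

theorem sc_image_null {m : ℕ} {ι : Type} [Fintype ι] {Sg U : Set (E m)} (hU : IsOpen U)
    (hS : Sg ⊆ U) (h0 : μH[(Fintype.card ι : ℝ)] Sg = 0) {h : E m → ι → ℝ}
    (hh : ContDiffOn ℝ 1 h U) : volume (h '' Sg) = 0 := by
  classical
  have hloc : ∀ x ∈ Sg, ∃ t ∈ 𝓝 x, ∃ K, LipschitzOnWith K h t := by
    intro x hx
    have hx' : ContDiffAt ℝ 1 h x := hh.contDiffAt (hU.mem_nhds (hS hx))
    obtain ⟨K, t, ht, hK⟩ := hx'.exists_lipschitzOnWith
    exact ⟨t, ht, K, hK⟩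
  choose! f hf hK using hloc
  obtain ⟨t, hts, htc, hcov⟩ := TopologicalSpace.countable_cover_nhdsWithin
    (f := f) (s := Sg) (fun x hx => mem_nhdsWithin_of_mem_nhds (hf x hx))
  have hsub : h '' Sg ⊆ ⋃ x ∈ t, h '' (Sg ∩ f x) := by
    rintro _ ⟨y, hy, rfl⟩
    obtain ⟨x, hx, hyx⟩ := mem_iUnion₂.1 (hcov hy)
    exact mem_iUnion₂.2 ⟨x, hx, y, ⟨hy, hyx⟩, rfl⟩
  refine measure_mono_null hsub ((measure_biUnion_null_iff htc).2 fun x hx => ?_)
  obtain ⟨K, hKx⟩ := hK x (hts hx)
  rw [← hausdorffMeasure_pi_real]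
  have h1 := (hKx.mono (inter_subset_right (s := Sg))).hausdorffMeasure_image_le
    (d := (Fintype.card ι : ℝ)) (Nat.cast_nonneg _)
  have h2 : μH[(Fintype.card ι : ℝ)] (Sg ∩ f x) = 0 := measure_mono_null inter_subset_left h0
  rw [h2, mul_zero] at h1
  exact le_antisymm h1 bot_le

theorem sc_pi_cond_null {ι : Type} [Fintype ι] {N : Set (ι → ℝ)} (hN : volume N = 0)
    {s : Set ℝ} (hs : MeasurableSet s) (h0 : volume s ≠ 0) (h1 : volume s ≠ (⊤ : ℝ≥0∞)) :
    Measure.pi (fun _ : ι => ProbabilityTheory.cond (volume : Measure ℝ) s) N = 0 := by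
  have : IsProbabilityMeasure (ProbabilityTheory.cond (volume : Measure ℝ) s) :=
    ProbabilityTheory.cond_isProbabilityMeasure_of_finite h0 h1
  have key : Measure.pi (fun _ : ι => ProbabilityTheory.cond (volume : Measure ℝ) s)
      = ((volume s)⁻¹ ^ Fintype.card ι) •
        ((volume : Measure (ι → ℝ)).restrict (univ.pi fun _ => s)) := by
    refine Measure.pi_eq fun t ht => ?_
    rw [Measure.smul_apply, Measure.restrict_apply (MeasurableSet.univ_pi ht),
      ← Set.pi_inter_distrib, volume_pi_pi, smul_eq_mul]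
    have : ∀ i, ProbabilityTheory.cond (volume : Measure ℝ) s (t i)
        = (volume s)⁻¹ * volume (t i ∩ s) := by
      intro i
      rw [ProbabilityTheory.cond_apply hs, inter_comm]
    simp_rw [this]
    rw [Finset.prod_mul_distrib, Finset.prod_const, Finset.card_univ]
  rw [key, Measure.smul_apply, smul_eq_mul]
  have : (volume : Measure (ι → ℝ)).restrict (univ.pi fun _ => s) N = 0 :=
    le_antisymm ((Measure.restrict_apply_le _ _).trans hN.le) bot_le
  rw [this, mul_zero]

theorem sc_thresholds {J K : Type} [Countable J] [Countable K] (I : K → Finset J)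
    (N : (k : K) → Set (I k → ℝ)) (hN : ∀ k, volume (N k) = 0) :
    ∃ t : J → ℝ, (∀ j, t j ∈ Ioo (-0.3 : ℝ) 0.3) ∧ ∀ k, (fun j : I k => t j) ∉ N k := by
  classical
  set s : Set ℝ := Ioo (-0.3 : ℝ) 0.3 with hsdef
  have hs : MeasurableSet s := measurableSet_Ioo
  have h0 : volume s ≠ 0 := by
    rw [hsdef, Real.volume_Ioo]; norm_num
  have h1 : volume s ≠ (⊤ : ℝ≥0∞) := by
    rw [hsdef, Real.volume_Ioo]; exact ENNReal.ofReal_ne_top
  set μ0 : Measure ℝ := ProbabilityTheory.cond (volume : Measure ℝ) s with hμ0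
  have : IsProbabilityMeasure μ0 := ProbabilityTheory.cond_isProbabilityMeasure_of_finite h0 h1
  set P : Measure (J → ℝ) := Measure.infinitePi (fun _ : J => μ0) with hP
  have hB1 : ∀ j, P {t | t j ∉ s} = 0 := by
    intro j
    have hmp := measurePreserving_eval_infinitePi (fun _ : J => μ0) j
    have : {t : J → ℝ | t j ∉ s} = Function.eval j ⁻¹' sᶜ := rfl
    rw [this, hmp.measure_preimage hs.compl.nullMeasurableSet, hμ0,
      ProbabilityTheory.cond_apply hs]
    simp
  have hB2 : ∀ k, P {t | (fun j : I k => t j) ∈ N k} = 0 := by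
    intro k
    have hsub : {t : J → ℝ | (fun j : I k => t j) ∈ N k}
        ⊆ cylinder (I k) (toMeasurable volume (N k)) := by
      intro t ht
      exact subset_toMeasurable volume (N k) ht
    refine measure_mono_null hsub ?_
    rw [hP, Measure.infinitePi_cylinder _ (measurableSet_toMeasurable _ _)]
    exact sc_pi_cond_null (by rw [measure_toMeasurable]; exact hN k) hs h0 h1
  have hU : P ((⋃ j, {t | t j ∉ s}) ∪ ⋃ k, {t | (fun j : I k => t j) ∈ N k}) = 0 :=
    measure_union_null (measure_iUnion_null hB1) (measure_iUnion_null hB2)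
  have hne : ((⋃ j, {t : J → ℝ | t j ∉ s}) ∪ ⋃ k, {t | (fun j : I k => t j) ∈ N k}) ≠ univ := by
    intro h
    rw [h, measure_univ] at hU
    exact one_ne_zero hU
  obtain ⟨t, ht⟩ := (ne_univ_iff_exists_notMem _).1 hne
  simp only [mem_union, mem_iUnion, mem_ofPred_eq, not_or, not_exists, not_not] at ht
  exact ⟨t, ht.1, ht.2⟩

variable {V : Type} [NormedAddCommGroup V] [NormedSpace ℝ V] [FiniteDimensional ℝ V]
  [MeasurableSpace V] [BorelSpace V]

theorem sc_anchor_null {d : ℕ} {M : Set V} {h : Ten V} {t p : V → ℝ} (hG : CtGeo d M h t)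
    (hp : SmoothAlong d M p) {A : Set V} (hA : CtLAM d M h t p A) (hd : 8 ≤ d) {ι : Type}
    [Fintype ι] (hι : Fintype.card ι = d - 7) (f : ι → V → ℝ) (hf : ∀ i, SmoothAlong d M (f i)) :
    volume ((fun x i => f i x) '' ctSing d M A) = 0 := by
  obtain ⟨ψ, U, hψ, hM⟩ := if_exists_atlas hG.mfd
  have hsub : (fun x i => f i x) '' ctSing d M A ⊆
      ⋃ k, (fun u i => f i (ψ k u)) '' (Gmt.gmtSing (ctPre (ψ k) (U k) A) (U k)) := by
    rintro _ ⟨x, hx, rfl⟩
    have hxM : x ∈ M := ct_bd_subset A hx.1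
    rw [hM] at hxM
    obtain ⟨k, u, hu, rfl⟩ := mem_iUnion.1 hxM
    exact mem_iUnion.2 ⟨k, u, (ct_sing_iff (hψ k) A hu).1 hx, rfl⟩
  refine measure_mono_null hsub (measure_iUnion_null fun k => ?_)
  have hcard : (Fintype.card ι : ℝ) = (d : ℝ) - 7 := by
    rw [hι, Nat.cast_sub (by omega)]
    norm_num
  refine sc_image_null (U := U k) (if_open (hψ k)) (fun u hu => hu.1) ?_ ?_
  · rw [hcard]
    exact Gmt.gmt_sing_null hd (ct_gmtData hG hp (hψ k)) (hA.chart hG hp (hψ k))
  · refine contDiffOn_pi.2 fun i => ?_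
    exact ((hf i) (ψ k) (U k) (hψ k)).of_le (by exact_mod_cast le_top)

/-- **choice of anchors**: at most `d - 8` of the equalities `f j = t j` hold at a singular point. -/
theorem sc_anchors {J K : Type} [Countable J] [Countable K] (d : K → ℕ) (M : K → Set V)
    (h : K → Ten V) (t p : K → V → ℝ) (A : K → Set V) (hG : ∀ k, CtGeo (d k) (M k) (h k) (t k))
    (hp : ∀ k, SmoothAlong (d k) (M k) (p k))
    (hA : ∀ k, CtLAM (d k) (M k) (h k) (t k) (p k) (A k)) (f : J → V → ℝ)
    (hf : ∀ k j, SmoothAlong (d k) (M k) (f j)) :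
    ∃ a : J → ℝ, (∀ j, a j ∈ Ioo (-0.3 : ℝ) 0.3) ∧ ∀ k, 8 ≤ d k → ∀ x ∈ ctSing (d k) (M k) (A k),
      ∀ s : Finset J, (∀ j ∈ s, f j x = a j) → s.card ≤ d k - 8 := by
  classical
  let I' : K × Finset J → Finset J := fun q => q.2
  let N : (q : K × Finset J) → Set (I' q → ℝ) := fun q =>
    if 8 ≤ d q.1 ∧ q.2.card = d q.1 - 7 then
      (fun x (i : I' q) => f i x) '' ctSing (d q.1) (M q.1) (A q.1) else ∅
  have hN : ∀ q, volume (N q) = 0 := by
    intro q
    by_cases hq : 8 ≤ d q.1 ∧ q.2.card = d q.1 - 7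
    · have : N q = (fun x (i : I' q) => f i x) '' ctSing (d q.1) (M q.1) (A q.1) := if_pos hq
      rw [this]
      exact sc_anchor_null (hG q.1) (hp q.1) (hA q.1) hq.1 (ι := I' q)
        (by rw [Fintype.card_coe]; exact hq.2) (fun i => f i) (fun i => hf q.1 i)
    · have : N q = ∅ := if_neg hq
      rw [this, measure_empty]
  obtain ⟨a, ha1, ha2⟩ := sc_thresholds I' N hN
  refine ⟨a, ha1, fun k hk x hx s hs => ?_⟩
  by_contra hcon
  have hle : d k - 7 ≤ s.card := by omega
  obtain ⟨I, hIs, hIc⟩ := Finset.exists_subset_card_eq hle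
  apply ha2 (k, I)
  have : N (k, I) = (fun x (i : I' (k, I)) => f i x) '' ctSing (d k) (M k) (A k) :=
    if_pos ⟨hk, hIc⟩
  rw [this]
  refine ⟨x, hx, ?_⟩
  funext i
  exact hs i (hIs i.2)

end Claimed.Agent.R315
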