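import Claimed.Agent.R315.Pack007
import Claimed.Agent.Lib.Gmt.IF
import Claimed.Agent.Lib.Gmt.Fv

/-!
# Row 315, package Sc (P Appendix C.2), part 3: CHART DATA, forms, and the three test spaces.   Architect: helper257.

DEFINITIONS ONLY (plus the closure of the test classes under multiplication).
A chart problem `D : ScCh m`: open `U ⊆ E m`, density `rho = ω √det G`, cometric `Gam = G⁻¹` (a form on covectors = vectors of `E m`),
pressure `p`, phase `S`; `A = rho² Gam`, `f = p rho` are the data of `Lib/Gmt` (dictionary of `Lib/Gmt/IF.lean`; `ctA`, `ctF`, `ctRho` of `Ct/Defs`).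
* `D.mu = gmtPerM A S ⌞ U = rho √(Gam ν ν) |Dχ_S|`: the weighted area of the wall;
* `scQw B ν ξ = B ξ ξ - (B ξ ν)²/B ν ν`: the tangential part of the cometric = `|∇^S v|²` for `ξ = ∇(v∘ψ)`;
* wall tests: smooth functions with compact support in `U` (they may meet the singular set and `F`);
* cylinder tests: smooth `vc : E m × ℝ → ℝ` with compact support in `U × ℝ`; joined tests: pairs `(vb, vc)` with `vc(x,0) = vb x` `mu`-a.e.
* `D.spW`, `D.spJ`, `D.spC : ScSp m`: wall (`1.7 ∫ |∇^S w|²`), joined side (`.8` bulk on `S`, `1.7` half cylinder), full cylinder.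
For the other side of the wall use `D.co` (phase `Sᶜ`, pressure `-p`).
-/

set_option autoImplicit false
open scoped ContDiff Topology ENNReal
open MeasureTheory Set Metric

namespace Claimed.Agent.R315

noncomputable section

variable {m : ℕ}

/-- chart data. -/
structure ScCh (m : ℕ) where
  U : Set (E m)
  rho : E m → ℝ
  Gam : E m → Gmt.Bil m
  p : E m → ℝ
  S : Set (E m)

namespace ScCh

variable (D : ScCh m)

/-- the integrand of `Lib/Gmt`. -/
def A : E m → Gmt.Bil m := fun x => (D.rho x ^ 2) • D.Gam x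

/-- the pressure density of `Lib/Gmt`. -/
def f : E m → ℝ := fun x => D.p x * D.rho x

/-- weighted area of the wall. -/
def mu : Measure (E m) := (Gmt.gmtPerM D.A D.S).restrict D.U

/-- outer unit normal (Euclidean). -/
def nu : E m → E m := Gmt.gmtNu D.S

/-- the other side. -/
def co : ScCh m := ⟨D.U, D.rho, D.Gam, fun x => -D.p x, D.Sᶜ⟩

/-- hypotheses: smooth data, `S` minimises; on `G`: `Gam` is `τ`-close to Euclidean, `|DGam|, |D log rho|, |p| ≤ Λ`. -/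
structure Ok (G : Set (E m)) (τ Λ : ℝ) : Prop where
  opn : IsOpen D.U
  rho_s : ContDiffOn ℝ ∞ D.rho D.U
  rho_pos : ∀ x ∈ D.U, 0 < D.rho x
  gam : Gmt.GmtInt D.U D.Gam
  p_s : ContDiffOn ℝ ∞ D.p D.U
  lam : Gmt.GmtLAM D.A D.f D.U D.S
  sub : G ⊆ D.U
  close : ∀ x ∈ G, ∀ ξ : E m, |D.Gam x ξ ξ - ‖ξ‖ ^ 2| ≤ τ * ‖ξ‖ ^ 2
  dGam : ∀ x ∈ G, ∀ a ξ η : E m, |fderiv ℝ D.Gam x a ξ η| ≤ Λ * ‖a‖ * ‖ξ‖ * ‖η‖
  dRho : ∀ x ∈ G, ‖fderiv ℝ D.rho x‖ ≤ Λ * D.rho x
  pB : ∀ x ∈ G, |D.p x| ≤ Λ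

end ScCh

/-- tangential part of the form `B` with respect to the conormal `ν`. -/
def scQw (B : Gmt.Bil m) (ν ξ : E m) : ℝ := B ξ ξ - B ξ ν ^ 2 / B ν ν

/-- its polarisation. -/
def scQb (B : Gmt.Bil m) (ν ξ η : E m) : ℝ := B ξ η - B ξ ν * B η ν / B ν ν

/-- horizontal gradient of a function on the cylinder. -/
def scGx (vc : E m × ℝ → ℝ) (x : E m) (t : ℝ) : E m := gradient (fun y => vc (y, t)) x

/-- vertical derivative. -/
def scDt (vc : E m × ℝ → ℝ) (x : E m) (t : ℝ) : ℝ := deriv (fun s => vc (x, s)) t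

/-- scalar tests in `U`. -/
structure ScTw (U : Set (E m)) (w : E m → ℝ) : Prop where
  smooth : ContDiff ℝ ∞ w
  cpt : HasCompactSupport w
  sub : tsupport w ⊆ U

/-- cylinder tests in `U × ℝ`. -/
structure ScTc (U : Set (E m)) (vc : E m × ℝ → ℝ) : Prop where
  smooth : ContDiff ℝ ∞ vc
  cpt : HasCompactSupport vc
  sub : tsupport vc ⊆ U ×ˢ (univ : Set ℝ)

theorem ScTw.mul {U : Set (E m)} {w χ : E m → ℝ} (hw : ScTw U w) (hχ : ContDiff ℝ ∞ χ) :
    ScTw U (fun x => χ x * w x) :=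
  ⟨hχ.mul hw.smooth, hw.cpt.mul_left, (tsupport_mul_subset_right (f := χ) (g := w)).trans hw.sub⟩

theorem ScTc.mul {U : Set (E m)} {vc : E m × ℝ → ℝ} {χ : E m → ℝ} (hw : ScTc U vc)
    (hχ : ContDiff ℝ ∞ χ) : ScTc U (fun y => χ y.1 * vc y) :=
  ⟨(hχ.comp contDiff_fst).mul hw.smooth, hw.cpt.mul_left,
    (tsupport_mul_subset_right (f := fun y : E m × ℝ => χ y.1) (g := vc)).trans hw.sub⟩

namespace ScCh

variable (D : ScCh m)

/-- wall energy `∫ |∇^S w|² dμ`. -/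
def wallE (w : E m → ℝ) : ℝ := ∫ x, scQw (D.Gam x) (D.nu x) (gradient w x) ∂D.mu

/-- wall mass. -/
def wallM (w : E m → ℝ) : Measure (E m) := D.mu.withDensity fun x => ENNReal.ofReal (w x ^ 2)

/-- bulk energy `∫_S |∇ vb|² rho`. -/
def bulkE (vb : E m → ℝ) : ℝ :=
  ∫ x in D.S ∩ D.U, D.Gam x (gradient vb x) (gradient vb x) * D.rho x

/-- bulk mass. -/
def bulkM (vb : E m → ℝ) : Measure (E m) :=
  (volume.restrict (D.S ∩ D.U)).withDensity fun x => ENNReal.ofReal (vb x ^ 2 * D.rho x)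

/-- cylinder energy over the interval `I`. -/
def cylE (I : Set ℝ) (vc : E m × ℝ → ℝ) : ℝ :=
  ∫ x, (∫ t in I, (scQw (D.Gam x) (D.nu x) (scGx vc x t) + scDt vc x t ^ 2)) ∂D.mu

/-- cylinder mass, pushed to the base. -/
def cylM (I : Set ℝ) (vc : E m × ℝ → ℝ) : Measure (E m) :=
  D.mu.withDensity fun x => ENNReal.ofReal (∫ t in I, vc (x, t) ^ 2)

/-- joined tests. -/
structure IsJ (v : (E m → ℝ) × (E m × ℝ → ℝ)) : Prop where
  b : ScTw D.U v.1
  c : ScTc D.U v.2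
  seam : ∀ᵐ x ∂D.mu, v.2 (x, 0) = v.1 x

theorem IsJ.mul {D : ScCh m} {v : (E m → ℝ) × (E m × ℝ → ℝ)} (hv : D.IsJ v) {χ : E m → ℝ}
    (hχ : ContDiff ℝ ∞ χ) : D.IsJ (fun x => χ x * v.1 x, fun y => χ y.1 * v.2 y) :=
  ⟨hv.b.mul hχ, hv.c.mul hχ, hv.seam.mono fun x hx => by simp only [hx]⟩

open Classical in
/-- the wall space. -/
def spW : ScSp m where
  T := {w : E m → ℝ // ScTw D.U w}
  mul χ w := if h : ContDiff ℝ ∞ χ then ⟨fun x => χ x * w.1 x, w.2.mul h⟩ else w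
  N w := 1.7 * D.wallE w.1
  ms w := D.wallM w.1

open Classical in
/-- the joined side. -/
def spJ : ScSp m where
  T := {v : (E m → ℝ) × (E m × ℝ → ℝ) // D.IsJ v}
  mul χ v := if h : ContDiff ℝ ∞ χ then ⟨_, v.2.mul h⟩ else v
  N v := 0.8 * D.bulkE v.1.1 + 1.7 * D.cylE (Ioi 0) v.1.2
  ms v := D.bulkM v.1.1 + D.cylM (Ioi 0) v.1.2

open Classical in
/-- the full cylinder. -/
def spC : ScSp m where
  T := {vc : E m × ℝ → ℝ // ScTc D.U vc}
  mul χ v := if h : ContDiff ℝ ∞ χ then ⟨_, v.2.mul h⟩ else v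
  N v := 1.7 * D.cylE univ v.1
  ms v := D.cylM univ v.1

end ScCh

end

end Claimed.Agent.R315
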