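import Claimed.Agent.R315.Sc.Gauge
import Claimed.Agent.R315.Sc.Anchor
import Mathlib.Geometry.Manifold.SmoothApprox
import Mathlib.Topology.TietzeExtension

/-!
# Row 315, package Sc, part 11: THE TWO EXPORTS `sc_anchor`, `sc_pieces` (= `sh_need_anchor`, `sh_need_pieces` of `Sh/Need.lean`).   Architect: helper257.   PACKAGE L-SC-EXP.

1. `sc_gauge_trivial`: `Fp = ∅`, `δ = 2`, `d = 1`: `{δ ≤ 1} = ∅`; `χ = 0`; `shW 1 ρ 2 = 0`, so the weight vanishes and `Bud` is `0 ≤ ..`.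
2. `sc_gauge`: assemble `ShGauge` from `sc_gauge_top`, `sc_gauge_slope`, `sc_gauge_cut`, `sc_gauge_hy` with `d = dd₀`, `Cc = 2√scB2`.  `CtGeo` of `E β`: `⟨inv.diag.mfd β, inv.met.met β, inv.dr_sc.1 β⟩`.
3. `sc_pieces`.  If `C.m β < 8`: `Σ_β = ∅` (`CtLAM.sing_empty` with `hC.cut.lam β`, `2 ≤ C.m β` by `hC.dim` if `E β ≠ ∅`; `ctSing ⊆ ctBd ⊆ E β`): trivial gauges.
   Else `η', τ'` from `sc_consts`.  For `x ∈ Σ_β ∩ O`: `sc_good_point` (`τ = τ'`): `ψ_x, u_x, r_x, Λ_x`; `ψ_x '' ball u_x r_x = E β ∩ O_x`, `O_x` open (restriction of a parametrisation).  Lindelöf (`TopologicalSpace.isOpen_iUnion_countable` / `countable_cover_nhds`): countably many `x_i`.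
   In the chart `i`: `Gmt.gmt_sing_flat` for `U = ball u r`, data `ctA, ctF` (`CtLAM.chart` + `gmt_lam_mono`; `GmtData`: `scOf_ok .. .data`), `η = η'`: compact `F_{ik} ⊆ gmtSing S (ball u r)`, radii `ρ_{ik}`; `ct_sing_iff`: `ψ '' ⋃_k F_{ik} ⊇ Σ_β ∩ ψ '' ball u r`, `ψ '' F_{ik} ⊆ Σ_β`.
   `F_{ik} = ∅`: trivial gauge; else `sc_gauge`.  Reindex `ℕ × ℕ ≃ ℕ` (`Nat.pairEquiv`/`Encodable`); if the cover is empty use trivial gauges.  `ScBd` on the ball restricts to `U ∩ tube`.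
4. `sc_compat_smooth`: individual smoothing on each closed manifold `E α` (Tietze `ContinuousOn` extension + smooth approximation of a continuous function on `W`: partition of unity, `exists_contMDiffOn_forall_mem_convex_of_local`-type, or mollification on compact exhaustion), `pkGlue`, `pkBlend` with a common threshold `T` of the diagram and of `f`
   (`IsDiag.exists_thr`, `Compat.exists_thr`), `pkBlend_sc`, `pkBlend_sub_le` (`Pk/Blend.lean`, `Pk/Thr.lean`).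
5. `sc_anchor`: `f_j = (max (-1) (min 1 (μ_j z))).toReal` is `CC` (`LabelOk.mu_cc` + continuity of the clip `EReal → ℝ`; `Compat` is preserved by post-composition); for `j ∉ R` take `hh j = 0`.  `hh j` = `sc_compat_smooth` with `ε = 0.1`.
   `sc_anchors` with `K = Stat ι`, `J = {j // j ∈ R}` or all `j` (countable by `hC.base.cnt`), data `hC.cut.lam`.  `bot`: `hh ≤ -0.9 < -0.3 < tt`.  `few`: `m α ≥ 8`: `s.card ≤ m α - 8`; `m α < 8`: `Σ_α = ∅`.
-/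

set_option autoImplicit false
set_option linter.unusedSectionVars false
open scoped ContDiff Topology ENNReal
open MeasureTheory Set Metric

namespace Claimed.Agent.R315

variable {V W : Type} [NormedAddCommGroup V] [NormedSpace ℝ V] [NormedAddCommGroup W] [NormedSpace ℝ W] {ι : Type}
  [FiniteDimensional ℝ V] [FiniteDimensional ℝ W] [Fintype ι] [MeasurableSpace W] [BorelSpace W]

theorem sc_gradSq_zero (d : ℕ) (M : Set W) (g : Ten W) (z : W) :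
    gradSq d M g (fun _ => 0) z = 0 := by
  unfold gradSq pv
  have h : ∀ (ψ : E d → W) (u : E d), gradSqC (cm g ψ) ((fun _ => (0:ℝ)) ∘ ψ) u = 0 := by
    intro ψ u
    unfold gradSqC Claims.C0499.pdiff
    have : ((fun _ => (0:ℝ)) ∘ ψ) = fun _ => 0 := rfl
    rw [this]; simp
  simp only [h]
  apply le_antisymm
  · exact Real.sSup_le (fun r ⟨_, _, _, _, _, _, hr⟩ => hr.le) le_rfl
  · apply Real.sSup_nonneg
    rintro r ⟨_, _, _, _, _, _, hr⟩
    exact hr.ge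

theorem sc_bud_le {X : Type} [MeasurableSpace X] {𝔉 : ShForm X} {D D' : X → ℝ} {θ e0 Cm : ℝ}
    (hD : ∀ x, D x ≤ D' x) (h : 𝔉.Bud D' θ e0 Cm) : 𝔉.Bud D θ e0 Cm := fun v =>
  (lintegral_mono fun x => ENNReal.ofReal_le_ofReal (hD x)).trans (h v)

theorem sc_bud_zero {X : Type} [MeasurableSpace X] (𝔉 : ShForm X) {D : X → ℝ} (hD : ∀ x, D x ≤ 0)
    (θ e0 Cm : ℝ) : 𝔉.Bud D θ e0 Cm := fun v => by
  have : ∀ x, ENNReal.ofReal (D x) = 0 := fun x => ENNReal.ofReal_of_nonpos (hD x)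
  simp [this]

theorem ShCtx.bud_le {C : ShCtx V W ι} {α : Stat ι} {D D' : W → ℝ} {θ e0 Cm : ℝ}
    (hD : ∀ x, D x ≤ D' x) (h : C.Bud α D' θ e0 Cm) : C.Bud α D θ e0 Cm :=
  ⟨sc_bud_le hD h.1, sc_bud_le hD h.2.1, sc_bud_le hD h.2.2⟩

theorem sc_shW_nonneg (d ρ s : ℝ) : 0 ≤ shW d ρ s := by
  unfold shW; split_ifs <;> positivity

theorem sc_shWt_nonneg (F : Frame V W ι) (α : Stat ι) (J : Finset ι) (T : ℝ) (δ : W → ℝ) (d ρ : ℝ)
    (z : W) : 0 ≤ shWt F α J T δ d ρ z :=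
  indicator_nonneg (fun _ _ => sc_shW_nonneg _ _ _) z

theorem sc_gauge_trivial (C : ShCtx V W ι) (β : Stat ι) : ShGauge C β ∅ (fun _ => 2) 1 1 0 0 := by
  refine ⟨one_pos, le_rfl, fun z hz => absurd hz (by norm_num), ?_, continuousOn_const,
    fun _ => by norm_num, fun z => by simp, fun z hz => absurd hz (by norm_num), ?_, ?_⟩
  · have : {z : W | (2:ℝ) ≤ 1} = ∅ := by
      ext; simp only [Set.mem_ofPred_eq, mem_empty_iff_false, iff_false]; norm_num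
    rw [this]; exact isCompact_empty
  · intro r hr h2
    refine ⟨fun _ => 0, if_smoothAlong_const 0, fun _ => ⟨le_rfl, zero_le_one⟩, fun z hz => ?_,
      fun _ _ => rfl, fun z hz => ?_⟩
    · exfalso; linarith
    · rw [sc_gradSq_zero]; positivity
  · intro α J hJ hα ρ hρ
    have h0 : ∀ z, 3.4 * shWt C.F α J 0 (fun _ => 2) 1 ρ z ≤ 0 := by
      intro z
      have : shWt C.F α J 0 (fun _ => 2) 1 ρ z = 0 := by
        have h2 : shW 1 ρ 2 = 0 := if_neg (by norm_num)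
        unfold shWt
        simp [h2]
      rw [this, mul_zero]
    exact ⟨sc_bud_zero _ h0 _ _ _, sc_bud_zero _ h0 _ _ _, sc_bud_zero _ h0 _ _ _⟩

theorem ShCtx.Ok.scGeo {C : ShCtx V W ι} (hC : C.Ok) (β : Stat ι) :
    CtGeo (C.m β) (C.P.E β) C.P.h C.P.dr :=
  ⟨hC.inv.diag.mfd β, hC.inv.met.met β, hC.inv.dr_sc.1 β⟩

theorem sc_sing_empty (C : ShCtx V W ι) (hC : C.Ok) (β : Stat ι) (hβ : C.m β < 8) : C.Sig β = ∅ := by
  by_cases hE : (C.P.E β).Nonempty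
  · have hd := hC.dim β hE
    exact (hC.cut.lam β).sing_empty (hC.scGeo β) (hC.cut.p_sc.1 β)
      (by unfold ShCtx.m at *; omega) (by omega)
  · rw [eq_empty_iff_forall_notMem]
    intro x hx
    exact hE ⟨x, ct_bd_subset _ hx.1⟩

theorem ScBd.mono {d : ℕ} {h : Ten W} {t p : W → ℝ} {ψ : E d → W} {G G' : Set (E d)} {τ τ' Λ : ℝ}
    (H : ScBd h t p ψ G τ Λ) (hG : G' ⊆ G) (hτ : τ ≤ τ') : ScBd h t p ψ G' τ' Λ :=
  ⟨fun x hx ξ => (H.close x (hG hx) ξ).trans (mul_le_mul_of_nonneg_right hτ (sq_nonneg _)),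
    fun x hx => H.dGam x (hG hx), fun x hx => H.dRho x (hG hx), fun x hx => H.pB x (hG hx)⟩

/-- the gauge of a flat piece in a good chart. -/
theorem sc_gauge (C : ShCtx V W ι) (hC : C.Ok) {η' τ' : ℝ} (hτ' : τ' ≤ 0.005)
    (hc : ∀ rF r₀ Λ : ℝ, 0 < rF → 0 < r₀ → 0 ≤ Λ → ∃ dd CF : ℝ, 0 < dd ∧ dd ≤ r₀ ∧ 0 ≤ CF ∧
      ∀ (α : Stat ι) (J : Finset ι), 8 ≤ C.m α → ∀ (Ψ : E (C.m α) → W) (U F : Set (E (C.m α)))
        (θ : E (C.m α) → ℝ),
        ScSet (C.m α) (C.P.E α) C.P.h C.P.dr C.p Ψ U F θ η' rF r₀ τ' Λ (J.card * scB2) →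
        ∀ dd', 0 < dd' → dd' ≤ dd → ∀ ρ : ℝ, 0 < ρ → C.Bud α (scWt Ψ U (scHw F θ dd' ρ)) 1 0 CF)
    (β : Stat ι) (hβ : 8 ≤ C.m β) {ψ : E (C.m β) → W} {u₀ : E (C.m β)} {r Λ rF : ℝ} (hr : 0 < r)
    (hΛ : 0 ≤ Λ) (hrF : 0 < rF) (hψ : IsParam (C.P.E β) ψ (ball u₀ (3 * r)))
    (hb : ScBd C.P.h C.P.dr C.p ψ (ball u₀ (3 * r)) τ' Λ)
    (hK : ∃ K, IsCompact K ∧ ψ '' ball u₀ (3 * r) ⊆ K) {F₀ : Set (E (C.m β))} (hF : IsCompact F₀)
    (hF0 : F₀.Nonempty) (hFs : F₀ ⊆ closedBall u₀ r) (hflat : ScFlat F₀ η' rF) :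
    ∃ (δ : W → ℝ) (d Cc CF T : ℝ), ShGauge C β (ψ '' F₀) δ d Cc CF T ∧
      ∀ z, δ z ≤ d → z ∈ ψ '' ball u₀ (3 * r) := by
  have H : ScGood (C.m β) (C.P.E β) C.P.h C.P.dr C.p ψ (ball u₀ (3 * r)) F₀ η' rF r τ' Λ :=
    ⟨hψ, hF.isClosed, hF0, hflat, hb.mono inter_subset_left le_rfl⟩
  obtain ⟨dd₀, CF, T, h0, h1, hCF, hy⟩ := sc_gauge_hy C hC hc β hβ hr hΛ hrF hFs H hK
  obtain ⟨t1, t2, t3, t4, t5⟩ := sc_gauge_top hr hψ hF hF0 hFs h0 h1
  have hb' := hb.mono (Subset.refl _) hτ'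
  have hsub : ψ '' ball u₀ (3 * r) ⊆ C.P.E β := by
    obtain ⟨O, -, hO⟩ := hψ.2.2.2.2.1
    rw [hO]; exact inter_subset_left
  refine ⟨scGa ψ (ball u₀ (3 * r)) F₀ dd₀, dd₀, 2 * Real.sqrt scB2, CF, T,
    ⟨h0, hCF, fun z hz => hsub (t1 z hz), t2, t3, t4, t5,
      fun z hz => sc_gauge_slope (hC.scGeo β) hr hψ hb' hF0 h0 z hz,
      fun r' hr' hr2 => sc_gauge_cut (hC.scGeo β) hr hψ hb' hF hF0 hFs h0 h1 r' hr' hr2,
      fun α J hJ hα ρ hρ => ShCtx.bud_le (fun z => ?_) (hy dd₀ h0 le_rfl α J hJ hα ρ hρ)⟩, t1⟩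
  have := sc_shWt_nonneg C.F α J T (scGa ψ (ball u₀ (3 * r)) F₀ dd₀) dd₀ ρ z
  linarith


/-- a piece with a gauge inside `O`. -/
def ScPc (C : ShCtx V W ι) (β : Stat ι) (O Fp : Set W) : Prop :=
  ∃ (δ : W → ℝ) (d Cc CF T : ℝ), ShGauge C β Fp δ d Cc CF T ∧ ∀ z, δ z ≤ d → z ∈ O

theorem scPc_empty (C : ShCtx V W ι) (β : Stat ι) (O : Set W) : ScPc C β O ∅ :=
  ⟨fun _ => 2, 1, 1, 0, 0, sc_gauge_trivial C β, fun z hz => absurd hz (by norm_num)⟩

theorem sc_pieces_local (C : ShCtx V W ι) (hC : C.Ok) (β : Stat ι) (hβ : 8 ≤ C.m β) (O : Set W)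
    (hO : IsOpen O) {x : W} (hx : x ∈ C.Sig β ∩ O) :
    ∃ O' : Set W, IsOpen O' ∧ x ∈ O' ∧ ∃ Fp : ℕ → Set W, (∀ k, ScPc C β O (Fp k)) ∧
      C.Sig β ∩ O' ⊆ ⋃ k, Fp k := by
  obtain ⟨η', τ', hη', hτ', hτ'5, hc⟩ := sc_consts C hC
  have hG := hC.scGeo β
  have hp := hC.cut.p_sc.1 β
  have hxE : x ∈ C.P.E β := ct_bd_subset _ hx.1.1
  obtain ⟨ψ, u₀, r, Λ, hr, hΛ, hψ, hψu, himg, hb, hK⟩ := sc_good_point hG hp hxE hO hx.2 hτ'
  have hsub : ball u₀ r ⊆ ball u₀ (3 * r) := ball_subset_ball (by linarith)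
  obtain ⟨O', hO', hO'e⟩ := (if_mono hψ isOpen_ball hsub).2.2.2.2.1
  obtain ⟨F, ρ, hF, hcov, hflat⟩ := Gmt.gmt_sing_flat hβ (ct_gmtData hG hp hψ)
    ((hC.cut.lam β).chart hG hp hψ) η' hη'
  refine ⟨O', hO', ?_, fun k => ψ '' (F k ∩ closedBall u₀ r), fun k => ?_, ?_⟩
  · have : x ∈ ψ '' ball u₀ r := ⟨u₀, mem_ball_self hr, hψu⟩
    rw [hO'e] at this
    exact this.2
  · show ScPc C β O (ψ '' (F k ∩ closedBall u₀ r))
    rcases (F k ∩ closedBall u₀ r).eq_empty_or_nonempty with he | hne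
    · rw [he, image_empty]; exact scPc_empty C β O
    · obtain ⟨δ, d, Cc, CF, T, hg, hδ⟩ := sc_gauge C hC hτ'5 hc β hβ hr hΛ (hF k).2.2 hψ hb hK
        ((hF k).1.inter_right isClosed_closedBall) hne inter_subset_right
        (fun z hz r' h0 h1 => by
          obtain ⟨L, hL, hL2⟩ := hflat k z hz.1 r' h0 h1
          exact ⟨L, hL, fun y hy => hL2 y ⟨hy.1.1, hy.2⟩⟩)
      exact ⟨δ, d, Cc, CF, T, hg, fun z hz => himg (hδ z hz)⟩
  · intro z hz
    have hzE : z ∈ C.P.E β := ct_bd_subset _ hz.1.1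
    have : z ∈ ψ '' ball u₀ r := by rw [hO'e]; exact ⟨hzE, hz.2⟩
    obtain ⟨u, hu, rfl⟩ := this
    have h1 := (ct_sing_iff hψ (C.ph β) (hsub hu)).1 hz.1
    obtain ⟨k, hk⟩ := mem_iUnion.1 (hcov h1)
    exact mem_iUnion.2 ⟨k, u, ⟨hk, ball_subset_closedBall hu⟩, rfl⟩

/-- **EXPORT 2** (`sh_need_pieces`). -/
theorem sc_pieces (C : ShCtx V W ι) (hC : C.Ok) (β : Stat ι) (O : Set W) (hO : IsOpen O) :
    ∃ (Fp : ℕ → Set W) (δ : ℕ → W → ℝ) (d Cc CF T : ℕ → ℝ),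
      (∀ n, ShGauge C β (Fp n) (δ n) (d n) (Cc n) (CF n) (T n)) ∧ (∀ n z, δ n z ≤ d n → z ∈ O) ∧
      C.Sig β ∩ O ⊆ ⋃ n, Fp n := by
  suffices h : ∃ Fp : ℕ → Set W, (∀ n, ScPc C β O (Fp n)) ∧ C.Sig β ∩ O ⊆ ⋃ n, Fp n by
    obtain ⟨Fp, h1, h2⟩ := h
    choose δ d Cc CF T hg hδ using h1
    exact ⟨Fp, δ, d, Cc, CF, T, hg, hδ, h2⟩
  rcases (C.Sig β ∩ O).eq_empty_or_nonempty with he | hne
  · exact ⟨fun _ => ∅, fun _ => scPc_empty C β O, by rw [he]; exact empty_subset _⟩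
  have hβ : 8 ≤ C.m β := by
    by_contra hlt
    push Not at hlt
    rw [sc_sing_empty C hC β hlt, empty_inter] at hne
    exact Set.not_nonempty_empty hne
  choose O' hO' hxO' Fp hFp hcov using fun x : (C.Sig β ∩ O : Set W) =>
    sc_pieces_local C hC β hβ O hO x.2
  obtain ⟨T, hT, hTe⟩ := TopologicalSpace.isOpen_iUnion_countable O' hO'
  have hTne : T.Nonempty := by
    obtain ⟨x, hx⟩ := hne
    have : x ∈ ⋃ i, O' i := mem_iUnion.2 ⟨⟨x, hx⟩, hxO' ⟨x, hx⟩⟩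
    rw [← hTe] at this
    obtain ⟨i, hi, -⟩ := mem_iUnion₂.1 this
    exact ⟨i, hi⟩
  obtain ⟨f, hf⟩ := hT.exists_eq_range hTne
  refine ⟨fun n => Fp (f n.unpair.1) n.unpair.2, fun n => hFp _ _, fun z hz => ?_⟩
  have : z ∈ ⋃ i, O' i := mem_iUnion.2 ⟨⟨z, hz⟩, hxO' ⟨z, hz⟩⟩
  rw [← hTe] at this
  obtain ⟨i, hi, hzi⟩ := mem_iUnion₂.1 this
  rw [hf] at hi
  obtain ⟨a, rfl⟩ := hi
  obtain ⟨k, hk⟩ := mem_iUnion.1 (hcov (f a) ⟨hz.1, hzi⟩)
  refine mem_iUnion.2 ⟨Nat.pair a k, ?_⟩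
  simp only [Nat.unpair_pair]
  exact hk


theorem sc_smooth_on_closed {X : Set W} (hX : IsClosed X) {f : W → ℝ} (hf : ContinuousOn f X)
    {ε : ℝ} (hε : 0 < ε) : ∃ g : W → ℝ, ContDiff ℝ ∞ g ∧ ∀ z ∈ X, |g z - f z| ≤ ε := by
  obtain ⟨G, hG⟩ := ContinuousMap.exists_restrict_eq hX
    (⟨X.domRestrict f, continuousOn_iff_continuous_domRestrict.1 hf⟩ : C(X, ℝ))
  obtain ⟨g, hg, hd, -⟩ := G.continuous.exists_contDiff_approx ⊤ (ε := fun _ => ε)
    continuous_const (fun _ => hε)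
  refine ⟨g, hg, fun z hz => ?_⟩
  have h1 : G z = f z := by
    have := congrArg (fun φ : C(X, ℝ) => φ ⟨z, hz⟩) hG
    exact this
  have := hd z
  rw [Real.dist_eq, h1] at this
  exact this.le

/-- compatible smoothing of a compatible continuous function (`packet:approximation`). -/
theorem sc_compat_smooth {n : ℕ} {M : Set V} {F : Frame V W ι} {E' : Stat ι → Set W}
    (hD : IsDiag n M F E') {f : W → ℝ} (hf : CC F E' f) {ε : ℝ} (hε : 0 < ε) :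
    ∃ g : W → ℝ, SC n F E' g ∧ ∀ z ∈ tot E', |g z - f z| ≤ ε := by
  obtain ⟨T1, h1s, h10, h1⟩ := hD.exists_thr
  obtain ⟨T2, h2s, h20, h2⟩ := hf.2.exists_thr
  set T : V → ℝ := fun x => T1 x + T2 x with hTdef
  have hTs : ContDiff ℝ ∞ T := h1s.add h2s
  have hT0 : ∀ x, 0 ≤ T x := fun x => add_nonneg (h10 x) (h20 x)
  have hT : DThr F E' T := h1.mono fun x => by
    have := h20 x; simp only [hTdef]; linarith
  have hTf : Thr F E' f T := h2.mono fun x => by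
    have := h10 x; simp only [hTdef]; linarith
  choose v hvs hv using fun α => sc_smooth_on_closed (hD.closed α) (hf.1 α) hε
  have hu : ∀ α, SmoothAlong (n - hits α) (E' α) (pkGlue E' v) := fun α =>
    pk_smoothAlong_congr (if_smoothAlong_of_contDiff (hvs α)) fun z hz => pkGlue_eq hD v hz
  refine ⟨pkBlend F T (pkGlue E' v), pkBlend_sc hD hT0 hTs hT hu, fun z hz => ?_⟩
  obtain ⟨α, hα⟩ := mem_tot.1 hz
  refine pkBlend_sub_le F T _ fun S hS => ?_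
  have hm := pkWt_dropS_mem hD hT0 hT hα hS
  rw [pkGlue_eq hD v hm, ← hTf.dropS hD hT0 hT S hz fun i hi => by
    linarith [(pkWt_ne_zero F hS).1 i hi]]
  exact hv _ _ hm


/-- the clip `EReal → [-1, 1]`. -/
noncomputable def scClip (x : EReal) : ℝ := (max (-1) (min 1 x)).toReal

theorem sc_ereal_one : (1 : EReal) = ((1 : ℝ) : EReal) := EReal.coe_one.symm

theorem sc_ereal_neg_one : (-1 : EReal) = ((-1 : ℝ) : EReal) := by
  rw [EReal.coe_neg, EReal.coe_one]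

theorem sc_ereal_le : (-1 : EReal) ≤ 1 := by
  rw [sc_ereal_neg_one, sc_ereal_one]
  exact EReal.coe_le_coe_iff.2 (by norm_num)

theorem scClip_continuous : Continuous scClip := by
  unfold scClip
  refine EReal.continuousOn_toReal.comp_continuous
    (continuous_const.max (continuous_const.min continuous_id)) fun x => ?_
  simp only [mem_compl_iff, mem_insert_iff, mem_singleton_iff, not_or]
  constructor
  · intro h
    have h1 : (-1 : EReal) ≤ max (-1) (min 1 x) := le_max_left _ _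
    rw [h, le_bot_iff, sc_ereal_neg_one] at h1
    exact EReal.coe_ne_bot _ h1
  · intro h
    have h1 : max (-1) (min 1 x) ≤ (1 : EReal) := max_le sc_ereal_le (min_le_left _ _)
    rw [h, top_le_iff, sc_ereal_one] at h1
    exact EReal.coe_ne_top _ h1

theorem scClip_bot : scClip ⊥ = -1 := by
  unfold scClip
  have : max (-1 : EReal) (min 1 ⊥) = ((-1 : ℝ) : EReal) := by
    rw [min_eq_right bot_le, max_eq_left bot_le, sc_ereal_neg_one]
  rw [this, EReal.toReal_coe]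

theorem scClip_top : scClip ⊤ = 1 := by
  unfold scClip
  have : max (-1 : EReal) (min 1 ⊤) = ((1 : ℝ) : EReal) := by
    rw [min_eq_left le_top, max_eq_right sc_ereal_le, sc_ereal_one]
  rw [this, EReal.toReal_coe]

/-- **EXPORT 1** (`sh_need_anchor`). -/
theorem sc_anchor (C : ShCtx V W ι) (hC : C.Ok) : ∃ hh tt, ShAnchor C hh tt := by
  classical
  have hex : ∀ j : C.B.J, ∃ g : W → ℝ, SC C.B.n C.F C.P.E g ∧
      (j ∈ C.R → ∀ z ∈ tot C.P.E, |g z - scClip (C.P.mu j z)| ≤ 0.1) := by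
    intro j
    by_cases hj : j ∈ C.R
    · have hcc := (hC.inv.label j hj.1).mu_cc
      have hf : CC C.F C.P.E (fun z => scClip (C.P.mu j z)) := by
        refine ⟨fun α => scClip_continuous.comp_continuousOn (hcc.1 α), fun i K hK => ?_⟩
        obtain ⟨R, hR⟩ := hcc.2 i K hK
        exact ⟨R, fun z hz hq hlt => by simp only [hR z hz hq hlt]⟩
      obtain ⟨g, hg, hgε⟩ := sc_compat_smooth hC.inv.diag hf (ε := 0.1) (by norm_num)
      exact ⟨g, hg, fun _ => hgε⟩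
    · exact ⟨fun _ => 0, ⟨fun α => if_smoothAlong_const 0, fun i K _ => ⟨0, fun _ _ _ _ => rfl⟩⟩,
        fun h => absurd h hj⟩
  choose hh hsc hap using hex
  have := hC.base.cnt
  obtain ⟨a, ha, hfew⟩ := sc_anchors (J := C.B.J) (K := Stat ι) (fun α => C.m α) (fun α => C.P.E α)
    (fun _ => C.P.h) (fun _ => C.P.dr) (fun _ => C.p) (fun α => C.ph α) (fun α => hC.scGeo α)
    (fun α => hC.cut.p_sc.1 α) (fun α => hC.cut.lam α) hh (fun α j => (hsc j).1 α)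
  refine ⟨hh, a, ⟨fun j _ => ⟨fun α => if_smoothAlong_continuousOn (hC.inv.diag.mfd α) ((hsc j).1 α),
    (hsc j).2⟩, fun j hj z hz hm => ?_, fun j hj z hz hm => ?_, fun α z hz s hs => ?_⟩⟩
  · have h1 := hap j hj z hz
    rw [hm, scClip_bot] at h1
    have h2 := (abs_le.1 h1).2
    have h3 := (ha j).1
    linarith
  · have h1 := hap j hj z hz
    rw [hm, scClip_top] at h1
    have h2 := (abs_le.1 h1).1
    have h3 := (ha j).2
    linarith
  · by_cases hα : C.m α < 8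
    · rw [sc_sing_empty C hC α hα] at hz
      exact absurd hz (notMem_empty z)
    · push Not at hα
      have := hfew α hα z hz s fun j hj => (hs j hj).2
      omega


end Claimed.Agent.R315
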