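import Claimed.Agent.R315.Sc.GoodB
import Claimed.Agent.R315.Sh.Ctx
import Claimed.Agent.R315.Sh.RdLoc

/-!
# Row 315, package Sc, part 10: THE GAUGE of a flat piece (all fields of `ShGauge`).   Architect: helper257.   PACKAGE L-SC-GAUGE.

Setting: `(ψ, ball u₀ (3r))` a good chart of `M = E β` (`sc_good_point`, `τ ≤ 0.005`), `F₀ ⊆ closedBall u₀ r` compact nonempty, `r₀ = r`; `U ∩ scTube F₀ r ⊆ closedBall u₀ (2r) ⊆ U`.
`scGa ψ U F₀ dd z = min (0.995 · infDist (ψ⁻¹ z) F₀) (2 dd)` on `ψ '' U`, `= 2 dd` elsewhere; `2.02 dd ≤ r`.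

1. `sc_gauge_top`.  `{δ ≤ dd} = ψ '' {u ∈ closedBall u₀ (2r) | 0.995 infDist u F₀ ≤ dd}`: compact image.  Continuity on `M`: on the relatively open `ψ '' U` composition with the continuous `ψ⁻¹` (`IsParam`, last field);
   at `z ∈ M` outside the compact `ψ '' closedBall u₀ (2r)` the function is `≡ 2dd` near `z` (for `u ∈ U`, `|u - u₀| > 2r`: `infDist u F₀ > r ≥ 2.02 dd`).  `δ = 0 ↔ infDist = 0 ↔ u ∈ F₀` (`IsClosed.mem_iff_infDist_zero`).
2. `sc_gauge_slope`.  `Gam ≤ 1.005` gives `G ≥ 1/1.005`: `|X|² ≤ 1.005 G(X,X)` (dual Cauchy-Schwarz `if_cs_dual`).  For `z = ψ u`, `ρ₁` with `ball u (3ρ₁) ⊆ U`, `y, y' ∈ ψ '' ball u ρ₁`: every admissible curve from `y` to `y'` in `M` has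
   `h`-length `≥ |ψ⁻¹y - ψ⁻¹y'|/√1.005`: as long as it stays in `ψ '' ball u (3ρ₁)` lift it (`if_speed_sq_lift`, `If/Lip.lean`) and integrate; if it leaves, its length is already `≥ 2ρ₁/√1.005`.  EASIER: apply `if_lip`/`if_lip_curve` to smooth test functions:
   for a unit vector `a` the function `f = κ(·)⟪ψ⁻¹ ·, a⟫` (cut off) has `gradSq ≤ 1.005` near `z`...; or use `pk_slope_chart` (`Pk/PressC.lean`), which is exactly the comparison of slopes in a chart.  `infDist` is 1-Lipschitz, `min` with a constant does not increase differences; `0.995 √1.005 ≤ 1`.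
3. `sc_gauge_cut`.  `l = sc_moll_dist F₀ (r'/10)`, `χ = scC ((0.995 l(ψ⁻¹ z)/r' - 1.2)/0.6)` on `ψ '' U`, `0` elsewhere.  `δ ≤ r' → 0.995 l ≤ 1.1 r'`: `χ = 1`; `δ ≥ 2r' → 0.995 l ≥ 1.9 r'`: `χ = 0`.  Smooth along `M`: `if_*_of_atlas`/locality: near points of `ψ '' U` smooth function of the chart
   (transition maps are smooth: `if_tr`), near the other points `≡ 0`.  `gradSq χ = Gam(∇,∇) ≤ 1.005 (sup|scC'| · 0.995/(0.6 r'))²`: `Cc = 2 √scB2`.
4. `sc_consts`: `sc_mf_hy` for every `d = C.m α ≥ 8`; `Stat ι` is finite: `η* = min`, `τ* = min`, then for given `(rF, r₀, Λ)`: `dd = min`, `CF = max`; `ScSet.mono`, `sc_bud_mono`, monotonicity of `scHw` in `dd` and of `ScWin` in `B₀` (`|J| ≤ card ι`).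
5. `sc_gauge_hy`: for each of the finitely many `(α, J)`: `sc_set_coface` gives `T_{α,J}`, `Ψ, U', π, θ`; `T = max`.  Weight comparison on `E α` (the measures of the tests vanish off `E α`; use `Bud` for the a.e. larger weight or redefine the weight off `E α`: `lintegral_mono_ae`):
   if `z ∈ tailS α J T` and `δ(dropS J z) < dd` then `dropS J z = ψ u`, `u ∈ U`, `z = Ψ x`, `θ x = 1`, `infDist x (π⁻¹F₀) = infDist u F₀ =: s`, `0.995 s < dd`, and
   `3.5 / max(0.995 s, ρ)² = (3.5/0.995²) / max(s, ρ/0.995)² ≤ 3.55 scM (π⁻¹F₀) (ρ/0.995) x`, `s < dd/0.995 ≤ dd_chart`.   So `dd₀ = 0.995 dd_chart`.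
-/

set_option autoImplicit false
set_option linter.unusedSectionVars false
open scoped ContDiff Topology ENNReal RealInnerProductSpace
open MeasureTheory Set Metric

namespace Claimed.Agent.R315

noncomputable section

variable {V W : Type} [NormedAddCommGroup V] [NormedSpace ℝ V] [FiniteDimensional ℝ V]
  [NormedAddCommGroup W] [NormedSpace ℝ W] [FiniteDimensional ℝ W]
variable {d : ℕ}

open Classical in
/-- the gauge. -/
def scGa (ψ : E d → W) (U F : Set (E d)) (dd : ℝ) (z : W) : ℝ :=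
  if z ∈ ψ '' U then min (0.995 * infDist (Function.invFunOn ψ U z) F) (2 * dd) else 2 * dd

variable {M : Set W} {h : Ten W} {t p : W → ℝ} {ψ : E d → W} {u₀ : E d} {r Λ : ℝ} {F₀ : Set (E d)}

theorem sc_ga_chart {U : Set (E d)} (hψ : IsParam M ψ U) (F : Set (E d)) (dd : ℝ) {u : E d}
    (hu : u ∈ U) : scGa ψ U F dd (ψ u) = min (0.995 * infDist u F) (2 * dd) := by
  unfold scGa
  rw [if_pos (mem_image_of_mem ψ hu), if_leftInv hψ hu]

theorem sc_ga_off {U : Set (E d)} (F : Set (E d)) (dd : ℝ) {z : W} (hz : z ∉ ψ '' U) :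
    scGa ψ U F dd z = 2 * dd := by
  unfold scGa
  rw [if_neg hz]

theorem sc_ga_nonneg {U : Set (E d)} (F : Set (E d)) {dd : ℝ} (h0 : 0 < dd) (z : W) :
    0 ≤ scGa ψ U F dd z := by
  unfold scGa
  split_ifs
  · exact le_min (mul_nonneg (by norm_num) infDist_nonneg) (by linarith)
  · linarith

theorem sc_ga_le {U : Set (E d)} (F : Set (E d)) (dd : ℝ) (z : W) :
    scGa ψ U F dd z ≤ 2 * dd := by
  unfold scGa
  split_ifs
  · exact min_le_right _ _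
  · exact le_rfl

/-- points of the chart far from the centre are far from `F₀`. -/
theorem sc_far (hFs : F₀ ⊆ closedBall u₀ r) (hF0 : F₀.Nonempty) {u : E d}
    (hu : 2 * r < dist u u₀) : r ≤ infDist u F₀ := by
  refine (le_infDist hF0).2 fun y hy => ?_
  have h1 : dist y u₀ ≤ r := hFs hy
  have h2 := dist_triangle u y u₀
  linarith

theorem sc_gauge_top (hr : 0 < r) (hψ : IsParam M ψ (ball u₀ (3 * r))) (hF : IsCompact F₀)
    (hF0 : F₀.Nonempty) (hFs : F₀ ⊆ closedBall u₀ r) {dd : ℝ} (h0 : 0 < dd) (h1 : 2.02 * dd ≤ r) :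
    (∀ z, scGa ψ (ball u₀ (3 * r)) F₀ dd z ≤ dd → z ∈ ψ '' ball u₀ (3 * r)) ∧
    IsCompact {z | scGa ψ (ball u₀ (3 * r)) F₀ dd z ≤ dd} ∧
    ContinuousOn (scGa ψ (ball u₀ (3 * r)) F₀ dd) M ∧
    (∀ z, 0 ≤ scGa ψ (ball u₀ (3 * r)) F₀ dd z) ∧
    ∀ z, scGa ψ (ball u₀ (3 * r)) F₀ dd z = 0 ↔ z ∈ ψ '' F₀ := by
  have hA : ∀ z, scGa ψ (ball u₀ (3 * r)) F₀ dd z ≤ dd → z ∈ ψ '' ball u₀ (3 * r) := by
    intro z hz
    by_contra hcon
    rw [sc_ga_off F₀ dd hcon] at hz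
    linarith
  have h2U : closedBall u₀ (2 * r) ⊆ ball u₀ (3 * r) := closedBall_subset_ball (by linarith)
  have hKc : IsCompact (ψ '' closedBall u₀ (2 * r)) :=
    (isCompact_closedBall _ _).image_of_continuousOn ((if_continuousOn hψ).mono h2U)
  -- outside the compact set the gauge is constant
  have hout : ∀ z, z ∉ ψ '' closedBall u₀ (2 * r) → scGa ψ (ball u₀ (3 * r)) F₀ dd z = 2 * dd := by
    intro z hz
    by_cases hzU : z ∈ ψ '' ball u₀ (3 * r)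
    · obtain ⟨u, hu, rfl⟩ := hzU
      rw [sc_ga_chart hψ F₀ dd hu]
      have h3 : 2 * r < dist u u₀ := by
        by_contra hcon
        push Not at hcon
        exact hz (mem_image_of_mem ψ (mem_closedBall.2 hcon))
      have h4 := sc_far hFs hF0 h3
      exact min_eq_right (by nlinarith)
    · exact sc_ga_off F₀ dd hzU
  refine ⟨hA, ?_, ?_, sc_ga_nonneg F₀ h0, ?_⟩
  · have hset : {z | scGa ψ (ball u₀ (3 * r)) F₀ dd z ≤ dd} =
        ψ '' (closedBall u₀ (2 * r) ∩ {u | 0.995 * infDist u F₀ ≤ dd}) := by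
      ext z
      constructor
      · intro hz
        have hz' : scGa ψ (ball u₀ (3 * r)) F₀ dd z ≤ dd := hz
        have hzK : z ∈ ψ '' closedBall u₀ (2 * r) := by
          by_contra hcon
          rw [hout z hcon] at hz'
          linarith
        obtain ⟨u, hu, rfl⟩ := hzK
        rw [sc_ga_chart hψ F₀ dd (h2U hu)] at hz'
        refine ⟨u, ⟨hu, ?_⟩, rfl⟩
        rcases min_le_iff.1 hz' with h5 | h5
        · exact h5
        · linarith
      · rintro ⟨u, ⟨hu, hu2⟩, rfl⟩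
        show scGa ψ (ball u₀ (3 * r)) F₀ dd (ψ u) ≤ dd
        rw [sc_ga_chart hψ F₀ dd (h2U hu)]
        exact (min_le_left _ _).trans hu2
    rw [hset]
    refine ((isCompact_closedBall _ _).inter_right ?_).image_of_continuousOn
      ((if_continuousOn hψ).mono fun u hu => h2U hu.1)
    exact isClosed_le (continuous_const.mul (continuous_infDist_pt F₀)) continuous_const
  · intro z hzM
    by_cases hzK : z ∈ ψ '' closedBall u₀ (2 * r)
    · obtain ⟨O, hO, hOe⟩ := if_image hψ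
      have hzU : z ∈ ψ '' ball u₀ (3 * r) := image_mono h2U hzK
      have hzO : z ∈ O := (hOe ▸ hzU : z ∈ M ∩ O).2
      have hc : ContinuousOn (fun z => min (0.995 * infDist (Function.invFunOn ψ (ball u₀ (3 * r)) z)
          F₀) (2 * dd)) (ψ '' ball u₀ (3 * r)) :=
        ContinuousOn.inf (continuousOn_const.mul ((continuous_infDist_pt F₀).comp_continuousOn
          (if_contInv hψ))) continuousOn_const
      have hc2 : ContinuousOn (scGa ψ (ball u₀ (3 * r)) F₀ dd) (M ∩ O) := by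
        rw [← hOe]
        refine hc.congr fun y hy => ?_
        unfold scGa
        rw [if_pos hy]
      exact (continuousWithinAt_inter (hO.mem_nhds hzO)).1 (hc2 z ⟨hzM, hzO⟩)
    · have h5 : (ψ '' closedBall u₀ (2 * r))ᶜ ∈ 𝓝 z := hKc.isClosed.isOpen_compl.mem_nhds hzK
      have h6 : scGa ψ (ball u₀ (3 * r)) F₀ dd =ᶠ[𝓝 z] fun _ => 2 * dd := by
        filter_upwards [h5] with y hy
        exact hout y hy
      exact (continuousAt_const.congr h6.symm).continuousWithinAt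
  · intro z
    constructor
    · intro hz
      obtain ⟨u, hu, rfl⟩ := hA z (by rw [hz]; exact h0.le)
      rw [sc_ga_chart hψ F₀ dd hu] at hz
      have h5 : 0.995 * infDist u F₀ = 0 := by
        rcases min_choice (0.995 * infDist u F₀) (2 * dd) with h6 | h6
        · rw [← h6]; exact hz
        · rw [h6] at hz; linarith
      have h6 : infDist u F₀ = 0 := by linarith
      exact mem_image_of_mem ψ ((hF.isClosed.mem_iff_infDist_zero hF0).2 h6)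
    · rintro ⟨u, hu, rfl⟩
      have huU : u ∈ ball u₀ (3 * r) := closedBall_subset_ball (by linarith) (hFs hu)
      rw [sc_ga_chart hψ F₀ dd huU, (hF.isClosed.mem_iff_infDist_zero hF0).1 hu, mul_zero]
      exact min_eq_left (by linarith)

/-- functions of the chart. -/
theorem sc_chart_fun {U : Set (E d)} (hG : CtGeo d M h t) (hψ : IsParam M ψ U) {O : Set W}
    (hO : IsOpen O) (hOe : ψ '' U = M ∩ O) {g : E d → ℝ} (hg : ContDiffOn ℝ ∞ g U) :
    SmoothAlong d (M ∩ O) (fun z => g (Function.invFunOn ψ U z)) ∧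
    ∀ u ∈ U, gradSq d (M ∩ O) h (fun z => g (Function.invFunOn ψ U z)) (ψ u) =
      if_bil (cm h ψ u)⁻¹ (gradient g u) (gradient g u) := by
  have hψ' : IsParam (M ∩ O) ψ U := if_param_inter hψ (by rw [hOe]; exact inter_subset_right)
  have hs : SmoothAlong d (M ∩ O) (fun z => g (Function.invFunOn ψ U z)) :=
    if_smoothAlong_of_atlas fun x hx => ⟨ψ, U, hψ', hOe ▸ hx, hg.congr fun u hu => by
      show g (Function.invFunOn ψ U (ψ u)) = g u
      rw [if_leftInv hψ hu]⟩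
  refine ⟨hs, fun u hu => ?_⟩
  rw [if_gradSq_eq (if_isMetricOn_inter hG.met hO) hs hψ' hu]
  show gradIpC _ _ _ _ = _
  rw [sc_gradIpC_eq]
  have h1 : (fun z => g (Function.invFunOn ψ U z)) ∘ ψ =ᶠ[𝓝 u] g := by
    filter_upwards [(if_open hψ).mem_nhds hu] with w hw
    show g (Function.invFunOn ψ U (ψ w)) = g w
    rw [if_leftInv hψ hw]
  have h2 : gradient ((fun z => g (Function.invFunOn ψ U z)) ∘ ψ) u = gradient g u := by
    unfold gradient
    rw [h1.fderiv_eq]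
  rw [h2]

theorem sc_chart_grad_le {U : Set (E d)} (hb : ScBd h t p ψ U 0.005 Λ) {u : E d} (hu : u ∈ U)
    {g : E d → ℝ} {L : ℝ} (hL : ‖fderiv ℝ g u‖ ≤ L) :
    if_bil (cm h ψ u)⁻¹ (gradient g u) (gradient g u) ≤ 1.005 * L ^ 2 := by
  have h1 := (abs_le.1 (hb.close u hu (gradient g u))).2
  rw [Gmt.norm_gradient] at h1
  have h2 : ‖fderiv ℝ g u‖ ^ 2 ≤ L ^ 2 := pow_le_pow_left₀ (norm_nonneg _) hL 2
  nlinarith

theorem sc_gauge_slope (hG : CtGeo d M h t) (hr : 0 < r) (hψ : IsParam M ψ (ball u₀ (3 * r)))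
    (hb : ScBd h t p ψ (ball u₀ (3 * r)) 0.005 Λ) (hF0 : F₀.Nonempty) {dd : ℝ} (h0 : 0 < dd) (z : W)
    (hz : scGa ψ (ball u₀ (3 * r)) F₀ dd z < dd) :
    SlopeLE M h (scGa ψ (ball u₀ (3 * r)) F₀ dd) z 1 := by
  have hzU : z ∈ ψ '' ball u₀ (3 * r) := by
    by_contra hcon
    rw [sc_ga_off F₀ dd hcon] at hz
    linarith
  obtain ⟨O, hO, hOe⟩ := if_image hψ
  have hzMO : z ∈ M ∩ O := hOe ▸ hzU
  obtain ⟨N, hN, -, hNd⟩ := sh_rdist_local hG.mfd hG.met hzMO.1 hO hzMO.2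
  intro ε hε
  refine ⟨N ∩ O, Filter.inter_mem hN (hO.mem_nhds hzMO.2), fun y hy y' hy' => ?_⟩
  obtain ⟨hj, hd⟩ := hNd y ⟨hy.1.1, hy.2⟩ y' ⟨hy'.1.1, hy'.2⟩
  have hyU : y ∈ ψ '' ball u₀ (3 * r) := hOe ▸ (⟨hy.2, hy.1.2⟩ : y ∈ M ∩ O)
  have hyU' : y' ∈ ψ '' ball u₀ (3 * r) := hOe ▸ (⟨hy'.2, hy'.1.2⟩ : y' ∈ M ∩ O)
  obtain ⟨a, ha, rfl⟩ := hyU
  obtain ⟨a', ha', rfl⟩ := hyU'
  rw [sc_ga_chart hψ F₀ dd ha, sc_ga_chart hψ F₀ dd ha']
  have hnn : 0 ≤ rdist M h (ψ a) (ψ a') := if_rdist_nonneg _ _ _ _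
  have key : |0.995 * infDist a F₀ - 0.995 * infDist a' F₀| ≤ rdist (M ∩ O) h (ψ a) (ψ a') := by
    refine le_of_forall_pos_le_add fun s hs => ?_
    obtain ⟨l, hl, hl1, hl2⟩ := sc_moll_dist F₀ (s := s / 2) (by positivity)
    have hg : ContDiff ℝ ∞ fun u => 0.995 * l u := contDiff_const.mul hl
    obtain ⟨hs1, hs2⟩ := sc_chart_fun hG hψ hO hOe hg.contDiffOn
    have hgr : ∀ x ∈ M ∩ O, gradSq d (M ∩ O) h
        (fun z => 0.995 * l (Function.invFunOn ψ (ball u₀ (3 * r)) z)) x ≤ 1 ^ 2 := by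
      intro x hx
      obtain ⟨u, hu, rfl⟩ : x ∈ ψ '' ball u₀ (3 * r) := hOe ▸ hx
      rw [hs2 u hu]
      have h3 : ‖fderiv ℝ (fun u => 0.995 * l u) u‖ ≤ 0.995 := by
        rw [fderiv_const_mul (hl.differentiable (by simp) u), norm_smul]
        have := hl1 u
        rw [Real.norm_eq_abs, abs_of_pos (by norm_num : (0 : ℝ) < 0.995)]
        linarith
      refine (sc_chart_grad_le hb hu h3).trans (by norm_num)
    have h4 := if_lip (if_mfd_inter hG.mfd hO) (if_isMetricOn_inter hG.met hO) hs1 zero_le_one hgr hj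
    simp only [if_leftInv hψ ha, if_leftInv hψ ha', one_mul] at h4
    have h5 := abs_le.1 (hl2 a)
    have h6 := abs_le.1 (hl2 a')
    have h7 := abs_le.1 h4
    rw [abs_le]
    constructor <;> linarith [h5.1, h5.2, h6.1, h6.2, h7.1, h7.2]
  calc |min (0.995 * infDist a F₀) (2 * dd) - min (0.995 * infDist a' F₀) (2 * dd)|
      ≤ max |0.995 * infDist a F₀ - 0.995 * infDist a' F₀| |2 * dd - 2 * dd| :=
        abs_min_sub_min_le_max _ _ _ _
    _ = |0.995 * infDist a F₀ - 0.995 * infDist a' F₀| := by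
        rw [sub_self, abs_zero]; exact max_eq_left (abs_nonneg _)
    _ ≤ rdist M h (ψ a) (ψ a') := key.trans hd
    _ ≤ (1 + ε) * rdist M h (ψ a) (ψ a') := by nlinarith

theorem sc_gradSq_chart {U : Set (E d)} (hG : CtGeo d M h t) (hψ : IsParam M ψ U) {f : W → ℝ}
    (hf : SmoothAlong d M f) {u : E d} (hu : u ∈ U) {g : E d → ℝ} (he : f ∘ ψ =ᶠ[𝓝 u] g) :
    gradSq d M h f (ψ u) = if_bil (cm h ψ u)⁻¹ (gradient g u) (gradient g u) := by
  rw [if_gradSq_eq hG.met hf hψ hu]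
  show gradIpC _ _ _ _ = _
  rw [sc_gradIpC_eq]
  have h2 : gradient (f ∘ ψ) u = gradient g u := by
    unfold gradient
    rw [he.fderiv_eq]
  rw [h2]

theorem sc_scC_deriv_le (s : ℝ) : |deriv scC s| ≤ Real.sqrt scB2 := by
  have h1 := sc_CG_deriv.choose_spec.2 s
  exact Real.abs_le_sqrt (by
    have : deriv scC s ^ 2 + deriv scG s ^ 2 ≤ scB2 := h1
    nlinarith [sq_nonneg (deriv scG s)])

theorem sc_scB2_pos : 0 < scB2 := sc_CG_deriv.choose_spec.1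

/-- the derivative of a rescaled cut. -/
theorem sc_cut_fderiv_le {l : E d → ℝ} (hl : ContDiff ℝ ∞ l) (hl1 : ∀ x, ‖fderiv ℝ l x‖ ≤ 1)
    {r' : ℝ} (hr' : 0 < r') (u : E d) :
    ‖fderiv ℝ (fun u => scC ((0.995 * l u / r' - 1.2) / 0.6)) u‖ ≤
      Real.sqrt scB2 * (0.995 / (0.6 * r')) := by
  have h1 : HasFDerivAt (fun u => (0.995 * l u / r' - 1.2) / 0.6)
      ((0.995 / (0.6 * r')) • fderiv ℝ l u) u := by
    have h2 := ((hl.differentiable (by simp) u).hasFDerivAt.const_mul (0.995 / (0.6 * r'))).sub_const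
      (1.2 / 0.6)
    refine h2.congr_of_eventuallyEq (Filter.Eventually.of_forall fun w => ?_)
    show (0.995 * l w / r' - 1.2) / 0.6 = 0.995 / (0.6 * r') * l w - 1.2 / 0.6
    field_simp
  have h3 : HasFDerivAt (fun u => scC ((0.995 * l u / r' - 1.2) / 0.6))
      (deriv scC ((0.995 * l u / r' - 1.2) / 0.6) • ((0.995 / (0.6 * r')) • fderiv ℝ l u)) u :=
    ((scC_contDiff.differentiable (by simp) _).hasDerivAt).comp_hasFDerivAt u h1
  rw [h3.fderiv, norm_smul, norm_smul, Real.norm_eq_abs, Real.norm_eq_abs,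
    abs_of_pos (show (0 : ℝ) < 0.995 / (0.6 * r') by positivity)]
  have h4 := sc_scC_deriv_le ((0.995 * l u / r' - 1.2) / 0.6)
  have h5 := hl1 u
  have h6 : (0 : ℝ) < 0.995 / (0.6 * r') := by positivity
  calc |deriv scC ((0.995 * l u / r' - 1.2) / 0.6)| * (0.995 / (0.6 * r') * ‖fderiv ℝ l u‖)
      ≤ Real.sqrt scB2 * (0.995 / (0.6 * r') * 1) := by gcongr
    _ = Real.sqrt scB2 * (0.995 / (0.6 * r')) := by rw [mul_one]

theorem sc_gauge_cut (hG : CtGeo d M h t) (hr : 0 < r) (hψ : IsParam M ψ (ball u₀ (3 * r)))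
    (hb : ScBd h t p ψ (ball u₀ (3 * r)) 0.005 Λ) (hF : IsCompact F₀) (hF0 : F₀.Nonempty)
    (hFs : F₀ ⊆ closedBall u₀ r) {dd : ℝ} (h0 : 0 < dd) (h1 : 2.02 * dd ≤ r) (r' : ℝ) (hr' : 0 < r')
    (hr2 : 2 * r' ≤ dd) :
    ∃ χ : W → ℝ, SmoothAlong d M χ ∧ (∀ z, 0 ≤ χ z ∧ χ z ≤ 1) ∧
      (∀ z, scGa ψ (ball u₀ (3 * r)) F₀ dd z ≤ r' → χ z = 1) ∧
      (∀ z, 2 * r' ≤ scGa ψ (ball u₀ (3 * r)) F₀ dd z → χ z = 0) ∧
      ∀ z ∈ M, gradSq d M h χ z ≤ (2 * Real.sqrt scB2 / r') ^ 2 := by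
  classical
  obtain ⟨l, hl, hl1, hl2⟩ := sc_moll_dist F₀ (s := r' / 10) (by positivity)
  set g : E d → ℝ := fun u => scC ((0.995 * l u / r' - 1.2) / 0.6) with hg
  have hgs : ContDiff ℝ ∞ g :=
    scC_contDiff.comp ((((contDiff_const.mul hl).div_const r').sub contDiff_const).div_const 0.6)
  set χ : W → ℝ := fun z => if z ∈ ψ '' ball u₀ (3 * r) then
    g (Function.invFunOn ψ (ball u₀ (3 * r)) z) else 0 with hχ
  have hχc : ∀ u ∈ ball u₀ (3 * r), χ (ψ u) = g u := by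
    intro u hu
    show (if ψ u ∈ ψ '' ball u₀ (3 * r) then g (Function.invFunOn ψ (ball u₀ (3 * r)) (ψ u))
      else 0) = g u
    rw [if_pos (mem_image_of_mem ψ hu), if_leftInv hψ hu]
  have hχo : ∀ z, z ∉ ψ '' ball u₀ (3 * r) → χ z = 0 := fun z hz => if_neg hz
  have hzero : ∀ z, 2 * r' ≤ scGa ψ (ball u₀ (3 * r)) F₀ dd z → χ z = 0 := by
    intro z hz
    by_cases hzU : z ∈ ψ '' ball u₀ (3 * r)
    · obtain ⟨u, hu, rfl⟩ := hzU
      rw [sc_ga_chart hψ F₀ dd hu] at hz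
      rw [hχc u hu]
      have h2 := (le_min_iff.1 hz).1
      have h3 := (abs_le.1 (hl2 u)).1
      refine scC_of_one_le ?_
      rw [le_div_iff₀ (by norm_num), le_sub_iff_add_le, le_div_iff₀ hr']
      linarith
    · exact hχo z hzU
  have h2U : closedBall u₀ (2 * r) ⊆ ball u₀ (3 * r) := closedBall_subset_ball (by linarith)
  have hKc : IsCompact (ψ '' closedBall u₀ (2 * r)) :=
    (isCompact_closedBall _ _).image_of_continuousOn ((if_continuousOn hψ).mono h2U)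
  have hout : ∀ z, z ∉ ψ '' closedBall u₀ (2 * r) → χ z = 0 := by
    intro z hz
    by_cases hzU : z ∈ ψ '' ball u₀ (3 * r)
    · refine hzero z ?_
      obtain ⟨u, hu, rfl⟩ := hzU
      rw [sc_ga_chart hψ F₀ dd hu]
      have h3 : 2 * r < dist u u₀ := by
        by_contra hcon
        push Not at hcon
        exact hz (mem_image_of_mem ψ (mem_closedBall.2 hcon))
      have h4 := sc_far hFs hF0 h3
      exact le_min (by nlinarith) (by linarith)
    · exact hχo z hzU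
  obtain ⟨O, hO, hOe⟩ := if_image hψ
  have hsm : SmoothAlong d M χ := by
    refine if_smoothAlong_of_zero_off hO hKc.isClosed ?_ ?_ fun x _ hx => hout x hx
    · exact (image_mono h2U).trans (by rw [hOe]; exact inter_subset_right)
    · refine if_smoothAlong_congr (sc_chart_fun hG hψ hO hOe hgs.contDiffOn).1 fun x hx => ?_
      exact if_pos (hOe ▸ hx)
  refine ⟨χ, hsm, fun z => ?_, fun z hz => ?_, hzero, fun z hzM => ?_⟩
  · by_cases hzU : z ∈ ψ '' ball u₀ (3 * r)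
    · obtain ⟨u, hu, rfl⟩ := hzU
      rw [hχc u hu]
      exact ⟨scC_nonneg _, scC_le_one _⟩
    · rw [hχo z hzU]
      exact ⟨le_rfl, zero_le_one⟩
  · have hzU : z ∈ ψ '' ball u₀ (3 * r) := by
      by_contra hcon
      rw [sc_ga_off F₀ dd hcon] at hz
      linarith
    obtain ⟨u, hu, rfl⟩ := hzU
    rw [sc_ga_chart hψ F₀ dd hu] at hz
    rw [hχc u hu]
    have h2 : 0.995 * infDist u F₀ ≤ r' := by
      rcases min_le_iff.1 hz with h5 | h5
      · exact h5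
      · linarith
    have h3 := (abs_le.1 (hl2 u)).2
    refine scC_of_nonpos ?_
    apply div_nonpos_of_nonpos_of_nonneg _ (by norm_num)
    rw [sub_nonpos, div_le_iff₀ hr']
    linarith
  · have hpos : 0 ≤ (2 * Real.sqrt scB2 / r') ^ 2 := sq_nonneg _
    by_cases hzK : z ∈ ψ '' closedBall u₀ (2 * r)
    · obtain ⟨u, hu, rfl⟩ := hzK
      have huU := h2U hu
      have he : χ ∘ ψ =ᶠ[𝓝 u] g := by
        filter_upwards [isOpen_ball.mem_nhds huU] with w hw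
        exact hχc w hw
      rw [sc_gradSq_chart hG hψ hsm huU he]
      refine (sc_chart_grad_le hb huU (sc_cut_fderiv_le hl hl1 hr' u)).trans ?_
      have h5 : Real.sqrt scB2 ^ 2 = scB2 := Real.sq_sqrt sc_scB2_pos.le
      have h6 : 1.005 * (Real.sqrt scB2 * (0.995 / (0.6 * r'))) ^ 2 =
          (1.005 * (0.995 / 0.6) ^ 2) * (scB2 / r' ^ 2) := by
        rw [mul_pow, h5]; field_simp
      have h7 : (2 * Real.sqrt scB2 / r') ^ 2 = 4 * (scB2 / r' ^ 2) := by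
        rw [div_pow, mul_pow, h5]; ring
      rw [h6, h7]
      have h8 : 0 ≤ scB2 / r' ^ 2 := div_nonneg sc_scB2_pos.le (sq_nonneg _)
      exact mul_le_mul_of_nonneg_right (by norm_num) h8
    · have h5 : χ =ᶠ[𝓝 z] 0 := by
        filter_upwards [hKc.isClosed.isOpen_compl.mem_nhds hzK] with y hy
        exact hout y hy
      rw [if_gradSq_eq_zero hG.mfd hG.met hsm hzM h5]
      exact hpos

/-! ### helpers for `sc_consts`, `sc_gauge_hy` -/

theorem sc_gh_min (s : Finset ℕ) (f : ℕ → ℝ) (hf : ∀ i ∈ s, 0 < f i) (c : ℝ) (hc : 0 < c) :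
    ∃ m : ℝ, 0 < m ∧ m ≤ c ∧ ∀ i ∈ s, m ≤ f i := by
  classical
  induction s using Finset.induction_on with
  | empty => exact ⟨c, hc, le_rfl, fun i hi => absurd hi (Finset.notMem_empty i)⟩
  | insert a s _ ih =>
    obtain ⟨m, h0, h1, h2⟩ := ih fun i hi => hf i (Finset.mem_insert_of_mem hi)
    refine ⟨min m (f a), lt_min h0 (hf a (Finset.mem_insert_self a s)),
      (min_le_left _ _).trans h1, fun i hi => ?_⟩
    rcases Finset.mem_insert.mp hi with rfl | hi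
    · exact min_le_right _ _
    · exact (min_le_left _ _).trans (h2 i hi)

theorem sc_gh_max (s : Finset ℕ) (f : ℕ → ℝ) : ∃ m : ℝ, 0 ≤ m ∧ ∀ i ∈ s, f i ≤ m := by
  classical
  induction s using Finset.induction_on with
  | empty => exact ⟨0, le_rfl, fun i hi => absurd hi (Finset.notMem_empty i)⟩
  | insert a s _ ih =>
    obtain ⟨m, h0, h2⟩ := ih
    refine ⟨max m (f a), h0.trans (le_max_left _ _), fun i hi => ?_⟩
    rcases Finset.mem_insert.mp hi with rfl | hi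
    · exact le_max_right _ _
    · exact (h2 i hi).trans (le_max_left _ _)

theorem ScWin.mono_B {m : ℕ} {θ : E m → ℝ} {B B' : ℝ} (h : ScWin θ B) (hB : B ≤ B') :
    ScWin θ B' := by
  obtain ⟨n, c, g, b, h1, h2, h3, h4, h5⟩ := h
  exact ⟨n, c, g, b, h1, h2, h3, h4, h5.trans hB⟩

theorem scHw_nonneg (F : Set (E d)) (θ : E d → ℝ) (dd ρ : ℝ) (x : E d) : 0 ≤ scHw F θ dd ρ x := by
  unfold scHw
  have := scM_nonneg F ρ x
  split_ifs <;> positivity

theorem scHw_mono (F : Set (E d)) (θ : E d → ℝ) {dd dd' : ℝ} (h : dd' ≤ dd) (ρ : ℝ) (x : E d) :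
    scHw F θ dd' ρ x ≤ scHw F θ dd ρ x := by
  unfold scHw
  have := scM_nonneg F ρ x
  gcongr
  split_ifs with h1 h2 h2
  · exact le_rfl
  · exact absurd (lt_of_lt_of_le h1 h) h2
  · exact this
  · exact le_rfl

theorem scWt_mono (ψ : E d → W) (U : Set (E d)) {g g' : E d → ℝ} (h : ∀ x, g x ≤ g' x) (z : W) :
    scWt ψ U g z ≤ scWt ψ U g' z := by
  unfold scWt
  split_ifs
  · exact h _
  · exact le_rfl

theorem scWt_nonneg (ψ : E d → W) (U : Set (E d)) {g : E d → ℝ} (h : ∀ x, 0 ≤ g x) (z : W) :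
    0 ≤ scWt ψ U g z := by
  unfold scWt
  split_ifs
  · exact h _
  · exact le_rfl

variable {ι : Type} [Fintype ι] [MeasurableSpace W] [BorelSpace W]

/-- monotonicity of the budget of a status space (weights compared on `E α` only). -/
theorem sc_gh_bud_mono {C : ShCtx V W ι} (hC : C.Ok) {α : Stat ι} {D D' : W → ℝ} {Cm Cm' : ℝ}
    (h : C.Bud α D 1 0 Cm) (hD : ∀ x ∈ C.P.E α, D' x ≤ D x) (hCm : Cm ≤ Cm') :
    C.Bud α D' 1 0 Cm' := by
  rcases (C.P.E α).eq_empty_or_nonempty with he | hne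
  · unfold ShCtx.Bud
    rw [he]
    exact sh_bud_of_empty _ _ _ _ _ _ _ _
  exact sh_three_gen hC α hne (fun 𝔉 => 𝔉.Bud D 1 0 Cm) (fun 𝔉 => 𝔉.Bud D' 1 0 Cm')
    (fun 𝔉 hOk _ h1 => h1.mono hOk.N_nonneg hOk.null hD le_rfl le_rfl hCm) h.1 h.2.1 h.2.2

/-- constants which work for all status spaces of the stage. -/
theorem sc_consts (C : ShCtx V W ι) (hC : C.Ok) : ∃ η' τ' : ℝ, 0 < η' ∧ 0 < τ' ∧ τ' ≤ 0.005 ∧
    ∀ rF r₀ Λ : ℝ, 0 < rF → 0 < r₀ → 0 ≤ Λ → ∃ dd CF : ℝ, 0 < dd ∧ dd ≤ r₀ ∧ 0 ≤ CF ∧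
    ∀ (α : Stat ι) (J : Finset ι), 8 ≤ C.m α → ∀ (Ψ : E (C.m α) → W) (U F : Set (E (C.m α)))
      (θ : E (C.m α) → ℝ),
      ScSet (C.m α) (C.P.E α) C.P.h C.P.dr C.p Ψ U F θ η' rF r₀ τ' Λ (J.card * scB2) →
      ∀ dd', 0 < dd' → dd' ≤ dd → ∀ ρ : ℝ, 0 < ρ → C.Bud α (scWt Ψ U (scHw F θ dd' ρ)) 1 0 CF := by
  classical
  have key := fun (d : ℕ) (hd : 8 ≤ d) => sc_mf_hy (V := W) hd
  choose! η₀ τ₀ h1 h2 h3 h4 using key
  set s : Finset ℕ := (Finset.range (C.B.n + 1)).filter (fun d => 8 ≤ d) with hs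
  have hs8 : ∀ i ∈ s, 8 ≤ i := fun i hi => (Finset.mem_filter.mp hi).2
  obtain ⟨η', a1, _, a3⟩ := sc_gh_min s η₀ (fun i hi => h1 i (hs8 i hi)) 1 one_pos
  obtain ⟨τ', b1, b2, b3⟩ := sc_gh_min s τ₀ (fun i hi => h2 i (hs8 i hi)) 0.005 (by norm_num)
  refine ⟨η', τ', a1, b1, b2, fun rF r₀ Λ hrF hr₀ hΛ => ?_⟩
  have hB₀ : 0 ≤ (Fintype.card ι : ℝ) * scB2 := mul_nonneg (Nat.cast_nonneg _) scB2_spec.1.le
  have key2 := fun (d : ℕ) (hd : 8 ≤ d) =>
    h4 d hd rF r₀ Λ ((Fintype.card ι : ℝ) * scB2) hrF hr₀ hΛ hB₀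
  choose! dd Cc g1 g2 g3 g4 using key2
  obtain ⟨ddm, c1, c2, c3⟩ := sc_gh_min s dd (fun i hi => g1 i (hs8 i hi)) r₀ hr₀
  obtain ⟨CF, e1, e2⟩ := sc_gh_max s Cc
  refine ⟨ddm, CF, c1, c2, e1, fun α J h8 Ψ U F θ HS dd' _ hle ρ hρ => ?_⟩
  have hmem : C.m α ∈ s := by
    refine Finset.mem_filter.mpr ⟨Finset.mem_range.mpr ?_, h8⟩
    unfold ShCtx.m
    omega
  have HS1 := HS.mono (a3 _ hmem) (b3 _ hmem)
  have hJc : (J.card : ℝ) * scB2 ≤ (Fintype.card ι : ℝ) * scB2 := by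
    have : (J.card : ℝ) ≤ Fintype.card ι := by exact_mod_cast J.card_le_univ
    exact mul_le_mul_of_nonneg_right this scB2_spec.1.le
  have HS2 : ScSet (C.m α) (C.P.E α) C.P.h C.P.dr C.p Ψ U F θ (η₀ (C.m α)) rF r₀ (τ₀ (C.m α)) Λ
      ((Fintype.card ι : ℝ) * scB2) := ⟨HS1.toScGood, HS1.win.mono_B hJc, HS1.cpt⟩
  have hb := g4 (C.m α) h8 (C.P.E α) C.P.h C.P.dr C.p (C.ph α) Ψ U F θ
    ⟨hC.inv.diag.mfd α, hC.inv.met.met α, hC.inv.dr_sc.1 α⟩ (hC.inv.diag.closed α)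
    (hC.cut.p_sc.1 α) (hC.cut.lam α) HS2 ρ hρ
  exact sc_gh_bud_mono hC hb
    (fun x _ => scWt_mono Ψ U (fun y => scHw_mono F θ (hle.trans (c3 _ hmem)) ρ y) x) (e2 _ hmem)

/-- the field `hy`. -/
theorem sc_gauge_hy (C : ShCtx V W ι) (hC : C.Ok) {η' τ' : ℝ}
    (hc : ∀ rF r₀ Λ : ℝ, 0 < rF → 0 < r₀ → 0 ≤ Λ → ∃ dd CF : ℝ, 0 < dd ∧ dd ≤ r₀ ∧ 0 ≤ CF ∧
      ∀ (α : Stat ι) (J : Finset ι), 8 ≤ C.m α → ∀ (Ψ : E (C.m α) → W) (U F : Set (E (C.m α)))
        (θ : E (C.m α) → ℝ),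
        ScSet (C.m α) (C.P.E α) C.P.h C.P.dr C.p Ψ U F θ η' rF r₀ τ' Λ (J.card * scB2) →
        ∀ dd', 0 < dd' → dd' ≤ dd → ∀ ρ : ℝ, 0 < ρ → C.Bud α (scWt Ψ U (scHw F θ dd' ρ)) 1 0 CF)
    (β : Stat ι) (hβ : 8 ≤ C.m β) {ψ : E (C.m β) → W} {u₀ : E (C.m β)} {r Λ rF : ℝ} (hr : 0 < r)
    (hΛ : 0 ≤ Λ) (hrF : 0 < rF) {F₀ : Set (E (C.m β))} (hFs : F₀ ⊆ closedBall u₀ r)
    (H : ScGood (C.m β) (C.P.E β) C.P.h C.P.dr C.p ψ (ball u₀ (3 * r)) F₀ η' rF r τ' Λ)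
    (hK : ∃ K, IsCompact K ∧ ψ '' ball u₀ (3 * r) ⊆ K) :
    ∃ dd₀ CF T : ℝ, 0 < dd₀ ∧ 2.02 * dd₀ ≤ r ∧ 0 ≤ CF ∧ ∀ dd, 0 < dd → dd ≤ dd₀ →
      ∀ (α : Stat ι) (J : Finset ι), (∀ j ∈ J, α j ≠ 0) → α.faceS J = β → ∀ ρ, 0 < ρ →
        C.Bud α (fun z => 3.5 * shWt C.F α J T (scGa ψ (ball u₀ (3 * r)) F₀ dd) dd ρ z) 1 0 CF := by
  classical
  obtain ⟨ddc, CF, d1, _, d3, d4⟩ := hc rF r Λ hrF hr hΛ
  have hU : ∃ K₀, IsCompact K₀ ∧ K₀ ⊆ ball u₀ (3 * r) ∧ ball u₀ (3 * r) ∩ scTube F₀ r ⊆ K₀ := by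
    refine ⟨closedBall u₀ (2 * r), isCompact_closedBall _ _,
      closedBall_subset_ball (by linarith), ?_⟩
    rintro x ⟨_, hx⟩
    have hx' : infDist x F₀ ≤ r := hx
    rw [mem_closedBall]
    refine le_of_forall_pos_lt_add fun ε hε => ?_
    obtain ⟨y, hy, hxy⟩ := (infDist_lt_iff H.ne).1 (lt_of_le_of_lt hx' (lt_add_of_pos_right r hε))
    have hy' : dist y u₀ ≤ r := hFs hy
    calc dist x u₀ ≤ dist x y + dist y u₀ := dist_triangle _ _ _
      _ < (r + ε) + r := add_lt_add_of_lt_of_le hxy hy'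
      _ = 2 * r + ε := by ring
  have key : ∀ a : Stat ι × Finset ι, ∃ T₀ : ℝ, (∀ j ∈ a.2, a.1 j ≠ 0) → a.1.faceS a.2 = β →
      ∃ (Ψ : E (C.m a.1) → W) (U' : Set (E (C.m a.1))) (π : E (C.m a.1) →L[ℝ] E (C.m β))
        (θ : E (C.m a.1) → ℝ),
        ScSet (C.m a.1) (C.P.E a.1) C.P.h C.P.dr C.p Ψ U' (π ⁻¹' F₀) θ η' rF r τ' Λ
          (a.2.card * scB2) ∧
        (∀ x ∈ U', π x ∈ ball u₀ (3 * r) ∧ C.F.dropS a.2 (Ψ x) = ψ (π x)) ∧
        (∀ x, infDist x (π ⁻¹' F₀) = infDist (π x) F₀) ∧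
        ∀ z ∈ C.P.E a.1, z ∈ C.F.tailS a.1 a.2 T₀ → C.F.dropS a.2 z ∈ ψ '' ball u₀ (3 * r) →
          ∃ x ∈ U', Ψ x = z ∧ θ x = 1 := by
    intro a
    by_cases ha : (∀ j ∈ a.2, a.1 j ≠ 0) ∧ a.1.faceS a.2 = β
    · obtain ⟨T₀, hT₀⟩ := sc_set_coface C hC β hβ H hK hU a.1 a.2 ha.1 ha.2
      exact ⟨T₀, fun _ _ => hT₀⟩
    · exact ⟨0, fun h1 h2 => absurd ⟨h1, h2⟩ ha⟩
  choose Tf hTf using key
  obtain ⟨T, hT⟩ := (Set.finite_range Tf).bddAbove
  refine ⟨min (0.995 * ddc) (r / 2.02), CF, T, lt_min (by positivity) (by positivity), ?_, d3, ?_⟩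
  · have : min (0.995 * ddc) (r / 2.02) ≤ r / 2.02 := min_le_right _ _
    calc 2.02 * min (0.995 * ddc) (r / 2.02) ≤ 2.02 * (r / 2.02) := by gcongr
      _ = r := by field_simp
  intro dd hdd hdd₀ α J hJ hα ρ hρ
  obtain ⟨Ψ, U', π, θ, S, p2, p3, p4⟩ := hTf (α, J) hJ hα
  have hTle : Tf (α, J) ≤ T := hT ⟨_, rfl⟩
  have h8 : 8 ≤ C.m α := by
    have hhits : hits β = hits α + J.card := by rw [← hα]; exact ct_hits_faceS α J hJ
    have h8' : 8 ≤ C.B.n - hits β := hβ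
    unfold ShCtx.m
    omega
  have hddc : dd / 0.995 ≤ ddc := by
    have : dd ≤ 0.995 * ddc := hdd₀.trans (min_le_left _ _)
    rw [div_le_iff₀ (by norm_num)]
    linarith
  have hb := d4 α J h8 Ψ U' (π ⁻¹' F₀) θ S (dd / 0.995) (by positivity) hddc (ρ / 0.995)
    (by positivity)
  refine sc_gh_bud_mono hC hb (fun z hz => ?_) le_rfl
  have hnn : 0 ≤ scWt Ψ U' (scHw (π ⁻¹' F₀) θ (dd / 0.995) (ρ / 0.995)) z :=
    scWt_nonneg Ψ U' (fun y => scHw_nonneg _ _ _ _ y) z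
  unfold shWt
  by_cases hzT : z ∈ C.F.tailS α J T
  swap
  · rw [indicator_of_notMem hzT, mul_zero]; exact hnn
  rw [indicator_of_mem hzT]
  unfold shW
  split_ifs with hlt
  swap
  · rw [mul_zero]; exact hnn
  have hzU : C.F.dropS J z ∈ ψ '' ball u₀ (3 * r) := by
    by_contra hn
    unfold scGa at hlt
    rw [if_neg hn] at hlt
    linarith
  obtain ⟨hu1, hu2⟩ := Function.invFunOn_pos hzU
  set u := Function.invFunOn ψ (ball u₀ (3 * r)) (C.F.dropS J z) with hu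
  have hval : scGa ψ (ball u₀ (3 * r)) F₀ dd (C.F.dropS J z) =
      min (0.995 * infDist u F₀) (2 * dd) := if_pos hzU
  have hs : 0.995 * infDist u F₀ < dd := by
    rw [hval] at hlt
    rcases min_lt_iff.1 hlt with h | h
    · exact h
    · linarith
  rw [hval, min_eq_left (by linarith)]
  obtain ⟨x, hxU', hΨx, hθx⟩ := p4 z hz (fun j hj => lt_of_le_of_lt hTle (hzT j hj)) hzU
  obtain ⟨q1, q2⟩ := p2 x hxU'
  have hπ : π x = u := if_injOn H.par q1 hu1 (by rw [← q2, hΨx, hu2])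
  have hinf : infDist x (π ⁻¹' F₀) = infDist u F₀ := by rw [p3, hπ]
  have hW : scWt Ψ U' (scHw (π ⁻¹' F₀) θ (dd / 0.995) (ρ / 0.995)) z =
      scHw (π ⁻¹' F₀) θ (dd / 0.995) (ρ / 0.995) x := by
    unfold scWt
    rw [if_pos ⟨x, hxU', hΨx⟩, ← hΨx, if_leftInv S.par hxU']
  have hs' : infDist u F₀ < dd / 0.995 := by
    rw [lt_div_iff₀ (by norm_num)]
    linarith
  rw [hW]
  unfold scHw scM
  rw [hθx, hinf, if_pos hs']
  have hmax : max (0.995 * infDist u F₀) ρ = 0.995 * max (infDist u F₀) (ρ / 0.995) := by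
    rw [mul_max_of_nonneg _ _ (by norm_num : (0 : ℝ) ≤ 0.995)]
    congr 1
    field_simp
  rw [hmax]
  have hm : 0 < max (infDist u F₀) (ρ / 0.995) := lt_max_of_lt_right (by positivity)
  set m := max (infDist u F₀) (ρ / 0.995) with hmdef
  have e1 : 1 / (0.995 * m) ^ 2 = (1 / 0.990025) * (m ^ 2)⁻¹ := by
    field_simp
    norm_num
  have e2 : 0 < (m ^ 2)⁻¹ := by positivity
  rw [e1]
  nlinarith

end

end Claimed.Agent.R315
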