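import Claimed.Agent.R315.Sc.MfB

/-!
# Row 315, package Sc, part 9: GOOD CHARTS: existence, cylinders, members, tails of cofaces.   Architect: helper257.   PACKAGE L-SC-GOOD (this file: steps 1-2); L-SC-GOODB (`GoodB.lean`: steps 3-4).

1. `sc_good_point`: take a parametrisation `(ψ₁, U₁)` at `x₀`, `u₁ = ψ₁⁻¹ x₀`, `G₁ = cm h ψ₁ u₁` (positive definite).  Let `L` be an invertible linear map with `Lᵀ G₁ L = 1` (`L = G₁^{-1/2}`: `Matrix.PosDef` square root, or Gram-Schmidt /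
   `Matrix.PosDef` Cholesky; compare `pk_bil_close`, `Pk/PressC.lean`), `ψ = ψ₁ ∘ (u₁ + L ·)`, `u₀ = 0`: `cm h ψ 0 = 1`.  `u ↦ if_bil (cm h ψ u)⁻¹` is smooth near `0`, `= ⟪,⟫` at `0`: choose `r` with closeness `τ` on `closedBall 0 (3r)`, `⊆` domain, image `⊆ O`.
   `Λ` = maximum of the continuous functions `‖D Gam‖`, `‖D rho‖/rho`, `|p ∘ ψ|` on the compact ball.  `K = ψ '' closedBall 0 (3r)`.  Restriction of a parametrisation to an open subset: `if_param_restrict`.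
2. `ScGood.cyl` (one more flat direction).  `Ψ b = ψ (rm_tl d b) + b 0 • e` is a parametrisation of `ctCyl τ' e M` (KEY LEMMA of `Ct/ProdB.lean`, header), `cm (h ∘ pr) Ψ b = 1 ⊕ cm h ψ (tl b)` (block matrix in the basis `eb 0, eb (k+1)`), so
   `Gam_Ψ(ξ,ξ) = ξ₀² + Gam_ψ(tl ξ, tl ξ)`, `|ξ|² = ξ₀² + |tl ξ|²`: `close`, `dGam` pass (`D_a Gam_Ψ = D_{tl a} Gam_ψ (tl ·, tl ·)`, `‖tl‖ ≤ 1`); `ctRho_Ψ b = ctRho_ψ (tl b)`; `p`.
   `infDist b (tl⁻¹ F) = infDist (tl b) F` (`≤`: lift `y ∈ F` to `(b 0, y)`; `≥`: `tl` is 1-Lipschitz).  Flatness: `L' = L.comap tl`, `finrank L' = finrank L + 1 ≤ (d+1) - 8` (needs `8 ≤ d`), `infDist (y - z) L' = infDist (tl (y - z)) L`, `tl` maps `ball z r'` into `ball (tl z) r'`.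
3. `sc_member_chart`: induction on `J` (`Finset.induction_on`), as in `ct_mem_geo` (`Ct/CutA.lean`): `Frame.cyl_insert`, `Frame.dropS_insert_ctPr`; step = `ScGood.cyl` with `τ' = F.t i`, `e = F.e i`; new `π = π_old ∘ tl`, `ℓ i = proj 0`, `ℓ j = ℓ_old j ∘ tl`.  `subst` the dimension first.
4. `sc_set_coface`.  `β = α.faceS J`; `hits β = hits α + |J|` and `hits β ≤ n` (`ShCtx.Ok.dim`, `E β ≠ ∅`), so `C.m α = mdim n β J`.  `K` compact `⊇ ψ '' U`; thresholds (`IsDiag.exists_thr`, `Compat.exists_thr` for `h`, `dr`, `p`; `DThr.dropS_mem`, `Thr.dropS`, `Pk/Thr.lean`), `T' = max` of them over `q '' K`, `T = T' + 1`.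
   `U' = π⁻¹ U ∩ {x | ∀ j ∈ J, T' < α_j ℓ_j x}`.  On `Ψ '' U'` the member `(β, J)` and `E α` coincide and are open in both (converse of `DThr.dropS_mem`: use the `↔` of `DThr` inductively), and `h, dr, p` are pulled back by `dropS J`: `IsParam (E α) Ψ U'`;
   `cm h Ψ = cm (mh) Ψ`, `ctRho`, `p` agree on the open set `U'`, hence also their derivatives: `ScBd` passes.   `θ x = ∏_{j ∈ J} scG (α_j ℓ_j x - T')`, partner `scC`, `‖∇‖² ≤ scB2 ‖ℓ_j‖² ≤ scB2`: `ScWin θ (|J| scB2)` (reindex `J ≃ Fin |J|`).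
   `cpt`: for `K₁ ⊆ E α` compact: `K' = {x | π x ∈ closure-part, ...}`: `x ∈ U`, `δ ≤ r₀`, `θ x ≠ 0` (so `α_j ℓ_j x ≥ T'`, even `> T'`... use `scG s ≠ 0 → 0 < s`), `Ψ x ∈ K₁`: then `|ℓ_j x| = |t_j (Ψ x)| ≤ C`, `π x ∈ U ∩ tube` which is relatively compact IN `U` by hypothesis `hU`; take
   `K' = {x | π x ∈ K₀ ∧ ∀ j ∈ J, T' + s₁ ≤ α_j ℓ_j x ≤ C}`?  NO lower margin is available from `θ ≠ 0` alone: instead use `K' = Ψ⁻¹ K₁ ∩ π⁻¹ K₀ ∩ {α_j ℓ_j ≥ T'}` and enlarge the chart: build `U'` with threshold `T' - 1` (i.e. thresholds `≤ T' - 1`).  Then `K'` is closed, bounded (`‖x‖² = ‖π x‖² + ∑ ℓ_j²`) and `⊆ U'`.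
-/

set_option autoImplicit false
open scoped ContDiff Topology ENNReal RealInnerProductSpace
open MeasureTheory Set Metric

namespace Claimed.Agent.R315

noncomputable section

theorem sc_CG_deriv : ∃ B : ℝ, 0 < B ∧ ∀ s : ℝ, deriv scC s ^ 2 + deriv scG s ^ 2 ≤ B := by
  have hc : Continuous fun s : ℝ => deriv scC s ^ 2 + deriv scG s ^ 2 :=
    ((scC_contDiff.continuous_deriv (by simp)).pow 2).add
      ((scG_contDiff.continuous_deriv (by simp)).pow 2)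
  obtain ⟨B, hB⟩ := (isCompact_Icc (a := (0 : ℝ)) (b := 1)).bddAbove_image hc.continuousOn
  refine ⟨|B| + 1, by positivity, fun s => ?_⟩
  by_cases hs : s ∈ Icc (0 : ℝ) 1
  · exact (hB ⟨s, hs, rfl⟩).trans ((le_abs_self B).trans (by linarith))
  · have h : s ≤ 0 ∨ 1 ≤ s := by
      by_contra hcon
      push Not at hcon
      exact hs ⟨hcon.1.le, hcon.2.le⟩
    obtain ⟨h1, h2⟩ := scC_deriv_zero h
    rw [h1, h2]
    have := abs_nonneg B
    norm_num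
    linarith

/-- bound of `scC'² + scG'²`. -/
def scB2 : ℝ := sc_CG_deriv.choose

variable {V : Type} [NormedAddCommGroup V] [NormedSpace ℝ V] [FiniteDimensional ℝ V]
variable {d : ℕ} {M : Set V} {h : Ten V} {t p : V → ℝ}

set_option linter.unusedSectionVars false

theorem sc_bil_one {d : ℕ} (X Y : E d) : if_bil (1 : Matrix (Fin d) (Fin d) ℝ) X Y = ⟪X, Y⟫ := by
  rw [if_bil_eq_dot, Matrix.one_mulVec, EuclideanSpace.inner_eq_star_dotProduct]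
  simp [dotProduct_comm]

open scoped Matrix in
/-- a positive definite matrix is normalised by a linear isomorphism. -/
theorem sc_exists_normal {d : ℕ} {G : Matrix (Fin d) (Fin d) ℝ} (hG : G.PosDef) :
    ∃ L : E d →L[ℝ] E d, Function.Injective L ∧
      ∀ X Y, if_bil G (L X) (L Y) = ⟪X, Y⟫ := by
  classical
  have hA : G.IsHermitian := hG.isHermitian
  have h1 := hA.spectral_theorem
  rw [Unitary.conjStarAlgAut_apply] at h1
  set W : Matrix (Fin d) (Fin d) ℝ := (hA.eigenvectorUnitary : Matrix (Fin d) (Fin d) ℝ) with hW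
  have hW1 : star W * W = 1 := Unitary.coe_star_mul_self _
  have hs : star W = Wᵀ := by
    rw [Matrix.star_eq_conjTranspose, Matrix.conjTranspose_eq_transpose_of_trivial]
  have he : ∀ i, 0 < hA.eigenvalues i := hG.eigenvalues_pos
  set e := hA.eigenvalues with hedef
  set Di : Matrix (Fin d) (Fin d) ℝ := Matrix.diagonal (fun i => (Real.sqrt (e i))⁻¹) with hDi
  have h3 : Di * Matrix.diagonal e * Di = 1 := by
    rw [hDi, Matrix.diagonal_mul_diagonal, Matrix.diagonal_mul_diagonal, ← Matrix.diagonal_one]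
    congr 1
    funext i
    have h4 : Real.sqrt (e i) * Real.sqrt (e i) = e i := Real.mul_self_sqrt (he i).le
    have h5 := (Real.sqrt_pos.2 (he i)).ne'
    field_simp
    nlinarith [h4]
  have hGe : G = W * Matrix.diagonal e * Wᵀ := by
    rw [← hs]
    simpa using h1
  set P : Matrix (Fin d) (Fin d) ℝ := W * Di with hP
  have hPG : Pᵀ * G * P = 1 := by
    rw [hP, Matrix.transpose_mul, hDi, Matrix.diagonal_transpose, ← hDi, hGe]
    calc Di * Wᵀ * (W * Matrix.diagonal e * Wᵀ) * (W * Di)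
        = Di * (Wᵀ * W) * Matrix.diagonal e * (Wᵀ * W) * Di := by simp only [Matrix.mul_assoc]
      _ = 1 := by rw [← hs, hW1, Matrix.mul_one, Matrix.mul_one, h3]
  set L : E d →L[ℝ] E d := Matrix.toEuclideanCLM (n := Fin d) (𝕜 := ℝ) P with hL
  have hjac : if_jac L = P := by
    ext a i
    show (L (eb i)).ofLp a = P a i
    rw [hL, Matrix.ofLp_toEuclideanCLM]
    simp [Matrix.mulVec_single]
  have hb : ∀ X Y, if_bil G (L X) (L Y) = ⟪X, Y⟫ := by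
    intro X Y
    rw [← sc_bil_one]
    refine (if_bil_of_basis (fun i j => ?_) X Y).symm
    rw [if_bil_jac, hjac, hPG]
  refine ⟨L, ?_, hb⟩
  rw [injective_iff_map_eq_zero]
  intro X hX
  have := hb X X
  rw [hX] at this
  simp only [map_zero] at this
  exact inner_self_eq_zero.1 this.symm


theorem sc_norm_sq_tl {d : ℕ} (b : E (d + 1)) : ‖b‖ ^ 2 = b 0 ^ 2 + ‖rm_tl d b‖ ^ 2 := by
  rw [EuclideanSpace.norm_sq_eq, EuclideanSpace.norm_sq_eq, Fin.sum_univ_succ]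
  simp only [Real.norm_eq_abs, sq_abs, rm_tl_apply]

theorem sc_norm_tl_le {d : ℕ} (b : E (d + 1)) : ‖rm_tl d b‖ ≤ ‖b‖ := by
  have := sc_norm_sq_tl b
  exact abs_le_of_sq_le_sq' (by nlinarith [sq_nonneg (b 0)]) (norm_nonneg _) |>.2

theorem sc_abs_zero_le {d : ℕ} (b : E (d + 1)) : |b 0| ≤ ‖b‖ := by
  have := sc_norm_sq_tl b
  exact abs_le_of_sq_le_sq (by nlinarith [sq_nonneg ‖rm_tl d b‖]) (norm_nonneg _)

theorem sc_dist_J {d : ℕ} (q : ℝ) (y y' : E d) : dist (rm_J q y) (rm_J q y') = dist y y' := by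
  rw [dist_eq_norm, dist_eq_norm]
  have h := sc_norm_sq_tl (rm_J q y - rm_J q y')
  have h0 : (rm_J q y - rm_J q y') 0 = 0 := by
    rw [PiLp.sub_apply, rm_J_zero, rm_J_zero, sub_self]
  rw [h0, map_sub, rm_tl_J, rm_tl_J] at h
  have h2 : ‖rm_J q y - rm_J q y'‖ ^ 2 = ‖y - y'‖ ^ 2 := by rw [h]; ring
  exact (sq_eq_sq₀ (norm_nonneg _) (norm_nonneg _)).1 h2

theorem sc_infDist_tl_aux {d : ℕ} (F : Set (E d)) (b : E (d + 1)) :
    infDist b (rm_tl d ⁻¹' F) = infDist (rm_tl d b) F := by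
  rcases F.eq_empty_or_nonempty with rfl | hF
  · simp
  have hF' : (rm_tl d ⁻¹' F).Nonempty := by
    obtain ⟨y, hy⟩ := hF
    exact ⟨rm_J 0 y, by rw [mem_preimage, rm_tl_J]; exact hy⟩
  apply le_antisymm
  · refine (le_infDist hF).2 fun y hy => ?_
    have h1 : rm_J (b 0) y ∈ rm_tl d ⁻¹' F := by rw [mem_preimage, rm_tl_J]; exact hy
    refine (infDist_le_dist_of_mem h1).trans (le_of_eq ?_)
    have h2 := sc_dist_J (b 0) (rm_tl d b) y
    rwa [rm_J_tl] at h2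
  · refine (le_infDist hF').2 fun c hc => ?_
    refine (infDist_le_dist_of_mem (show rm_tl d c ∈ F from hc)).trans ?_
    rw [dist_eq_norm, dist_eq_norm, ← map_sub]
    exact sc_norm_tl_le _

section cyl

variable {ψ : E d → V} {U : Set (E d)} {τ' : V →L[ℝ] ℝ} {e : V}

theorem sc_cyl_hasFDerivAt (hψ : IsParam M ψ U) (e : V) {b : E (d + 1)} (hb : rm_tl d b ∈ U) :
    HasFDerivAt (fun b : E (d + 1) => ψ (rm_tl d b) + b 0 • e)
      ((fderiv ℝ ψ (rm_tl d b)).comp (rm_tl d) + (if_pr (0 : Fin (d + 1))).smulRight e) b :=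
  ((if_differentiableAt hψ hb).hasFDerivAt.comp b (rm_tl d).hasFDerivAt).add
    ((if_pr (0 : Fin (d + 1))).hasFDerivAt.smul_const e)

theorem sc_tau_fderiv (hψ : IsParam M ψ U) (hM : ∀ x ∈ M, τ' x = 0) {u : E d} (hu : u ∈ U)
    (a : E d) : τ' (fderiv ℝ ψ u a) = 0 := by
  have h1 : HasFDerivAt (fun w => τ' (ψ w)) (τ'.comp (fderiv ℝ ψ u)) u :=
    τ'.hasFDerivAt.comp u (if_differentiableAt hψ hu).hasFDerivAt
  have h2 : (fun w => τ' (ψ w)) =ᶠ[𝓝 u] fun _ => (0 : ℝ) := by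
    filter_upwards [(if_open hψ).mem_nhds hu] with w hw
    exact hM _ (if_mem hψ hw)
  have h3 : τ'.comp (fderiv ℝ ψ u) = 0 :=
    h1.unique ((hasFDerivAt_const (0 : ℝ) u).congr_of_eventuallyEq h2)
  exact congrArg (fun L : E d →L[ℝ] ℝ => L a) h3

theorem sc_cyl_pr (hψ : IsParam M ψ U) (hτ : τ' e = 1) (hM : ∀ x ∈ M, τ' x = 0) {b : E (d + 1)}
    (hb : rm_tl d b ∈ U) :
    τ' (ψ (rm_tl d b) + b 0 • e) = b 0 ∧ ctPr τ' e (ψ (rm_tl d b) + b 0 • e) = ψ (rm_tl d b) := by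
  have h1 : τ' (ψ (rm_tl d b) + b 0 • e) = b 0 := by
    rw [map_add, map_smul, hτ, hM _ (if_mem hψ hb), smul_eq_mul, mul_one, zero_add]
  refine ⟨h1, ?_⟩
  unfold ctPr
  rw [h1, add_sub_cancel_right]

/-- the product parametrisation of a cylinder. -/
theorem sc_cyl_param (hψ : IsParam M ψ U) (hτ : τ' e = 1) (hM : ∀ x ∈ M, τ' x = 0) :
    IsParam (ctCyl τ' e M) (fun b : E (d + 1) => ψ (rm_tl d b) + b 0 • e) (rm_tl d ⁻¹' U) := by
  obtain ⟨O, hO, hOe⟩ := if_image hψ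
  have hU' : IsOpen (rm_tl d ⁻¹' U) := (if_open hψ).preimage (rm_tl d).continuous
  have hprc : Continuous (ctPr τ' e) := by
    unfold ctPr
    exact continuous_id.sub (τ'.continuous.smul continuous_const)
  refine pk_param_mk (O := ctPr τ' e ⁻¹' O)
    (g := fun z : V => rm_J (τ' z) (Function.invFunOn ψ U (ctPr τ' e z))) hU' ?_ ?_
    (hO.preimage hprc) ?_ ?_ ?_
  · exact ((if_smooth hψ).comp (rm_tl d).contDiff.contDiffOn fun b hb => hb).add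
      ((if_pr (0 : Fin (d + 1))).contDiff.contDiffOn.smul contDiffOn_const)
  · intro b hb
    rw [(sc_cyl_hasFDerivAt hψ e hb).fderiv, injective_iff_map_eq_zero]
    intro a ha
    simp only [add_apply, ContinuousLinearMap.comp_apply,
      ContinuousLinearMap.smulRight_apply, if_pr_apply] at ha
    have h1 := congrArg τ' ha
    rw [map_add, map_smul, hτ, sc_tau_fderiv hψ hM hb, map_zero, zero_add, smul_eq_mul,
      mul_one] at h1
    rw [h1, zero_smul, add_zero] at ha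
    have h2 : rm_tl d a = 0 := (injective_iff_map_eq_zero _).1 (if_imm hψ hb) _ ha
    rw [← rm_J_tl a, h1, h2]
    simp [rm_J]
  · ext z
    constructor
    · rintro ⟨b, hb, rfl⟩
      have h1 : ψ (rm_tl d b) ∈ M ∩ O := hOe ▸ Set.mem_image_of_mem ψ hb
      have h2 := (sc_cyl_pr hψ hτ hM hb).2
      exact ⟨by show ctPr τ' e _ ∈ M; rw [h2]; exact h1.1,
        by show ctPr τ' e _ ∈ O; rw [h2]; exact h1.2⟩
    · rintro ⟨h1, h2⟩
      have : ctPr τ' e z ∈ ψ '' U := hOe ▸ (⟨h1, h2⟩ : ctPr τ' e z ∈ M ∩ O)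
      obtain ⟨u, hu, hue⟩ := this
      refine ⟨rm_J (τ' z) u, by show rm_tl d (rm_J (τ' z) u) ∈ U; rw [rm_tl_J]; exact hu, ?_⟩
      show ψ (rm_tl d (rm_J (τ' z) u)) + rm_J (τ' z) u 0 • e = z
      rw [rm_tl_J, rm_J_zero, hue]
      unfold ctPr
      exact sub_add_cancel _ _
  · have h1 : ContinuousOn (fun z : V => Function.invFunOn ψ U (ctPr τ' e z))
        ((fun b : E (d + 1) => ψ (rm_tl d b) + b 0 • e) '' (rm_tl d ⁻¹' U)) := by
      refine (if_contInv hψ).comp hprc.continuousOn ?_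
      rintro _ ⟨b, hb, rfl⟩
      rw [(sc_cyl_pr hψ hτ hM hb).2]
      exact Set.mem_image_of_mem ψ hb
    unfold rm_J
    exact (τ'.continuous.continuousOn.smul continuousOn_const).add
      ((rm_in d).continuous.comp_continuousOn h1)
  · intro b hb
    show rm_J (τ' _) (Function.invFunOn ψ U (ctPr τ' e _)) = b
    rw [(sc_cyl_pr hψ hτ hM hb).1, (sc_cyl_pr hψ hτ hM hb).2, if_leftInv hψ hb, rm_J_tl]


theorem sc_tl_in (y : E d) : rm_tl d (rm_in d y) = y := by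
  have := rm_tl_J 0 y
  simpa [rm_J] using this

theorem sc_tl_eb_succ (a : Fin d) : rm_tl d (eb a.succ) = eb a := by
  rw [← rm_in_eb, sc_tl_in]

theorem sc_cyl_fderiv_zero (hψ : IsParam M ψ U) (e : V) {b : E (d + 1)} (hb : rm_tl d b ∈ U) :
    fderiv ℝ (fun b : E (d + 1) => ψ (rm_tl d b) + b 0 • e) b (eb 0) = e := by
  rw [(sc_cyl_hasFDerivAt hψ e hb).fderiv]
  simp [rm_tl_eb0]

theorem sc_cyl_fderiv_succ (hψ : IsParam M ψ U) (e : V) {b : E (d + 1)} (hb : rm_tl d b ∈ U)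
    (a : Fin d) :
    fderiv ℝ (fun b : E (d + 1) => ψ (rm_tl d b) + b 0 • e) b (eb a.succ) =
      fderiv ℝ ψ (rm_tl d b) (eb a) := by
  rw [(sc_cyl_hasFDerivAt hψ e hb).fderiv]
  simp [sc_tl_eb_succ, Fin.succ_ne_zero]

/-- the coordinate matrix of a cylinder is the block matrix `1 ⊕ cm h ψ`. -/
theorem sc_cyl_cm (hψ : IsParam M ψ U) (hτ : τ' e = 1) (hM : ∀ x ∈ M, τ' x = 0)
    (hn : CtNormal τ' e M h) {b : E (d + 1)} (hb : rm_tl d b ∈ U) :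
    cm (fun z => h (ctPr τ' e z)) (fun b : E (d + 1) => ψ (rm_tl d b) + b 0 • e) b 0 0 = 1 ∧
    (∀ a : Fin d,
      cm (fun z => h (ctPr τ' e z)) (fun b : E (d + 1) => ψ (rm_tl d b) + b 0 • e) b 0 a.succ = 0) ∧
    rm_tan (cm (fun z => h (ctPr τ' e z)) (fun b : E (d + 1) => ψ (rm_tl d b) + b 0 • e)) b =
      cm h ψ (rm_tl d b) := by
  have hx : ψ (rm_tl d b) ∈ M := if_mem hψ hb
  have hpr := (sc_cyl_pr hψ hτ hM hb).2
  refine ⟨?_, fun a => ?_, ?_⟩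
  · show h (ctPr τ' e _) (fderiv ℝ _ b (eb 0)) (fderiv ℝ _ b (eb 0)) = 1
    rw [hpr, sc_cyl_fderiv_zero hψ e hb, (hn _ hx e).1, hτ]
  · show h (ctPr τ' e _) (fderiv ℝ _ b (eb 0)) (fderiv ℝ _ b (eb a.succ)) = 0
    rw [hpr, sc_cyl_fderiv_zero hψ e hb, sc_cyl_fderiv_succ hψ e hb, (hn _ hx _).1,
      sc_tau_fderiv hψ hM hb]
  · ext a c
    show h (ctPr τ' e _) (fderiv ℝ _ b (eb a.succ)) (fderiv ℝ _ b (eb c.succ)) = _
    rw [hpr, sc_cyl_fderiv_succ hψ e hb, sc_cyl_fderiv_succ hψ e hb]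
    rfl

theorem sc_cyl_met (hG : CtGeo d M h t) (hψ : IsParam M ψ U) (hτ : τ' e = 1)
    (hM : ∀ x ∈ M, τ' x = 0) (hn : CtNormal τ' e M h) :
    rm_Met (cm (fun z => h (ctPr τ' e z)) (fun b : E (d + 1) => ψ (rm_tl d b) + b 0 • e))
      (rm_tl d ⁻¹' U) ∧
    rm_Orth (cm (fun z => h (ctPr τ' e z)) (fun b : E (d + 1) => ψ (rm_tl d b) + b 0 • e))
      (rm_tl d ⁻¹' U) := by
  have hp := sc_cyl_param hψ hτ hM
  have hm := (hG.cyl hτ hM hn).met _ _ hp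
  exact ⟨⟨if_open hp, hm.1, hm.2⟩, fun b hb a => (sc_cyl_cm hψ hτ hM hn hb).2.1 a⟩

/-- the cometric of a cylinder. -/
theorem sc_cyl_gam (hG : CtGeo d M h t) (hψ : IsParam M ψ U) (hτ : τ' e = 1)
    (hM : ∀ x ∈ M, τ' x = 0) (hn : CtNormal τ' e M h) {b : E (d + 1)} (hb : rm_tl d b ∈ U)
    (ξ η : E (d + 1)) :
    if_bil (cm (fun z => h (ctPr τ' e z)) (fun b : E (d + 1) => ψ (rm_tl d b) + b 0 • e) b)⁻¹ ξ η =
      ξ 0 * η 0 + if_bil (cm h ψ (rm_tl d b))⁻¹ (rm_tl d ξ) (rm_tl d η) := by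
  obtain ⟨h1, h2⟩ := sc_cyl_met hG hψ hτ hM hn
  obtain ⟨c1, -, c3⟩ := sc_cyl_cm hψ hτ hM hn hb
  rw [if_bil_apply, rm_blk_sum h1 h2 hb (fun i j => ξ i * η j), rm_lps_sq h1 hb, c1, c3,
    if_bil_apply]
  simp only [inv_one, one_mul, rm_tl_apply]

theorem sc_cyl_rho (hG : CtGeo d M h t) (hψ : IsParam M ψ U) (hτ : τ' e = 1)
    (hM : ∀ x ∈ M, τ' x = 0) (hn : CtNormal τ' e M h) {b : E (d + 1)} (hb : rm_tl d b ∈ U) :
    ctRho (fun z => h (ctPr τ' e z)) (fun z => t (ctPr τ' e z))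
      (fun b : E (d + 1) => ψ (rm_tl d b) + b 0 • e) b = ctRho h t ψ (rm_tl d b) := by
  obtain ⟨h1, h2⟩ := sc_cyl_met hG hψ hτ hM hn
  obtain ⟨c1, -, c3⟩ := sc_cyl_cm hψ hτ hM hn hb
  unfold ctRho
  rw [rm_blk_det h1 h2 hb, c1, c3, one_mul]
  beta_reduce
  rw [(sc_cyl_pr hψ hτ hM hb).2]

/-- evaluation of the derivative of a form valued map. -/
theorem sc_fderiv_bil {m : ℕ} {Γ : E m → Gmt.Bil m} {x : E m} (hΓ : DifferentiableAt ℝ Γ x)
    (a ξ η : E m) : fderiv ℝ Γ x a ξ η = fderiv ℝ (fun u => Γ u ξ η) x a := by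
  have h1 := (hΓ.hasFDerivAt.clm_apply (hasFDerivAt_const ξ x)).clm_apply (hasFDerivAt_const η x)
  rw [h1.fderiv]
  simp

theorem sc_gam_contDiffOn (hG : CtGeo d M h t) (hψ : IsParam M ψ U) :
    ContDiffOn ℝ ∞ (fun u => if_bil (cm h ψ u)⁻¹) U := by
  have hC := if_metC hG.met hψ
  exact if_bil_contDiffOn (if_inv_contDiffOn hC.smooth hC.det_ne)

theorem sc_gam_differentiableAt (hG : CtGeo d M h t) (hψ : IsParam M ψ U) {u : E d} (hu : u ∈ U) :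
    DifferentiableAt ℝ (fun u => if_bil (cm h ψ u)⁻¹) u :=
  ((sc_gam_contDiffOn hG hψ).contDiffAt ((if_open hψ).mem_nhds hu)).differentiableAt (by simp)

theorem sc_cyl_dgam (hG : CtGeo d M h t) (hψ : IsParam M ψ U) (hτ : τ' e = 1)
    (hM : ∀ x ∈ M, τ' x = 0) (hn : CtNormal τ' e M h) {b : E (d + 1)} (hb : rm_tl d b ∈ U)
    (a ξ η : E (d + 1)) :
    fderiv ℝ (fun b => if_bil (cm (fun z => h (ctPr τ' e z))
      (fun b : E (d + 1) => ψ (rm_tl d b) + b 0 • e) b)⁻¹) b a ξ η =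
      fderiv ℝ (fun u => if_bil (cm h ψ u)⁻¹) (rm_tl d b) (rm_tl d a) (rm_tl d ξ) (rm_tl d η) := by
  have hp := sc_cyl_param hψ hτ hM
  rw [sc_fderiv_bil (sc_gam_differentiableAt (hG.cyl hτ hM hn) hp hb),
    sc_fderiv_bil (sc_gam_differentiableAt hG hψ hb)]
  have h1 : (fun b => if_bil (cm (fun z => h (ctPr τ' e z))
      (fun b : E (d + 1) => ψ (rm_tl d b) + b 0 • e) b)⁻¹ ξ η) =ᶠ[𝓝 b]
      fun b => ξ 0 * η 0 + if_bil (cm h ψ (rm_tl d b))⁻¹ (rm_tl d ξ) (rm_tl d η) := by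
    filter_upwards [(if_open hp).mem_nhds hb] with c hc
    exact sc_cyl_gam hG hψ hτ hM hn hc ξ η
  rw [h1.fderiv_eq]
  have h2 : DifferentiableAt ℝ (fun u => if_bil (cm h ψ u)⁻¹ (rm_tl d ξ) (rm_tl d η))
      (rm_tl d b) :=
    ((sc_gam_differentiableAt hG hψ hb).clm_apply (differentiableAt_const _)).clm_apply
      (differentiableAt_const _)
  have h3 : HasFDerivAt (fun b => ξ 0 * η 0 + if_bil (cm h ψ (rm_tl d b))⁻¹ (rm_tl d ξ) (rm_tl d η))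
      ((fderiv ℝ (fun u => if_bil (cm h ψ u)⁻¹ (rm_tl d ξ) (rm_tl d η)) (rm_tl d b)).comp
        (rm_tl d)) b :=
    (h2.hasFDerivAt.comp b (rm_tl d).hasFDerivAt).const_add _
  rw [h3.fderiv]
  rfl

theorem sc_rho_contDiffOn (hG : CtGeo d M h t) (hψ : IsParam M ψ U) :
    ContDiffOn ℝ ∞ (ctRho h t ψ) U := by
  borelize V
  exact ct_rho_contDiffOn hG hψ

theorem sc_cyl_drho (hG : CtGeo d M h t) (hψ : IsParam M ψ U) (hτ : τ' e = 1)
    (hM : ∀ x ∈ M, τ' x = 0) (hn : CtNormal τ' e M h) {b : E (d + 1)} (hb : rm_tl d b ∈ U) :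
    ‖fderiv ℝ (ctRho (fun z => h (ctPr τ' e z)) (fun z => t (ctPr τ' e z))
      (fun b : E (d + 1) => ψ (rm_tl d b) + b 0 • e)) b‖ ≤ ‖fderiv ℝ (ctRho h t ψ) (rm_tl d b)‖ := by
  have hp := sc_cyl_param hψ hτ hM
  have h1 : (ctRho (fun z => h (ctPr τ' e z)) (fun z => t (ctPr τ' e z))
      (fun b : E (d + 1) => ψ (rm_tl d b) + b 0 • e)) =ᶠ[𝓝 b] fun b => ctRho h t ψ (rm_tl d b) := by
    filter_upwards [(if_open hp).mem_nhds hb] with c hc
    exact sc_cyl_rho hG hψ hτ hM hn hc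
  have h2 : DifferentiableAt ℝ (ctRho h t ψ) (rm_tl d b) :=
    ((sc_rho_contDiffOn hG hψ).contDiffAt ((if_open hψ).mem_nhds hb)).differentiableAt (by simp)
  have h3 : HasFDerivAt (fun b => ctRho h t ψ (rm_tl d b))
      ((fderiv ℝ (ctRho h t ψ) (rm_tl d b)).comp (rm_tl d)) b :=
    h2.hasFDerivAt.comp b (rm_tl d).hasFDerivAt
  rw [h1.fderiv_eq, h3.fderiv]
  refine ContinuousLinearMap.opNorm_le_bound _ (norm_nonneg _) fun a => ?_
  exact ((fderiv ℝ (ctRho h t ψ) (rm_tl d b)).le_opNorm _).trans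
    (mul_le_mul_of_nonneg_left (sc_norm_tl_le a) (norm_nonneg _))

theorem sc_flat_tl {F : Set (E d)} {η rF : ℝ} (hd : 8 ≤ d) (H : ScFlat F η rF) :
    ScFlat (rm_tl d ⁻¹' F) η rF := by
  intro z hz r' hr' hr'r
  obtain ⟨L, hL, hy⟩ := H (rm_tl d z) hz r' hr' hr'r
  refine ⟨L.comap (rm_tl d : E (d + 1) →ₗ[ℝ] E d), ?_, ?_⟩
  · have h1 : L.comap (rm_tl d : E (d + 1) →ₗ[ℝ] E d) ≤
        L.map (rm_in d : E d →ₗ[ℝ] E (d + 1)) ⊔ Submodule.span ℝ {(eb 0 : E (d + 1))} := by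
      intro b hb
      have hb2 : b = rm_in d (rm_tl d b) + b 0 • eb 0 := by
        conv_lhs => rw [← rm_J_tl b]
        unfold rm_J
        exact add_comm _ _
      rw [hb2]
      exact Submodule.add_mem_sup (Submodule.mem_map_of_mem hb)
        (Submodule.smul_mem _ _ (Submodule.mem_span_singleton_self _))
    calc Module.finrank ℝ (L.comap (rm_tl d : E (d + 1) →ₗ[ℝ] E d))
        ≤ Module.finrank ℝ (L.map (rm_in d : E d →ₗ[ℝ] E (d + 1)) ⊔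
            Submodule.span ℝ {(eb 0 : E (d + 1))} : Submodule ℝ (E (d + 1))) :=
          Submodule.finrank_mono h1
      _ ≤ Module.finrank ℝ (L.map (rm_in d : E d →ₗ[ℝ] E (d + 1))) +
          Module.finrank ℝ (Submodule.span ℝ {(eb 0 : E (d + 1))}) :=
          Submodule.finrank_add_le_finrank_add_finrank _ _
      _ ≤ Module.finrank ℝ L + 1 :=
          add_le_add (Submodule.finrank_map_le _ _) ((finrank_span_le_card _).trans (by simp))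
      _ ≤ d + 1 - 8 := by omega
  · rintro y ⟨hyF, hyb⟩
    have h1 : rm_tl d y ∈ ball (rm_tl d z) r' := by
      rw [mem_ball, dist_eq_norm, ← map_sub]
      rw [mem_ball, dist_eq_norm] at hyb
      exact (sc_norm_tl_le _).trans_lt hyb
    have h2 := hy (rm_tl d y) ⟨hyF, h1⟩
    have h3 := sc_infDist_tl_aux (L : Set (E d)) (y - z)
    rw [map_sub] at h3
    rw [← h3] at h2
    exact h2

end cyl

section generic

variable {V' F' : Type*} [NormedAddCommGroup V'] [NormedSpace ℝ V'] [NormedAddCommGroup F']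
  [NormedSpace ℝ F']

theorem sc_norm_sub_lt {Γ : V' → F'} {x : V'} (hc0 : ContinuousAt Γ x) {τ : ℝ} (hτ : 0 < τ) :
    ∃ δ > 0, ∀ ⦃u : V'⦄, dist u x < δ → ‖Γ u - Γ x‖ < τ := by
  obtain ⟨δ, hδ, h2⟩ := Metric.continuousAt_iff.1 hc0 τ hτ
  exact ⟨δ, hδ, fun u hu => by rw [← dist_eq_norm]; exact h2 hu⟩

theorem sc_fderiv_bdd {A : V' → F'} {U K : Set V'} (hU : IsOpen U) (hA : ContDiffOn ℝ ∞ A U)
    (hK : IsCompact K) (hKU : K ⊆ U) :
    ∃ L : ℝ, ∀ y ∈ K, ∀ v, ‖fderiv ℝ A y v‖ ≤ L * ‖v‖ := by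
  obtain ⟨L, hL⟩ := hK.exists_bound_of_continuousOn
    ((hA.continuousOn_fderiv_of_isOpen hU (by simp)).mono hKU)
  exact ⟨L, fun y hy v => ((fderiv ℝ A y).le_opNorm v).trans
    (mul_le_mul_of_nonneg_right (hL y hy) (norm_nonneg _))⟩

end generic



theorem sc_rho_pos (hG : CtGeo d M h t) {ψ : E d → V} {U : Set (E d)} (hψ : IsParam M ψ U)
    {u : E d} (hu : u ∈ U) : 0 < ctRho h t ψ u := by
  borelize V
  exact ct_rho_pos hG hψ hu

/-- a parametrisation which is normalised at a given point. -/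
theorem sc_exists_normal_param (hG : CtGeo d M h t) {x₀ : V} (hx : x₀ ∈ M) :
    ∃ (ψ : E d → V) (W : Set (E d)), IsParam M ψ W ∧ (0 : E d) ∈ W ∧ ψ 0 = x₀ ∧ cm h ψ 0 = 1 := by
  obtain ⟨ψ₁, U₁, h1, u₁, hu₁, rfl⟩ := hG.mfd x₀ hx
  obtain ⟨L, hLi, hL⟩ := sc_exists_normal ((hG.met ψ₁ U₁ h1).2 u₁ hu₁)
  set T : E d → E d := fun w => u₁ + L w with hT
  have hTd : ∀ w, HasFDerivAt T L w := fun w => L.hasFDerivAt.const_add u₁
  have hTc : Continuous T := continuous_const.add L.continuous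
  have hW : IsOpen (T ⁻¹' U₁) := (if_open h1).preimage hTc
  have h2 : IsParam M (ψ₁ ∘ T) (T ⁻¹' U₁) :=
    if_comp h1 hW (contDiff_const.add L.contDiff).contDiffOn
      (fun a _ b _ hab => hLi (add_left_cancel hab))
      (fun w _ => by rw [(hTd w).fderiv]; exact hLi) (fun w hw => hw)
  have hT0 : T 0 = u₁ := by simp [hT]
  have h0W : (0 : E d) ∈ T ⁻¹' U₁ := by
    show T 0 ∈ U₁
    rw [hT0]; exact hu₁
  refine ⟨ψ₁ ∘ T, T ⁻¹' U₁, h2, h0W, by show ψ₁ (T 0) = _; rw [hT0], ?_⟩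
  have h3 : HasFDerivAt (ψ₁ ∘ T) ((fderiv ℝ ψ₁ u₁).comp L) 0 := by
    have := (if_differentiableAt h1 hu₁).hasFDerivAt
    rw [← hT0] at this
    rw [← hT0]
    exact this.comp 0 (hTd 0)
  ext i j
  show h (ψ₁ (T 0)) (fderiv ℝ (ψ₁ ∘ T) 0 (eb i)) (fderiv ℝ (ψ₁ ∘ T) 0 (eb j)) = _
  rw [h3.fderiv, hT0]
  show h (ψ₁ u₁) (fderiv ℝ ψ₁ u₁ (L (eb i))) (fderiv ℝ ψ₁ u₁ (L (eb j))) = _
  rw [← if_cm_bil, hL, ← sc_bil_one, if_bil_eb]

/-- good charts exist at every point. -/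
theorem sc_good_point (hG : CtGeo d M h t) (hp : SmoothAlong d M p) {x₀ : V} (hx : x₀ ∈ M)
    {O : Set V} (hO : IsOpen O) (hxO : x₀ ∈ O) {τ : ℝ} (hτ : 0 < τ) :
    ∃ (ψ : E d → V) (u₀ : E d) (r Λ : ℝ), 0 < r ∧ 0 ≤ Λ ∧ IsParam M ψ (ball u₀ (3 * r)) ∧ ψ u₀ = x₀ ∧
      ψ '' ball u₀ (3 * r) ⊆ O ∧ ScBd h t p ψ (ball u₀ (3 * r)) τ Λ ∧
      ∃ K, IsCompact K ∧ ψ '' ball u₀ (3 * r) ⊆ K := by
  obtain ⟨ψ, W, hψ, h0W, hψ0, hcm⟩ := sc_exists_normal_param hG hx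
  have hW := if_open hψ
  have hΓ := sc_gam_contDiffOn hG hψ
  have hρ := sc_rho_contDiffOn hG hψ
  set Γ : E d → (E d →L[ℝ] E d →L[ℝ] ℝ) := fun u => if_bil (cm h ψ u)⁻¹ with hΓdef
  have hΓ0 : ∀ ξ : E d, Γ 0 ξ ξ = ‖ξ‖ ^ 2 := by
    intro ξ
    show if_bil (cm h ψ 0)⁻¹ ξ ξ = _
    rw [hcm, inv_one, sc_bil_one, real_inner_self_eq_norm_sq]
  obtain ⟨δ, hδ, hδΓ⟩ := sc_norm_sub_lt (hΓ.continuousOn.continuousAt (hW.mem_nhds h0W)) hτ
  have hWO : IsOpen (W ∩ ψ ⁻¹' O) := (if_continuousOn hψ).isOpen_inter_preimage hW hO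
  have h0WO : (0 : E d) ∈ W ∩ ψ ⁻¹' O := ⟨h0W, by show ψ 0 ∈ O; rw [hψ0]; exact hxO⟩
  obtain ⟨ε, hε, hεW⟩ := Metric.isOpen_iff.1 hWO 0 h0WO
  set r : ℝ := min ε δ / 6 with hr
  have hm : 0 < min ε δ := lt_min hε hδ
  have hr0 : 0 < r := by positivity
  have h3r : 3 * r < min ε δ := by rw [hr]; linarith
  have hKW : closedBall (0 : E d) (3 * r) ⊆ W ∩ ψ ⁻¹' O :=
    (closedBall_subset_ball (h3r.trans_le (min_le_left _ _))).trans hεW
  have hKc : IsCompact (closedBall (0 : E d) (3 * r)) := isCompact_closedBall _ _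
  have hbK : ball (0 : E d) (3 * r) ⊆ closedBall (0 : E d) (3 * r) := ball_subset_closedBall
  obtain ⟨B1, hB1⟩ := sc_fderiv_bdd hW hΓ hKc fun u hu => (hKW hu).1
  have hρc : ContinuousOn (fun u => (ctRho h t ψ u)⁻¹ • fderiv ℝ (ctRho h t ψ) u) W :=
    (hρ.continuousOn.inv₀ fun u hu => (sc_rho_pos hG hψ hu).ne').smul
      (hρ.continuousOn_fderiv_of_isOpen hW (by simp))
  obtain ⟨B2, hB2⟩ := hKc.exists_bound_of_continuousOn (hρc.mono fun u hu => (hKW hu).1)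
  obtain ⟨B3, hB3⟩ := hKc.exists_bound_of_continuousOn
    ((hp ψ W hψ).continuousOn.mono fun u hu => (hKW hu).1)
  have hΛ1 : B1 ≤ |B1| + |B2| + |B3| := by
    have := le_abs_self B1; have := abs_nonneg B2; have := abs_nonneg B3; linarith
  have hΛ2 : B2 ≤ |B1| + |B2| + |B3| := by
    have := le_abs_self B2; have := abs_nonneg B1; have := abs_nonneg B3; linarith
  have hΛ3 : B3 ≤ |B1| + |B2| + |B3| := by
    have := le_abs_self B3; have := abs_nonneg B1; have := abs_nonneg B2; linarith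
  refine ⟨ψ, 0, r, |B1| + |B2| + |B3|, hr0, by positivity,
    if_mono hψ isOpen_ball fun u hu => (hKW (hbK hu)).1, hψ0, ?_, ⟨?_, ?_, ?_, ?_⟩,
    ψ '' closedBall 0 (3 * r), hKc.image_of_continuousOn
      ((if_continuousOn hψ).mono fun u hu => (hKW hu).1), image_mono hbK⟩
  · rintro _ ⟨u, hu, rfl⟩
    exact (hKW (hbK hu)).2
  · intro u hu ξ
    have h1 : dist u 0 < δ := (mem_ball.1 hu).trans (h3r.trans_le (min_le_right _ _))
    have h2 := hδΓ h1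
    have h3 : if_bil (cm h ψ u)⁻¹ ξ ξ - ‖ξ‖ ^ 2 = (Γ u - Γ 0) ξ ξ := by
      rw [← hΓ0 ξ]; rfl
    rw [h3, ← Real.norm_eq_abs]
    refine ((Γ u - Γ 0).le_opNorm₂ ξ ξ).trans ?_
    rw [mul_assoc, sq]
    exact mul_le_mul_of_nonneg_right h2.le (by positivity)
  · intro u hu a ξ η
    have h2 : ‖fderiv ℝ Γ u a‖ ≤ (|B1| + |B2| + |B3|) * ‖a‖ := (hB1 u (hbK hu) a).trans
      (mul_le_mul_of_nonneg_right hΛ1 (norm_nonneg a))
    have h3 : ‖fderiv ℝ Γ u a ξ η‖ ≤ ‖fderiv ℝ Γ u a‖ * ‖ξ‖ * ‖η‖ := (fderiv ℝ Γ u a).le_opNorm₂ ξ η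
    rw [Real.norm_eq_abs] at h3
    refine h3.trans ?_
    exact mul_le_mul_of_nonneg_right (mul_le_mul_of_nonneg_right h2 (norm_nonneg _)) (norm_nonneg _)
  · intro u hu
    have h1 := hB2 u (hbK hu)
    have hpos := sc_rho_pos hG hψ (hKW (hbK hu)).1
    rw [norm_smul, norm_inv, Real.norm_eq_abs, abs_of_pos hpos, inv_mul_le_iff₀ hpos] at h1
    rw [mul_comm]
    exact h1.trans (mul_le_mul_of_nonneg_left hΛ2 hpos.le)
  · intro u hu
    exact (hB3 u (hbK hu)).trans hΛ3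

/-- one more flat direction. -/
theorem ScGood.cyl {ψ : E d → V} {U F : Set (E d)} {η rF r₀ τ Λ : ℝ}
    (H : ScGood d M h t p ψ U F η rF r₀ τ Λ) (hd : 8 ≤ d) (hG : CtGeo d M h t) {τ' : V →L[ℝ] ℝ}
    {e : V} (hτ : τ' e = 1) (hM : ∀ x ∈ M, τ' x = 0) (hn : CtNormal τ' e M h) :
    ScGood (d + 1) (ctCyl τ' e M) (fun z => h (ctPr τ' e z)) (fun z => t (ctPr τ' e z))
      (fun z => p (ctPr τ' e z)) (fun b => ψ (rm_tl d b) + b 0 • e) (rm_tl d ⁻¹' U) (rm_tl d ⁻¹' F)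
      η rF r₀ τ Λ := by
  have hmem : ∀ b ∈ rm_tl d ⁻¹' U ∩ scTube (rm_tl d ⁻¹' F) r₀, rm_tl d b ∈ U ∩ scTube F r₀ := by
    rintro b ⟨hb1, hb2⟩
    refine ⟨hb1, ?_⟩
    have : infDist b (rm_tl d ⁻¹' F) ≤ r₀ := hb2
    rw [sc_infDist_tl_aux] at this
    exact this
  refine ⟨sc_cyl_param H.par hτ hM, H.closed.preimage (rm_tl d).continuous, ?_,
    sc_flat_tl hd H.flat, ⟨?_, ?_, ?_, ?_⟩⟩
  · obtain ⟨y, hy⟩ := H.ne
    exact ⟨rm_J 0 y, by rw [mem_preimage, rm_tl_J]; exact hy⟩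
  · intro b hb ξ
    have hb' := hmem b hb
    rw [sc_cyl_gam hG H.par hτ hM hn hb'.1, sc_norm_sq_tl ξ]
    have h1 := H.bd.close _ hb' (rm_tl d ξ)
    have hτ0 : 0 ≤ τ := by
      have h2 := H.bd.close _ hb' (eb ⟨0, by omega⟩)
      have h3 : ‖(eb ⟨0, by omega⟩ : E d)‖ = 1 := by simp
      rw [h3] at h2
      have := (abs_nonneg _).trans h2
      linarith
    have h4 : ξ 0 * ξ 0 + if_bil (cm h ψ (rm_tl d b))⁻¹ (rm_tl d ξ) (rm_tl d ξ) -
        (ξ 0 ^ 2 + ‖rm_tl d ξ‖ ^ 2) =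
        if_bil (cm h ψ (rm_tl d b))⁻¹ (rm_tl d ξ) (rm_tl d ξ) - ‖rm_tl d ξ‖ ^ 2 := by ring
    rw [h4]
    refine h1.trans ?_
    nlinarith [sq_nonneg (ξ 0), mul_nonneg hτ0 (sq_nonneg (ξ 0))]
  · intro b hb a ξ η'
    have hb' := hmem b hb
    rw [sc_cyl_dgam hG H.par hτ hM hn hb'.1]
    have hΛ : 0 ≤ Λ := (abs_nonneg _).trans (H.bd.pB _ hb')
    refine (H.bd.dGam _ hb' _ _ _).trans ?_
    gcongr <;> exact sc_norm_tl_le _
  · intro b hb
    have hb' := hmem b hb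
    rw [sc_cyl_rho hG H.par hτ hM hn hb'.1]
    exact (sc_cyl_drho hG H.par hτ hM hn hb'.1).trans (H.bd.dRho _ hb')
  · intro b hb
    have hb' := hmem b hb
    show |p (ctPr τ' e (ψ (rm_tl d b) + b 0 • e))| ≤ Λ
    rw [(sc_cyl_pr H.par hτ hM hb'.1).2]
    exact H.bd.pB _ hb'

theorem sc_infDist_tl (F : Set (E d)) (b : E (d + 1)) :
    infDist b (rm_tl d ⁻¹' F) = infDist (rm_tl d b) F :=
  sc_infDist_tl_aux F b

end

end Claimed.Agent.R315
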