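import Claimed.Agent.R315.Sc.Good
import Claimed.Agent.R315.Sh.GeoT

/-!
# Row 315, package Sc, part 9b: charts of members and of the tails of cofaces.   Architect: helper257.   PACKAGE L-SC-GOODB.

PLAN: header of `Good.lean`, steps 3 (`sc_member_chart`), 4 (`sc_set_coface`).
-/

set_option autoImplicit false
open scoped ContDiff Topology ENNReal RealInnerProductSpace
open MeasureTheory Set Metric

namespace Claimed.Agent.R315

noncomputable section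

section bd

variable {V : Type} [NormedAddCommGroup V] [NormedSpace ℝ V] {d : ℕ}

/-- the bounds only depend on the data along the chart, near the points of `G`. -/
theorem ScBd.congr_open {h h' : Ten V} {t t' p p' : V → ℝ} {ψ : E d → V} {G G' O : Set (E d)}
    {τ Λ : ℝ} (H : ScBd h t p ψ G τ Λ) (hO : IsOpen O) (hG : G' ⊆ G) (hGO : G' ⊆ O)
    (e1 : ∀ x ∈ O, h' (ψ x) = h (ψ x)) (e2 : ∀ x ∈ O, t' (ψ x) = t (ψ x))
    (e3 : ∀ x ∈ O, p' (ψ x) = p (ψ x)) : ScBd h' t' p' ψ G' τ Λ := by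
  have c1 : ∀ x ∈ O, cm h' ψ x = cm h ψ x := by
    intro x hx
    simp only [cm, e1 x hx]
  have c2 : ∀ x ∈ O, ctRho h' t' ψ x = ctRho h t ψ x := by
    intro x hx
    simp only [ctRho, c1 x hx, e2 x hx]
  refine ⟨?_, ?_, ?_, ?_⟩
  · intro x hx ξ
    rw [c1 x (hGO hx)]
    exact H.close x (hG hx) ξ
  · intro x hx a ξ η
    have : (fun u => if_bil (cm h' ψ u)⁻¹) =ᶠ[𝓝 x] fun u => if_bil (cm h ψ u)⁻¹ := by
      filter_upwards [hO.mem_nhds (hGO hx)] with u hu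
      rw [c1 u hu]
    rw [this.fderiv_eq]
    exact H.dGam x (hG hx) a ξ η
  · intro x hx
    have : ctRho h' t' ψ =ᶠ[𝓝 x] ctRho h t ψ := by
      filter_upwards [hO.mem_nhds (hGO hx)] with u hu
      exact c2 u hu
    rw [this.fderiv_eq, c2 x (hGO hx)]
    exact H.dRho x (hG hx)
  · intro x hx
    rw [e3 x (hGO hx)]
    exact H.pB x (hG hx)

end bd

theorem scB2_spec : 0 < scB2 ∧ ∀ s : ℝ, deriv scC s ^ 2 + deriv scG s ^ 2 ≤ scB2 :=
  sc_CG_deriv.choose_spec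

/-- products of one-dimensional cut-offs along linear forms of norm `≤ 1` are windows. -/
theorem sc_win_prod {m : ℕ} {ι : Type} (J : Finset ι) (L : ι → E m →L[ℝ] ℝ) (hL : ∀ j ∈ J, ‖L j‖ ≤ 1)
    (T : ℝ) : ScWin (fun x => ∏ j ∈ J, scG (L j x - T)) (J.card * scB2) := by
  classical
  have hfd : ∀ (f : ℝ → ℝ), ContDiff ℝ ∞ f → ∀ (j : ι) (x : E m),
      fderiv ℝ (fun y => f (L j y - T)) x = deriv f (L j x - T) • L j := by
    intro f hf j x
    have h1 : HasDerivAt f (deriv f (L j x - T)) (L j x - T) :=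
      ((hf.differentiable (by simp)).differentiableAt).hasDerivAt
    have h2 : HasFDerivAt (fun y => L j y - T) (L j) x := (L j).hasFDerivAt.sub_const T
    exact (h1.comp_hasFDerivAt x h2).fderiv
  refine ⟨J.card, fun i x => scG (L (J.equivFin.symm i) x - T),
    fun i x => scC (L (J.equivFin.symm i) x - T), fun _ => scB2, ?_, ?_, ?_, ?_, ?_⟩
  · intro i
    exact ⟨scG_contDiff.comp ((L _).contDiff.sub contDiff_const),
      scC_contDiff.comp ((L _).contDiff.sub contDiff_const)⟩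
  · intro i x
    have := scC_sq_add_scG_sq (L (J.equivFin.symm i) x - T)
    linarith
  · intro i x
    have hj : ‖L (J.equivFin.symm i)‖ ≤ 1 := hL _ (J.equivFin.symm i).2
    rw [hfd scG scG_contDiff, hfd scC scC_contDiff, norm_smul, norm_smul, mul_pow, mul_pow,
      Real.norm_eq_abs, Real.norm_eq_abs, sq_abs, sq_abs]
    have h1 : ‖L (J.equivFin.symm i)‖ ^ 2 ≤ 1 := by
      have := norm_nonneg (L (J.equivFin.symm i))
      nlinarith
    have h2 := scB2_spec.2 (L (J.equivFin.symm i) x - T)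
    nlinarith [sq_nonneg (deriv scG (L (J.equivFin.symm i) x - T)),
      sq_nonneg (deriv scC (L (J.equivFin.symm i) x - T))]
  · intro x
    show ∏ j ∈ J, scG (L j x - T) = ∏ i, scG (L (J.equivFin.symm i) x - T)
    rw [← Finset.prod_coe_sort J (fun j => scG (L j x - T))]
    exact (Equiv.prod_comp J.equivFin.symm (fun j : J => scG (L j x - T))).symm
  · simp

theorem sc_gb_norm_tl {d : ℕ} (x : E (d + 1)) : ‖x‖ ^ 2 = ‖rm_tl d x‖ ^ 2 + x 0 ^ 2 := by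
  rw [EuclideanSpace.norm_sq_eq, EuclideanSpace.norm_sq_eq, Fin.sum_univ_succ]
  simp only [rm_tl_apply, Real.norm_eq_abs, sq_abs]
  ring

variable {V : Type} [NormedAddCommGroup V] [NormedSpace ℝ V] [FiniteDimensional ℝ V]

variable {W : Type} [NormedAddCommGroup W] [NormedSpace ℝ W] [FiniteDimensional ℝ W] {ι I : Type}
  [Fintype ι]

/-- charts of the members `(β, J)`, with the surjectivity of the coordinates. -/
theorem sc_member_chart_aux {n : ℕ} {M : Set V} {F : Frame V W ι} {P : PData W ι I}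
    (hP : PGeo n M F P) {p : W → ℝ} (hp : SC n F P.E p) (β : Stat ι) (hβ : 8 ≤ n - hits β)
    (J : Finset ι) (hJ : ∀ j ∈ J, β j = 0) {ψ : E (n - hits β) → W} {U F₀ : Set (E (n - hits β))}
    {η rF r₀ τ Λ : ℝ} (H : ScGood (n - hits β) (P.E β) P.h P.dr p ψ U F₀ η rF r₀ τ Λ) (d' : ℕ)
    (hd' : d' = mdim n β J) :
    ∃ (Ψ : E d' → W) (π : E d' →L[ℝ] E (n - hits β)) (ℓ : ι → E d' →L[ℝ] ℝ),
      ScGood d' (P.mE F β J) (P.mh F J) (P.mdr F J) (fun z => p (F.dropS J z)) Ψ (π ⁻¹' U)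
        (π ⁻¹' F₀) η rF r₀ τ Λ ∧
      (∀ x, π x ∈ U → F.dropS J (Ψ x) = ψ (π x) ∧ ∀ j ∈ J, F.t j (Ψ x) = ℓ j x) ∧
      (∀ x, ‖x‖ ^ 2 = ‖π x‖ ^ 2 + ∑ j ∈ J, ℓ j x ^ 2) ∧
      (∀ x, infDist x (π ⁻¹' F₀) = infDist (π x) F₀) ∧
      ∀ (u : E (n - hits β)) (s : ι → ℝ), ∃ x, π x = u ∧ ∀ j ∈ J, ℓ j x = s j := by
  classical
  induction J using Finset.induction_on generalizing d' with
  | empty =>
    have h4 : d' = n - hits β := by rw [hd', ct_mdim_empty]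
    subst h4
    refine ⟨ψ, ContinuousLinearMap.id ℝ _, fun _ => 0, ?_, ?_, ?_, ?_, ?_⟩
    · rw [ct_mE_empty, ct_mh_empty, ct_mdr_empty]
      have h2 : (fun z => p (F.dropS ∅ z)) = p := funext fun z => by rw [F.dropS_empty]
      rw [h2]
      exact H
    · intro x _
      exact ⟨by rw [F.dropS_empty]; rfl, fun j hj => absurd hj (Finset.notMem_empty j)⟩
    · intro x; simp
    · intro x; rfl
    · intro u s
      exact ⟨u, rfl, fun j hj => absurd hj (Finset.notMem_empty j)⟩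
  | insert i J hi ih =>
    have hJ' : ∀ j ∈ J, β j = 0 := fun j hj => hJ j (Finset.mem_insert_of_mem hj)
    have hβi : β i = 0 := hJ i (Finset.mem_insert_self i J)
    have h4 : d' = mdim n β J + 1 := by rw [hd', ct_mdim_insert n β hi]
    subst h4
    obtain ⟨Ψ₀, π₀, ℓ₀, H₀, h1, h2, h3, h7⟩ := ih hJ' (mdim n β J) rfl
    have hd8 : 8 ≤ mdim n β J := le_trans hβ (Nat.le_add_right _ _)
    have Hc := H₀.cyl hd8 (ct_mem_geo hP β J hJ') (F.t_e i) (ct_mem_t_zero hP β hβi hi)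
      (ct_mem_normal hP β J hβi)
    refine ⟨fun b => Ψ₀ (rm_tl _ b) + b 0 • F.e i, π₀ ∘L rm_tl _,
      fun j => if j = i then (EuclideanSpace.proj (0 : Fin (mdim n β J + 1)) : _ →L[ℝ] ℝ)
        else ℓ₀ j ∘L rm_tl _, ?_, ?_, ?_, ?_, ?_⟩
    · rw [ct_mE_insert P F β hi, ct_mh_insert P F hi, ct_mdr_insert P F hi]
      have h5 : (fun z => p (F.dropS (insert i J) z)) =
          fun z => (fun y => p (F.dropS J y)) (ctPr (F.t i) (F.e i) z) :=
        funext fun z => by simp only [F.dropS_insert_ctPr hi]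
      rw [h5]
      exact Hc
    · intro x hx
      have hx' : π₀ (rm_tl _ x) ∈ U := hx
      obtain ⟨ha, hb⟩ := h1 _ hx'
      have hm : Ψ₀ (rm_tl _ x) ∈ P.mE F β J := if_mem H₀.par hx'
      have ht0 : F.t i (Ψ₀ (rm_tl _ x)) = 0 := ct_mem_t_zero hP β hβi hi _ hm
      have hpr : ctPr (F.t i) (F.e i) (Ψ₀ (rm_tl _ x) + x 0 • F.e i) = Ψ₀ (rm_tl _ x) := by
        simp [ctPr, ht0, F.t_e]
      refine ⟨?_, ?_⟩
      · rw [F.dropS_insert_ctPr hi, hpr, ha]; rfl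
      · intro j hj
        by_cases hji : j = i
        · subst hji
          simp [ht0, F.t_e]
        · have hjJ : j ∈ J := (Finset.mem_insert.mp hj).resolve_left hji
          simp only [hji, if_false, map_add, map_smul, F.t_e_ne j i hji, smul_eq_mul, mul_zero,
            add_zero]
          exact hb j hjJ
    · intro x
      rw [Finset.sum_insert hi, sc_gb_norm_tl x, h2 (rm_tl _ x)]
      have h6 : ∀ j ∈ J, ((if j = i then
          (EuclideanSpace.proj (0 : Fin (mdim n β J + 1)) : E (mdim n β J + 1) →L[ℝ] ℝ)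
          else ℓ₀ j ∘L rm_tl _) x) ^ 2 = ℓ₀ j (rm_tl _ x) ^ 2 := by
        intro j hj
        have : j ≠ i := fun h => hi (h ▸ hj)
        simp [this]
      rw [Finset.sum_congr rfl h6]
      simp
      ring
    · intro x
      have : (π₀ ∘L rm_tl (mdim n β J)) ⁻¹' F₀ = rm_tl _ ⁻¹' (π₀ ⁻¹' F₀) := rfl
      rw [this, sc_infDist_tl, h3]; rfl
    · intro u s
      obtain ⟨x₀, hx₀, hs₀⟩ := h7 u s
      refine ⟨rm_J (s i) x₀, ?_, ?_⟩
      · show π₀ (rm_tl _ (rm_J (s i) x₀)) = u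
        rw [rm_tl_J, hx₀]
      · intro j hj
        by_cases hji : j = i
        · subst hji
          simp [rm_J_zero]
        · have hjJ : j ∈ J := (Finset.mem_insert.mp hj).resolve_left hji
          simp only [hji, if_false]
          show ℓ₀ j (rm_tl _ (rm_J (s i) x₀)) = s j
          rw [rm_tl_J, hs₀ j hjJ]

/-- charts of the members `(β, J)`. -/
theorem sc_member_chart {n : ℕ} {M : Set V} {F : Frame V W ι} {P : PData W ι I}
    (hP : PGeo n M F P) {p : W → ℝ} (hp : SC n F P.E p) (β : Stat ι) (hβ : 8 ≤ n - hits β)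
    (J : Finset ι) (hJ : ∀ j ∈ J, β j = 0) {ψ : E (n - hits β) → W} {U F₀ : Set (E (n - hits β))}
    {η rF r₀ τ Λ : ℝ} (H : ScGood (n - hits β) (P.E β) P.h P.dr p ψ U F₀ η rF r₀ τ Λ) (d' : ℕ)
    (hd' : d' = mdim n β J) :
    ∃ (Ψ : E d' → W) (π : E d' →L[ℝ] E (n - hits β)) (ℓ : ι → E d' →L[ℝ] ℝ),
      ScGood d' (P.mE F β J) (P.mh F J) (P.mdr F J) (fun z => p (F.dropS J z)) Ψ (π ⁻¹' U)
        (π ⁻¹' F₀) η rF r₀ τ Λ ∧
      (∀ x, π x ∈ U → F.dropS J (Ψ x) = ψ (π x) ∧ ∀ j ∈ J, F.t j (Ψ x) = ℓ j x) ∧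
      (∀ x, ‖x‖ ^ 2 = ‖π x‖ ^ 2 + ∑ j ∈ J, ℓ j x ^ 2) ∧
      ∀ x, infDist x (π ⁻¹' F₀) = infDist (π x) F₀ := by
  obtain ⟨Ψ, π, ℓ, h1, h2, h3, h4, _⟩ := sc_member_chart_aux hP hp β hβ J hJ H d' hd'
  exact ⟨Ψ, π, ℓ, h1, h2, h3, h4⟩

variable [MeasurableSpace W] [BorelSpace W]

/-- **the setting of (HY) in the tail `J` of the coface `α` of `β`**. -/
theorem sc_set_coface (C : ShCtx V W ι) (hC : C.Ok) (β : Stat ι) (hβ : 8 ≤ C.m β)
    {ψ : E (C.m β) → W} {U F₀ : Set (E (C.m β))} {η rF r₀ τ Λ : ℝ}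
    (H : ScGood (C.m β) (C.P.E β) C.P.h C.P.dr C.p ψ U F₀ η rF r₀ τ Λ)
    (hK : ∃ K, IsCompact K ∧ ψ '' U ⊆ K)
    (hU : ∃ K₀, IsCompact K₀ ∧ K₀ ⊆ U ∧ U ∩ scTube F₀ r₀ ⊆ K₀) (α : Stat ι) (J : Finset ι)
    (hJ : ∀ j ∈ J, α j ≠ 0) (hα : α.faceS J = β) :
    ∃ (T : ℝ) (Ψ : E (C.m α) → W) (U' : Set (E (C.m α))) (π : E (C.m α) →L[ℝ] E (C.m β))
      (θ : E (C.m α) → ℝ),
      ScSet (C.m α) (C.P.E α) C.P.h C.P.dr C.p Ψ U' (π ⁻¹' F₀) θ η rF r₀ τ Λ (J.card * scB2) ∧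
      (∀ x ∈ U', π x ∈ U ∧ C.F.dropS J (Ψ x) = ψ (π x)) ∧
      (∀ x, infDist x (π ⁻¹' F₀) = infDist (π x) F₀) ∧
      ∀ z ∈ C.P.E α, z ∈ C.F.tailS α J T → C.F.dropS J z ∈ ψ '' U → ∃ x ∈ U', Ψ x = z ∧ θ x = 1 := by
  classical
  obtain ⟨K, hKc, hKU⟩ := hK
  obtain ⟨K₀, hK₀c, hK₀U, hK₀t⟩ := hU
  have hP : PGeo C.B.n C.B.M C.F C.P := hC.inv.pgeo
  have hD := hP.diag
  have hJβ : ∀ j ∈ J, β j = 0 := by
    intro j hj
    rw [← hα]; simp [Stat.faceS, hj]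
  have hhits : hits β = hits α + J.card := by rw [← hα]; exact ct_hits_faceS α J hJ
  have hd' : C.m α = mdim C.B.n β J := by
    have h8 : 8 ≤ C.B.n - hits β := hβ
    simp only [ShCtx.m, mdim]
    omega
  obtain ⟨Ψ, π, ℓ, G, h1, h2, h3, h4⟩ :=
    sc_member_chart_aux hP hC.cut.p_sc β hβ J hJβ H (C.m α) hd'
  -- thresholds
  have hKq : IsCompact (C.F.q '' K) := hKc.image C.F.q.continuous
  have hK2 : IsCompact (cthickening 1 (C.F.q '' K)) := hKq.cthickening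
  obtain ⟨R₁, _, hR₁⟩ := sh_unif_thr hD hK2
  obtain ⟨R₂, _, hR₂⟩ := sh_unif_compat hD hP.met.compat hK2
  obtain ⟨R₃, _, hR₃⟩ := sh_unif_compat hD hP.dr_sc.2 hK2
  obtain ⟨R₄, _, hR₄⟩ := sh_unif_compat hD hC.cut.p_sc.2 hK2
  set R : ℝ := max (max R₁ R₂) (max R₃ R₄) with hR
  have hRR₁ : R₁ ≤ R := (le_max_left _ _).trans (le_max_left _ _)
  have hRR₂ : R₂ ≤ R := (le_max_right _ _).trans (le_max_left _ _)
  have hRR₃ : R₃ ≤ R := (le_max_left _ _).trans (le_max_right _ _)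
  have hRR₄ : R₄ ≤ R := (le_max_right _ _).trans (le_max_right _ _)
  -- the open set of `W` in which the member and `E α` coincide
  set O : Set W := C.F.q ⁻¹' (thickening 1 (C.F.q '' K)) ∩ C.F.tailS α J R with hOdef
  have hO : IsOpen O := (isOpen_thickening.preimage C.F.q.continuous).inter (C.F.isOpen_tailS α J R)
  have hOq : ∀ z ∈ O, C.F.q z ∈ cthickening 1 (C.F.q '' K) := fun z hz =>
    thickening_subset_cthickening _ _ hz.1
  have hOabs : ∀ z ∈ O, ∀ j ∈ J, R < |C.F.t j z| := by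
    intro z hz j hj
    refine lt_of_lt_of_le (hz.2 j hj) ?_
    calc (α j : ℝ) * C.F.t j z ≤ |(α j : ℝ) * C.F.t j z| := le_abs_self _
      _ = |(α j : ℝ)| * |C.F.t j z| := abs_mul _ _
      _ ≤ 1 * |C.F.t j z| := by gcongr; exact ct_abs_sign_le (α j)
      _ = |C.F.t j z| := one_mul _
  have hOE : C.P.mE C.F β J ∩ O = C.P.E α ∩ O := by
    ext z
    simp only [mem_inter_iff, and_congr_left_iff]
    intro hz
    rw [hR₁ J α z (hOq z hz) fun j hj => ⟨hJ j hj, lt_of_le_of_lt hRR₁ (hz.2 j hj)⟩, hα]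
    rfl
  -- the chart domain
  set U' : Set (E (C.m α)) := π ⁻¹' U ∩ {x | ∀ j ∈ J, R < (α j : ℝ) * ℓ j x} with hU'def
  have hUo : IsOpen U := if_open H.par
  have hU'o : IsOpen U' := by
    refine (hUo.preimage π.continuous).inter ?_
    have : {x : E (C.m α) | ∀ j ∈ J, R < (α j : ℝ) * ℓ j x} =
        ⋂ j ∈ J, {x | R < (α j : ℝ) * ℓ j x} := by
      ext x; simp
    rw [this]
    exact isOpen_biInter_finset fun j _ =>
      isOpen_lt continuous_const (continuous_const.mul (ℓ j).continuous)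
  have hU'O : ∀ x ∈ U', Ψ x ∈ O := by
    intro x hx
    obtain ⟨ha, hb⟩ := h1 x hx.1
    refine ⟨?_, fun j hj => ?_⟩
    · refine self_subset_thickening one_pos _ ?_
      rw [← C.F.q_dropS J, ha]
      exact ⟨_, hKU ⟨_, hx.1, rfl⟩, rfl⟩
    · rw [hb j hj]; exact hx.2 j hj
  have hpar : IsParam (C.P.E α) Ψ U' := by
    have p1 : IsParam (C.P.mE C.F β J) Ψ U' := if_mono G.par hU'o inter_subset_left
    have p2 : IsParam (C.P.mE C.F β J ∩ O) Ψ U' := if_param_inter p1 (by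
      rintro _ ⟨x, hx, rfl⟩; exact hU'O x hx)
    rw [hOE] at p2
    exact if_param_of_inter hO p2
  have hU'E : ∀ x ∈ U', Ψ x ∈ tot C.P.E := fun x hx => mem_tot.2 ⟨α, if_mem hpar hx⟩
  have hbd : ScBd C.P.h C.P.dr C.p Ψ (U' ∩ scTube (π ⁻¹' F₀) r₀) τ Λ := by
    refine G.bd.congr_open hU'o (fun x hx => ⟨hx.1.1, hx.2⟩) (fun x hx => hx.1) ?_ ?_ ?_
    · intro x hx
      exact (hR₂ J (Ψ x) (hU'E x hx) (hOq _ (hU'O x hx)) fun j hj =>
        lt_of_le_of_lt hRR₂ (hOabs _ (hU'O x hx) j hj)).symm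
    · intro x hx
      exact (hR₃ J (Ψ x) (hU'E x hx) (hOq _ (hU'O x hx)) fun j hj =>
        lt_of_le_of_lt hRR₃ (hOabs _ (hU'O x hx) j hj)).symm
    · intro x hx
      exact (hR₄ J (Ψ x) (hU'E x hx) (hOq _ (hU'O x hx)) fun j hj =>
        lt_of_le_of_lt hRR₄ (hOabs _ (hU'O x hx) j hj)).symm
  -- the window
  have hℓ : ∀ j ∈ J, ∀ x, |ℓ j x| ≤ ‖x‖ := by
    intro j hj x
    have e1 : ℓ j x ^ 2 ≤ ∑ k ∈ J, ℓ k x ^ 2 :=
      Finset.single_le_sum (f := fun k => ℓ k x ^ 2) (fun k _ => sq_nonneg _) hj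
    have e2 := h2 x
    exact abs_le_of_sq_le_sq (by nlinarith [sq_nonneg ‖π x‖]) (norm_nonneg x)
  set L : ι → E (C.m α) →L[ℝ] ℝ := fun j => (α j : ℝ) • ℓ j with hLdef
  have hLx : ∀ j x, L j x = (α j : ℝ) * ℓ j x := fun j x => rfl
  have hL : ∀ j ∈ J, ‖L j‖ ≤ 1 := by
    intro j hj
    refine ContinuousLinearMap.opNorm_le_bound _ zero_le_one fun x => ?_
    rw [hLx, Real.norm_eq_abs, abs_mul, one_mul]
    calc |(α j : ℝ)| * |ℓ j x| ≤ 1 * ‖x‖ := by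
          gcongr
          · exact ct_abs_sign_le (α j)
          · exact hℓ j hj x
      _ = ‖x‖ := one_mul _
  refine ⟨R + 2, Ψ, U', π, fun x => ∏ j ∈ J, scG (L j x - (R + 1)), ?_, ?_, h3, ?_⟩
  · refine ⟨⟨hpar, G.closed, G.ne, G.flat, hbd⟩, sc_win_prod J L hL (R + 1), ?_⟩
    intro K₁ hK₁ _
    obtain ⟨C₁, hC₁⟩ := hK₁.isBounded.exists_norm_le
    obtain ⟨C₀, hC₀⟩ := hK₀c.isBounded.exists_norm_le
    have cl1 : IsClosed {x : E (C.m α) | ∀ j ∈ J, R + 1 ≤ L j x} := by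
      have : {x : E (C.m α) | ∀ j ∈ J, R + 1 ≤ L j x} = ⋂ j ∈ J, {x | R + 1 ≤ L j x} := by
        ext x; simp
      rw [this]
      exact isClosed_biInter fun j _ => isClosed_le continuous_const (L j).continuous
    have cl2 : IsClosed {x : E (C.m α) | ∀ j ∈ J, |ℓ j x| ≤ ‖C.F.t j‖ * C₁} := by
      have : {x : E (C.m α) | ∀ j ∈ J, |ℓ j x| ≤ ‖C.F.t j‖ * C₁} =
          ⋂ j ∈ J, {x | |ℓ j x| ≤ ‖C.F.t j‖ * C₁} := by
        ext x; simp
      rw [this]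
      exact isClosed_biInter fun j _ => isClosed_le (ℓ j).continuous.abs continuous_const
    refine ⟨π ⁻¹' K₀ ∩ ({x | ∀ j ∈ J, R + 1 ≤ L j x} ∩ {x | ∀ j ∈ J, |ℓ j x| ≤ ‖C.F.t j‖ * C₁}),
      ?_, ?_, ?_⟩
    · refine Metric.isCompact_of_isClosed_isBounded ?_ ?_
      · exact (hK₀c.isClosed.preimage π.continuous).inter (cl1.inter cl2)
      · refine (Metric.isBounded_iff_subset_closedBall 0).2
          ⟨Real.sqrt (C₀ ^ 2 + ∑ j ∈ J, (‖C.F.t j‖ * C₁) ^ 2), fun x hx => ?_⟩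
        rw [mem_closedBall_zero_iff]
        refine Real.le_sqrt_of_sq_le ?_
        rw [h2 x]
        refine add_le_add ?_ (Finset.sum_le_sum fun j hj => ?_)
        · exact pow_le_pow_left₀ (norm_nonneg _) (hC₀ _ hx.1) 2
        · rw [← sq_abs (ℓ j x)]
          exact pow_le_pow_left₀ (abs_nonneg _) (hx.2.2 j hj) 2
    · intro x hx
      exact ⟨hK₀U hx.1, fun j hj => by have := hx.2.1 j hj; rw [hLx] at this; linarith⟩
    · intro x hx hd hθ hΨ
      refine ⟨hK₀t ⟨hx.1, ?_⟩, ?_, ?_⟩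
      · show infDist (π x) F₀ ≤ r₀
        rw [← h3 x]; exact hd
      · intro j hj
        by_contra hc
        push Not at hc
        exact hθ (Finset.prod_eq_zero hj (scG_of_nonpos (by linarith)))
      · intro j hj
        rw [← (h1 x hx.1).2 j hj]
        calc |C.F.t j (Ψ x)| = ‖C.F.t j (Ψ x)‖ := (Real.norm_eq_abs _).symm
          _ ≤ ‖C.F.t j‖ * ‖Ψ x‖ := (C.F.t j).le_opNorm _
          _ ≤ ‖C.F.t j‖ * C₁ := by gcongr; exact hC₁ _ hΨ
  · intro x hx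
    exact ⟨hx.1, (h1 x hx.1).1⟩
  · intro z _ hzT hzU
    obtain ⟨u, hu, huz⟩ := hzU
    obtain ⟨x, hx1, hx2⟩ := h4 u (fun j => C.F.t j z)
    have hxU : π x ∈ U := hx1 ▸ hu
    obtain ⟨ha, hb⟩ := h1 x hxU
    have hΨz : Ψ x = z := by
      have e1 : C.F.dropS J (Ψ x) = C.F.dropS J z := by rw [ha, hx1, huz]
      have e2 : ∑ j ∈ J, C.F.t j (Ψ x) • C.F.e j = ∑ j ∈ J, C.F.t j z • C.F.e j :=
        Finset.sum_congr rfl fun j hj => by rw [hb j hj, hx2 j hj]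
      unfold Frame.dropS at e1
      rw [e2] at e1
      exact sub_left_injective e1
    refine ⟨x, ⟨hxU, fun j hj => ?_⟩, hΨz, ?_⟩
    · rw [hx2 j hj]
      have := hzT j hj
      linarith
    · refine Finset.prod_eq_one fun j hj => scG_of_one_le ?_
      rw [hLx, hx2 j hj]
      have := hzT j hj
      linarith

end

end Claimed.Agent.R315
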