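import Claimed.Agent.R315.Sc.Top
import Claimed.Agent.R315.Sh.Defs

/-!
# Row 315, package Sc, part 8: FROM A CHART TO A CORE MANIFOLD.   Architect: helper257.   PACKAGE L-SC-MF (this file: steps 1-4; PROVED: helper13); L-SC-MFB (`MfB.lean`: steps 5-7).

`(d, M, h, t, p, A)`: `CtGeo`, `M` closed, `CtLAM`.  `(ψ, U)` a parametrisation of `M`.  `scOf h t p A ψ U : ScCh d` = the chart problem (`rho = ctRho`, `Gam = if_bil (cm h ψ)⁻¹`, `S = ctPre ψ U A`).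
`ScSet` = the setting of (HY): flat closed set `F ⊆ E d`, bounds `ScBd` on `U ∩ {δ ≤ r₀}`, a window `θ` (`ScWin`), and properness `cpt`: over a compact `K ⊆ M` the set `U ∩ {δ ≤ r₀} ∩ {θ ≠ 0} ∩ ψ⁻¹ K` is relatively compact in `U`.
EXPORT `sc_mf_hy`: the budget `ShBud` (wall + both joined sides, tests of `Sh/Defs.lean`) for the weight `scWt ψ U (scHw F θ dd ρ)` = `3.55 θ² 1[δ < dd] max(δ,ρ)⁻²` read in the chart, `0` off `ψ '' U`.

PLAN.
1. `scOf_ok`: `A = ctA` on `U` (`ctRho² = e^{-2t} det`, `det > 0`; `if_bil` is linear in the matrix), `f = ctF`; smoothness of `ctRho`, `(cm)⁻¹` on `U` (`IsMetricOn`, Cramer/`Matrix.inv` smooth where `det ≠ 0`; see the proofs around `ctA` in `Ct/Bv*.lean`, `Ct/Lam*.lean`: `GmtData` of a chart), `CtLAM.chart`; `GmtLAM` only depends on `A, f` on `U` (congruence: `gmtPer` uses fields supported in `W ⊂⊂ U`).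
2. transfer of measures: `ct_lintegral_wper_chart`, `ct_lintegral_wvol_chart` (`Ct/BvA.lean`, `BvB.lean`).
3. transfer of gradients: `scOf_grad` = `if_gradSq_eq` + `gradSqC G f u = if_bil G⁻¹ (∇f) (∇f)` (`pdiff f i u = ⟪∇f, e_i⟫`).
   `scOf_gradW`: `mu`-a.e. point is regular (`CtLAM.wper_sing`, `ct_sing_iff`, `ct_wper_compl_bd`).  Near a regular point take `φ` from `ct_def_near` (`|dφ| = 1` on the wall), `ct_rm_level_gradSq`:
   `|∇^S v|² = |∇v|² - ⟨∇v,∇φ⟩²`; in the chart `ν = ∇(φ∘ψ)/|∇(φ∘ψ)|` a.e. (`Gmt.gmt_reg_mu`), `Gam(∇φ,∇φ) = 1`, so `⟨∇v,∇φ⟩² = Gam(∇w,ν)²/Gam(ν,ν)`.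
4. tests in the chart: `w = v ∘ ψ` is smooth on `U`; `θ w` is `ScLoc` by `cpt`.  `vc' (x,s) = vc (ψ x) s` is smooth on `U × ℝ` (`pk_param_prod` + the linear equivalence `E (d+1) ≃ E d × ℝ`).
5. `sc_mf_wall`: `sc_hardy_wall` for `θ w`, `sc_qw_win`; `∫_{U ∩ tube} Qw(∇w) dμ = ∫_{ψ(U ∩ tube)} |∇^S v|² dP ≤ ∫ |∇^S v|² dP` (integrand `≥ 0`, integrable: `sh_fw_ok`-type facts: continuous on the wall, compact support off `Σ`); the same for `v²`.
   LHS: `∫⁻ ofReal(weight) d(shMW v) = ofReal (∫ ...)` (`ofReal_integral_eq_lintegral_ofReal`).   `C = C_chart + 1.71 B₀`.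
6. `sc_mf_side`: the same with `sc_hardy_side`; order of integration in `shNS`: `sc_cyl_swap`.   7. other side: `CtLAM.diff` (`M \\ A`, pressure `-p`), `ScBd` is even in `p`.
-/

set_option autoImplicit false
open scoped ContDiff Topology ENNReal RealInnerProductSpace
open MeasureTheory Set Metric

namespace Claimed.Agent.R315

noncomputable section

variable {V : Type} [NormedAddCommGroup V] [NormedSpace ℝ V]
variable {d : ℕ}

/-- the chart problem. -/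
def scOf (h : Ten V) (t p : V → ℝ) (A : Set V) (ψ : E d → V) (U : Set (E d)) : ScCh d :=
  ⟨U, ctRho h t ψ, fun u => if_bil (cm h ψ u)⁻¹, fun u => p (ψ u), ctPre ψ U A⟩

/-- quantitative bounds of the chart data on `G`. -/
structure ScBd (h : Ten V) (t p : V → ℝ) (ψ : E d → V) (G : Set (E d)) (τ Λ : ℝ) : Prop where
  close : ∀ x ∈ G, ∀ ξ : E d, |if_bil (cm h ψ x)⁻¹ ξ ξ - ‖ξ‖ ^ 2| ≤ τ * ‖ξ‖ ^ 2
  dGam : ∀ x ∈ G, ∀ a ξ η : E d,
    |fderiv ℝ (fun u => if_bil (cm h ψ u)⁻¹) x a ξ η| ≤ Λ * ‖a‖ * ‖ξ‖ * ‖η‖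
  dRho : ∀ x ∈ G, ‖fderiv ℝ (ctRho h t ψ) x‖ ≤ Λ * ctRho h t ψ x
  pB : ∀ x ∈ G, |p (ψ x)| ≤ Λ

/-- a good chart around a flat set. -/
structure ScGood (d : ℕ) (M : Set V) (h : Ten V) (t p : V → ℝ) (ψ : E d → V) (U F : Set (E d))
    (η rF r₀ τ Λ : ℝ) : Prop where
  par : IsParam M ψ U
  closed : IsClosed F
  ne : F.Nonempty
  flat : ScFlat F η rF
  bd : ScBd h t p ψ (U ∩ scTube F r₀) τ Λ

/-- the setting of (HY). -/
structure ScSet (d : ℕ) (M : Set V) (h : Ten V) (t p : V → ℝ) (ψ : E d → V) (U F : Set (E d))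
    (θ : E d → ℝ) (η rF r₀ τ Λ B₀ : ℝ) : Prop extends ScGood d M h t p ψ U F η rF r₀ τ Λ where
  win : ScWin θ B₀
  cpt : ∀ K, IsCompact K → K ⊆ M → ∃ K', IsCompact K' ∧ K' ⊆ U ∧
    ∀ x ∈ U, infDist x F ≤ r₀ → θ x ≠ 0 → ψ x ∈ K → x ∈ K'

open Classical in
/-- a chart function, extended by zero. -/
def scWt (ψ : E d → V) (U : Set (E d)) (g : E d → ℝ) (z : V) : ℝ :=
  if z ∈ ψ '' U then g (Function.invFunOn ψ U z) else 0

/-- the Hardy weight in the chart. -/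
def scHw (F : Set (E d)) (θ : E d → ℝ) (dd ρ : ℝ) (x : E d) : ℝ :=
  3.55 * (θ x ^ 2 * (if infDist x F < dd then scM F ρ x else 0))

variable [FiniteDimensional ℝ V] [MeasurableSpace V] [BorelSpace V]
variable {M : Set V} {h : Ten V} {t p : V → ℝ} {A : Set V} {ψ : E d → V} {U : Set (E d)}

theorem scOf_A_eq (hG : CtGeo d M h t) (hψ : IsParam M ψ U) {u : E d} (hu : u ∈ U) :
    (scOf h t p A ψ U).A u = ctA h t ψ u := by
  have hC := if_metC hG.met hψ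
  show (ctRho h t ψ u ^ 2) • if_bil (cm h ψ u)⁻¹ = ctA h t ψ u
  unfold ctA ctRho
  rw [if_bil_smul, mul_pow, Real.sq_sqrt (hC.det_pos hu).le, ← Real.exp_nat_mul]
  congr 3
  push_cast
  ring

theorem scOf_ok (hG : CtGeo d M h t) (hp : SmoothAlong d M p) (hA : CtLAM d M h t p A)
    (hψ : IsParam M ψ U) {G : Set (E d)} (hGU : G ⊆ U) {τ Λ : ℝ} (hb : ScBd h t p ψ G τ Λ) :
    (scOf h t p A ψ U).Ok G τ Λ := by
  have hC := if_metC hG.met hψ
  refine ⟨if_open hψ, ct_rho_contDiffOn hG hψ, fun x hx => ct_rho_pos hG hψ hx, ?_, hp ψ U hψ, ?_,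
    hGU, hb.close, hb.dGam, hb.dRho, hb.pB⟩
  · exact ⟨if_bil_contDiffOn fun i j => if_inv_contDiffOn hC.smooth hC.det_ne i j,
      fun x hx ξ η => if_bil_symm (if_isSymm_of_posSemidef (hC.posDef x hx).inv.posSemidef) ξ η,
      fun x hx ξ hξ => if_bil_pos (hC.posDef x hx).inv hξ⟩
  · exact (hA.chart hG hp hψ).congr_data (fun x hx => (scOf_A_eq hG hψ hx).symm) (fun x _ => rfl)

/-- the wall measure of the chart problem is the perimeter measure of `Ct` on subsets of `U`. -/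
theorem scOf_mu_restrict (hG : CtGeo d M h t) (hψ : IsParam M ψ U) {B : Set (E d)} (hB : B ⊆ U) :
    (scOf h t p A ψ U).mu.restrict B = (Gmt.gmtPerM (ctA h t ψ) (ctPre ψ U A)).restrict B := by
  show ((Gmt.gmtPerM (scOf h t p A ψ U).A (ctPre ψ U A)).restrict U).restrict B = _
  rw [Measure.restrict_restrict_of_subset hB]
  refine Measure.ext fun C hC => ?_
  rw [Measure.restrict_apply hC, Measure.restrict_apply hC]
  exact Gmt.gmtPerM_congr_int _ (if_open hψ) (fun x hx ξ => by rw [scOf_A_eq hG hψ hx])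
    (inter_subset_right.trans hB)

theorem scOf_lintegral_mu' (hG : CtGeo d M h t) (hψ : IsParam M ψ U) (hA : MeasurableSet A)
    {B : Set (E d)} (hB : B ⊆ U) (hBm : MeasurableSet B) (g : V → ℝ≥0∞) :
    ∫⁻ x in ψ '' B, g x ∂(wper d M h t A) = ∫⁻ u in B, g (ψ u) ∂(scOf h t p A ψ U).mu := by
  rw [scOf_mu_restrict hG hψ hB]
  exact ct_lintegral_wper_chart' hG hψ hA hB hBm g

theorem scOf_lintegral_mu (hG : CtGeo d M h t) (hψ : IsParam M ψ U) (hA : MeasurableSet A)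
    {B : Set (E d)} (hB : B ⊆ U) (hBm : MeasurableSet B) {g : V → ℝ≥0∞} (hg : Measurable g) :
    ∫⁻ x in ψ '' B, g x ∂(wper d M h t A) = ∫⁻ u in B, g (ψ u) ∂(scOf h t p A ψ U).mu :=
  scOf_lintegral_mu' hG hψ hA hB hBm g

theorem scOf_integral_mu (hG : CtGeo d M h t) (hψ : IsParam M ψ U) (hA : MeasurableSet A)
    {B : Set (E d)} (hB : B ⊆ U) (hBm : MeasurableSet B) (g : V → ℝ) :
    ∫ x in ψ '' B, g x ∂(wper d M h t A) = ∫ u in B, g (ψ u) ∂(scOf h t p A ψ U).mu := by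
  rw [scOf_mu_restrict hG hψ hB]
  exact ct_integral_wper_chart hG hψ hA hB hBm g

theorem sc_gradIpC_eq (G : E d → Matrix (Fin d) (Fin d) ℝ) (f k : E d → ℝ) (u : E d) :
    gradIpC G f k u = if_bil (G u)⁻¹ (gradient f u) (gradient k u) := by
  rw [if_bil_apply]
  unfold gradIpC
  refine Finset.sum_congr rfl fun i _ => Finset.sum_congr rfl fun j _ => ?_
  rw [ct_el_grad, ct_el_grad]
  ring

theorem scOf_grad (hG : CtGeo d M h t) (hψ : IsParam M ψ U) {v : V → ℝ} (hv : SmoothAlong d M v)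
    {u : E d} (hu : u ∈ U) :
    gradSq d M h v (ψ u) =
      (scOf h t p A ψ U).Gam u (gradient (v ∘ ψ) u) (gradient (v ∘ ψ) u) := by
  rw [if_gradSq_eq hG.met hv hψ hu]
  exact sc_gradIpC_eq (cm h ψ) (v ∘ ψ) (v ∘ ψ) u

/-- the pointwise identity at a point of the wall with a normalised defining function. -/
theorem scOf_gradW_pt (hG : CtGeo d M h t) (hd : 2 ≤ d) (hψ : IsParam M ψ U) {v : V → ℝ}
    (hv : SmoothAlong d M v) {O : Set V} {φ : V → ℝ} (hO : IsOpen O)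
    (hφ : CtDef d (M ∩ O) h (A ∩ O) φ)
    (hn : ∀ x ∈ M ∩ O, φ x = 0 → gradSq d (M ∩ O) h φ x = 1) {u : E d} (hu : u ∈ U)
    (huO : ψ u ∈ O) (h0 : φ (ψ u) = 0) {ν : E d} {c : ℝ} (hc : c ≠ 0)
    (hν : ν = c • gradient (φ ∘ ψ) u) :
    gradSq (d - 1) (ctWall d M A) h v (ψ u) =
      scQw (if_bil (cm h ψ u)⁻¹) ν (gradient (v ∘ ψ) u) := by
  obtain ⟨d', rfl⟩ : ∃ d', d = d' + 1 := ⟨d - 1, by omega⟩
  rw [Nat.add_sub_cancel]
  have hxM : ψ u ∈ M := if_mem hψ hu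
  have hW := (ct_wall_inter_def hG hO hφ).1
  have hxL : ψ u ∈ {y | y ∈ M ∩ O ∧ φ y = 0} := ⟨⟨hxM, huO⟩, h0⟩
  have hxW : ψ u ∈ ctWall (d' + 1) M A ∩ O := hW ▸ hxL
  have hGW : CtGeo d' (ctWall (d' + 1) M A) h t := ct_wall_geo hG A
  have hGO : CtGeo (d' + 1) (M ∩ O) h t := hG.inter hO
  have hψ' : IsParam (M ∩ O) ψ (U ∩ ψ ⁻¹' O) := if_param_restrict hO hψ
  have hvO : SmoothAlong (d' + 1) (M ∩ O) v := if_smoothAlong_inter hv hO
  have h1 : gradSq d' (ctWall (d' + 1) M A ∩ O) h v (ψ u) =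
      gradSq d' (ctWall (d' + 1) M A) h v (ψ u) :=
    if_gradSq_inter hGW.mfd hGW.met hO (ct_wall_smooth hG A hv) hxW
  have h3 := rm_level_gradSq hGO hφ.smooth hvO hxL.1 hxL.2 (hn _ hxL.1 hxL.2)
  have h4 : gradIp (d' + 1) (M ∩ O) h v φ (ψ u) =
      if_bil (cm h ψ u)⁻¹ (gradient (v ∘ ψ) u) (gradient (φ ∘ ψ) u) := by
    rw [if_gradIp_eq hGO.met hvO hφ.smooth hψ' ⟨hu, huO⟩]
    exact sc_gradIpC_eq _ _ _ _
  have h5 : gradSq (d' + 1) (M ∩ O) h v (ψ u) =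
      if_bil (cm h ψ u)⁻¹ (gradient (v ∘ ψ) u) (gradient (v ∘ ψ) u) := by
    rw [if_gradSq_eq hGO.met hvO hψ' ⟨hu, huO⟩]
    exact sc_gradIpC_eq _ _ _ _
  have h6 : if_bil (cm h ψ u)⁻¹ (gradient (φ ∘ ψ) u) (gradient (φ ∘ ψ) u) = 1 := by
    rw [← hn _ hxL.1 hxL.2, if_gradSq_eq hGO.met hφ.smooth hψ' ⟨hu, huO⟩]
    exact (sc_gradIpC_eq _ _ _ _).symm
  rw [← h1, hW, h3, h4, h5]
  unfold scQw
  rw [hν]
  simp only [map_smul, smul_apply, smul_eq_mul, h6]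
  field_simp

theorem scOf_gradW (hG : CtGeo d M h t) (hd : 2 ≤ d) (hp : SmoothAlong d M p)
    (hA : CtLAM d M h t p A) (hψ : IsParam M ψ U) {v : V → ℝ} (hv : SmoothAlong d M v) :
    ∀ᵐ u ∂(scOf h t p A ψ U).mu, gradSq (d - 1) (ctWall d M A) h v (ψ u) =
      scQw ((scOf h t p A ψ U).Gam u) ((scOf h t p A ψ U).nu u) (gradient (v ∘ ψ) u) := by
  have hAm := hA.lf.meas
  have hS : MeasurableSet (ctPre ψ U A) := ct_measurableSet_pre hψ hAm
  have hUo := if_open hψ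
  have hOk : (scOf h t p A ψ U).Ok ∅ 0 0 := scOf_ok hG hp hA hψ (empty_subset _)
    ⟨fun x hx => absurd hx (notMem_empty x), fun x hx => absurd hx (notMem_empty x),
      fun x hx => absurd hx (notMem_empty x), fun x hx => absurd hx (notMem_empty x)⟩
  have hac : (scOf h t p A ψ U).mu ≪ Gmt.gmtMu (ctPre ψ U A) := by
    rw [hOk.mu_eq]
    exact (withDensity_absolutelyContinuous _ _).trans Measure.absolutelyContinuous_restrict
  rw [ae_iff]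
  set N : Set (E d) := {u | ¬ gradSq (d - 1) (ctWall d M A) h v (ψ u) =
      scQw ((scOf h t p A ψ U).Gam u) ((scOf h t p A ψ U).nu u) (gradient (v ∘ ψ) u)} with hN
  set R : Set (E d) := {u | u ∈ U ∧ Gmt.GmtReg (ctPre ψ U A) u} with hR
  have hcov : N ⊆ (Uᶜ ∪ (Gmt.gmtBd (ctPre ψ U A))ᶜ) ∪ (Gmt.gmtSing (ctPre ψ U A) U ∪ (N ∩ R)) := by
    intro u hu
    by_cases h1 : u ∈ U
    · by_cases h2 : u ∈ Gmt.gmtBd (ctPre ψ U A)
      · by_cases h3 : Gmt.GmtReg (ctPre ψ U A) u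
        · exact Or.inr (Or.inr ⟨hu, h1, h3⟩)
        · exact Or.inr (Or.inl ⟨h1, h2, h3⟩)
      · exact Or.inl (Or.inr h2)
    · exact Or.inl (Or.inl h1)
  refine measure_mono_null hcov (measure_union_null (measure_union_null ?_ ?_)
    (measure_union_null ?_ ?_))
  · show (Measure.restrict _ U) Uᶜ = 0
    rw [Measure.restrict_apply hUo.measurableSet.compl, compl_inter_self, measure_empty]
  · exact hac (Gmt.gmtMu_compl_gmtBd hS)
  · exact le_antisymm ((Measure.restrict_apply_le _ _).trans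
      (Gmt.gmt_sing_perM_null hd hOk.data hOk.lam).le) zero_le
  · refine measure_null_of_locally_null _ fun u₀ hu₀ => ?_
    obtain ⟨-, hu₀U, hreg⟩ := hu₀
    have hx₀ : ψ u₀ ∈ ctWall d M A := (ct_reg_iff hψ A hu₀U).2 hreg
    obtain ⟨O, φ, hO, hKO, hφ, hn⟩ :=
      ct_def_near hG hAm (K := {ψ u₀}) isCompact_singleton (Set.singleton_subset_iff.2 hx₀)
    have hx₀O : ψ u₀ ∈ O := hKO rfl
    have hψ' : IsParam (M ∩ O) ψ (U ∩ ψ ⁻¹' O) := if_param_restrict hO hψ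
    obtain ⟨r, hr, hball⟩ := Metric.isOpen_iff.1 (if_open hψ') u₀ ⟨hu₀U, hx₀O⟩
    obtain ⟨c1, c2, c3⟩ := hφ.chart (hG.inter hO) hψ'
    have hSφ : (ctPre ψ U A ∩ ball u₀ r : Set (E d)) =ᵐ[volume]
        ({y | y ∈ ball u₀ r ∧ (φ ∘ ψ) y < 0} : Set (E d)) := by
      have e1 : ctPre ψ U A ∩ ball u₀ r = ctPre ψ (U ∩ ψ ⁻¹' O) (A ∩ O) ∩ ball u₀ r := by
        ext y
        constructor
        · rintro ⟨⟨a1, a2⟩, a3⟩
          exact ⟨⟨⟨a1, (hball a3).2⟩, hball a3⟩, a3⟩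
        · rintro ⟨⟨a1, a2⟩, a3⟩
          exact ⟨⟨a1.1, a2.1⟩, a3⟩
      have e2 : ({y | y ∈ ball u₀ r ∧ (φ ∘ ψ) y < 0} : Set (E d)) =
          {u | u ∈ U ∩ ψ ⁻¹' O ∧ φ (ψ u) < 0} ∩ ball u₀ r := by
        ext y
        constructor
        · rintro ⟨a1, a2⟩
          exact ⟨⟨hball a1, a2⟩, a1⟩
        · rintro ⟨⟨-, a2⟩, a3⟩
          exact ⟨a3, a2⟩
      rw [e1, e2]
      exact c3.inter (ae_eq_refl _)
    obtain ⟨-, g2, g3, -⟩ := Gmt.gmt_reg_mu u₀ r hr (φ ∘ ψ) (c1.mono hball)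
      (fun y hy => c2 y (hball hy)) hS hSφ
    refine ⟨(N ∩ R) ∩ ball u₀ r, inter_mem_nhdsWithin _ (ball_mem_nhds _ hr), hac ?_⟩
    rw [measure_eq_zero_iff_ae_notMem]
    filter_upwards [measure_eq_zero_iff_ae_notMem.1 g2,
      (ae_restrict_iff' measurableSet_ball).1 g3] with y a1 a2
    rintro ⟨⟨hyN, -⟩, hyb⟩
    apply hyN
    have hy0 : φ (ψ y) = 0 := by
      by_contra hne
      exact a1 ⟨hyb, hne⟩
    have hgr : gradient (φ ∘ ψ) y ≠ 0 := by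
      intro h0
      apply c2 y (hball hyb)
      ext a
      rw [← Gmt.gmt_inner_gradient, h0, inner_zero_left]
      rfl
    exact scOf_gradW_pt hG hd hψ hv hO hφ hn (hball hyb).1 (hball hyb).2 hy0
      (inv_ne_zero (norm_ne_zero_iff.2 hgr)) (a2 hyb)

theorem ScWin.contDiff {θ : E d → ℝ} {B₀ : ℝ} (hθ : ScWin θ B₀) : ContDiff ℝ ∞ θ := by
  obtain ⟨n, c, g, b, h1, -, -, h4, -⟩ := hθ
  have : θ = fun x => ∏ i, c i x := funext h4
  rw [this]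
  exact contDiff_prod fun i _ => (h1 i).1

/-- wall tests in the chart. -/
theorem sc_mf_loc {F : Set (E d)} {θ : E d → ℝ} {η rF r₀ τ Λ B₀ : ℝ}
    (H : ScSet d M h t p ψ U F θ η rF r₀ τ Λ B₀) {v : V → ℝ} (hv : SmoothAlong d M v) {K : Set V}
    (hK : IsCompact K) (hKM : K ⊆ M) (h0 : ∀ x ∈ M, x ∉ K → v x = 0) :
    ContDiffOn ℝ ∞ (v ∘ ψ) U ∧ ScLoc U F r₀ (fun x => θ x * v (ψ x)) := by
  have h1 : ContDiffOn ℝ ∞ (v ∘ ψ) U := hv ψ U H.par
  refine ⟨h1, H.win.contDiff.contDiffOn.mul h1, ?_⟩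
  obtain ⟨K', hK', hK'U, hmem⟩ := H.cpt K hK hKM
  refine ⟨K', hK', hK'U, fun x hx hxF hne => hmem x hx hxF (left_ne_zero_of_mul hne) ?_⟩
  by_contra hxK
  exact right_ne_zero_of_mul hne (h0 _ (if_mem H.par hx) hxK)

/-- cylinder tests in the chart. -/
theorem sc_mf_locC {F : Set (E d)} {θ : E d → ℝ} {η rF r₀ τ Λ B₀ : ℝ}
    (H : ScSet d M h t p ψ U F θ η rF r₀ τ Λ B₀) {vc : V → ℝ → ℝ}
    (hv : SmoothAlong (d + 1) (M ×ˢ (univ : Set ℝ)) (fun z : V × ℝ => vc z.1 z.2)) {K : Set V}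
    {L : ℝ} (hK : IsCompact K) (hKM : K ⊆ M) (h0 : ∀ x ∈ M, x ∉ K → ∀ s, vc x s = 0)
    (hL : ∀ x s, L < |s| → vc x s = 0) :
    ContDiffOn ℝ ∞ (fun y : E d × ℝ => vc (ψ y.1) y.2) (U ×ˢ (univ : Set ℝ)) ∧
      ScLocC U F r₀ (fun y => θ y.1 * vc (ψ y.1) y.2) := by
  have h1 : ContDiffOn ℝ ∞ (fun y : E d × ℝ => vc (ψ y.1) y.2) (U ×ˢ (univ : Set ℝ)) := by
    have hpar := pk_param_prod H.par
    rw [← Set.prod_univ] at hpar
    have h2 := hv _ _ hpar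
    have h3 : ContDiff ℝ ∞ fun y : E d × ℝ => rm_J y.2 y.1 := by
      unfold rm_J
      exact (contDiff_snd.smul contDiff_const).add ((rm_in d).contDiff.comp contDiff_fst)
    have h4 := h2.comp h3.contDiffOn (s := U ×ˢ (univ : Set ℝ)) (fun y hy => by
      show rm_tl d (rm_J y.2 y.1) ∈ U
      rw [rm_tl_J]
      exact hy.1)
    refine h4.congr fun y _ => ?_
    simp only [Function.comp_apply, rm_tl_J, rm_J_zero]
  refine ⟨h1, (H.win.contDiff.comp contDiff_fst).contDiffOn.mul h1, ?_⟩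
  obtain ⟨K', hK', hK'U, hmem⟩ := H.cpt K hK hKM
  refine ⟨K' ×ˢ Icc (-L) L, hK'.prod isCompact_Icc, prod_mono hK'U (subset_univ _),
    fun y hy hyF hne => ⟨hmem y.1 hy hyF (left_ne_zero_of_mul hne) ?_, ?_⟩⟩
  · by_contra hxK
    exact right_ne_zero_of_mul hne (h0 _ (if_mem H.par hy) hxK _)
  · rw [mem_Icc, ← abs_le]
    by_contra hcon
    exact right_ne_zero_of_mul hne (hL _ _ (not_le.1 hcon))

end

end Claimed.Agent.R315
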