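import Claimed.Agent.R315.Sc.Mf
import Claimed.Agent.R315.Sh.ImsE

/-!
# Row 315, package Sc, part 8b: (HY) ON A CORE MANIFOLD.   Architect: helper257.   PACKAGE L-SC-MFB (PROVED: helper13).

PLAN: header of `Mf.lean`, steps 5 (`sc_mf_wall`), 6 (`sc_mf_side`), 7 (`sc_mf_hy`: `η₀ = min`, `τ₀ = min`, `dd = min`, `C = max` of the two theorems, `ScSet.mono`, `sc_bud_mono` + monotonicity of `scHw` in `dd`;
third piece = `sc_mf_side` for `(M \\ A, -p)`: `CtLAM.diff`, `ScSet.neg`).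

PROOF.  Everything is compared through `∫⁻`: `ofReal ∫ f ≤ ∫⁻ ofReal f` always (`scm_ofReal_integral_le`), the chart formulas `scOf_lintegral_mu'`, `ct_lintegral_wvol_chart` hold for arbitrary integrands, so the upper transfers
`scm_up_wall`, `scm_up_bulk`, `scm_up_cyl` (Tonelli = `ShCI.ofReal_iter` of `Sh/ImsY.lean`) need integrability on the manifold only; the left sides `scm_lhs_wall`, `scm_lhs_bulk` need integrability in the chart (`scm_int_*`).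
`scOf_gradW_all` = `scOf_gradW` with an exceptional set independent of the function (for the slices of the cylinder).  `scm_wall_core`, `scm_side_core`: chart inequality => budget, `C = C_chart + 1.7 * 1.005 * B₀`.
-/

set_option autoImplicit false
open scoped ContDiff Topology ENNReal RealInnerProductSpace
open MeasureTheory Set Metric

namespace Claimed.Agent.R315

noncomputable section

variable {V : Type} [NormedAddCommGroup V] [NormedSpace ℝ V]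
variable {d : ℕ}
variable [FiniteDimensional ℝ V] [MeasurableSpace V] [BorelSpace V]
variable {M : Set V} {h : Ten V} {t p : V → ℝ} {A : Set V} {ψ : E d → V} {U : Set (E d)}

omit [FiniteDimensional ℝ V] [MeasurableSpace V] [BorelSpace V] in
theorem ScBd.mono_tau {G : Set (E d)} {τ τ' Λ : ℝ} (H : ScBd h t p ψ G τ Λ) (hτ : τ ≤ τ') :
    ScBd h t p ψ G τ' Λ :=
  ⟨fun x hx ξ => (H.close x hx ξ).trans (mul_le_mul_of_nonneg_right hτ (sq_nonneg _)), H.dGam, H.dRho,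
    H.pB⟩

omit [FiniteDimensional ℝ V] [MeasurableSpace V] [BorelSpace V] in
/-- monotonicity of the setting and of the budget (to merge the constants of the three pieces). -/
theorem ScSet.mono {F : Set (E d)} {θ : E d → ℝ} {η η' rF r₀ τ τ' Λ B₀ : ℝ}
    (H : ScSet d M h t p ψ U F θ η rF r₀ τ Λ B₀) (hη : η ≤ η') (hτ : τ ≤ τ') :
    ScSet d M h t p ψ U F θ η' rF r₀ τ' Λ B₀ := by
  refine ⟨⟨H.par, H.closed, H.ne, fun z hz r' h0 hr => ?_, H.bd.mono_tau hτ⟩, H.win, H.cpt⟩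
  obtain ⟨L, hL, hy⟩ := H.flat z hz r' h0 hr
  exact ⟨L, hL, fun y hy' => (hy y hy').trans_le (mul_le_mul_of_nonneg_right hη h0.le)⟩

omit [FiniteDimensional ℝ V] [MeasurableSpace V] [BorelSpace V] in
theorem ScSet.neg {F : Set (E d)} {θ : E d → ℝ} {η rF r₀ τ Λ B₀ : ℝ}
    (H : ScSet d M h t p ψ U F θ η rF r₀ τ Λ B₀) :
    ScSet d M h t (fun x => -p x) ψ U F θ η rF r₀ τ Λ B₀ :=
  ⟨⟨H.par, H.closed, H.ne, H.flat, ⟨H.bd.close, H.bd.dGam, H.bd.dRho, fun x hx => by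
    rw [abs_neg]; exact H.bd.pB x hx⟩⟩, H.win, H.cpt⟩

theorem sc_bud_mono {X : Type} [MeasurableSpace X] {𝔉 : ShForm X} (hN : ∀ v, 0 ≤ 𝔉.N v)
    {D D' : X → ℝ} {C C' : ℝ} (hD : ∀ x, D x ≤ D' x) (hC : C' ≤ C) (h : 𝔉.Bud D' 1 0 C') :
    𝔉.Bud D 1 0 C := by
  intro v
  refine (lintegral_mono fun x => ENNReal.ofReal_le_ofReal (hD x)).trans ((h v).trans ?_)
  refine ENNReal.ofReal_le_ofReal ?_
  have : 0 ≤ 𝔉.mass v := ENNReal.toReal_nonneg
  nlinarith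

/-! ### general tools -/

/-- `ofReal ∫ ≤ ∫⁻ ofReal`, no hypothesis. -/
theorem scm_ofReal_integral_le {α : Type*} [MeasurableSpace α] (μ : Measure α) (f : α → ℝ) :
    ENNReal.ofReal (∫ x, f x ∂μ) ≤ ∫⁻ x, ENNReal.ofReal (f x) ∂μ := by
  by_cases hf : Integrable f μ
  · rw [integral_eq_lintegral_pos_part_sub_lintegral_neg_part hf]
    exact (ENNReal.ofReal_le_ofReal (sub_le_self _ ENNReal.toReal_nonneg)).trans
      ENNReal.ofReal_toReal_le
  · rw [integral_undef hf, ENNReal.ofReal_zero]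
    exact zero_le

/-- `∫⁻ ofReal (c 1_T f) = ofReal (c ∫_T f)`. -/
theorem scm_lint_ind {α : Type*} [MeasurableSpace α] {μ : Measure α} {T : Set α}
    (hT : MeasurableSet T) {f : α → ℝ} (hf : IntegrableOn f T μ) (h0 : ∀ x ∈ T, 0 ≤ f x) {c : ℝ}
    (hc : 0 ≤ c) :
    ∫⁻ x, ENNReal.ofReal (c * T.indicator f x) ∂μ = ENNReal.ofReal (c * ∫ x in T, f x ∂μ) := by
  rw [← integral_indicator hT, ← integral_const_mul,
    ofReal_integral_eq_lintegral_ofReal ((hf.integrable_indicator hT).const_mul c)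
      (Filter.Eventually.of_forall fun x => mul_nonneg hc (indicator_nonneg h0 x))]

theorem scm_mu_restrict {D : ScCh d} (hU : IsOpen D.U) {T : Set (E d)} (hT : MeasurableSet T) :
    D.mu.restrict T = D.mu.restrict (D.U ∩ T) := by
  unfold ScCh.mu
  rw [Measure.restrict_restrict hT, Measure.restrict_restrict (hU.measurableSet.inter hT)]
  congr 1
  ext x
  simp only [mem_inter_iff]
  tauto

theorem scm_mu_restrict_U (D : ScCh d) (hU : IsOpen D.U) : D.mu.restrict D.U = D.mu := by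
  unfold ScCh.mu
  rw [Measure.restrict_restrict hU.measurableSet, inter_self]

omit [FiniteDimensional ℝ V] [MeasurableSpace V] [BorelSpace V] in
theorem scWt_apply (hψ : IsParam M ψ U) (g : E d → ℝ) {u : E d} (hu : u ∈ U) :
    scWt ψ U g (ψ u) = g u := by
  unfold scWt
  rw [if_pos (mem_image_of_mem ψ hu), if_leftInv hψ hu]

omit [FiniteDimensional ℝ V] [MeasurableSpace V] [BorelSpace V] in
theorem scWt_off (g : E d → ℝ) {x : V} (hx : x ∉ ψ '' U) : scWt ψ U g x = 0 := by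
  unfold scWt
  rw [if_neg hx]

/-- upper transfer, wall. -/
theorem scm_up_wall (hG : CtGeo d M h t) (hψ : IsParam M ψ U) (hA : MeasurableSet A)
    {T : Set (E d)} (hT : MeasurableSet T) {a : E d → ℝ≥0∞} {g : V → ℝ≥0∞}
    (hle : ∀ᵐ u ∂(scOf h t p A ψ U).mu, u ∈ T → a u ≤ g (ψ u)) :
    ∫⁻ u in T, a u ∂(scOf h t p A ψ U).mu ≤ ∫⁻ x, g x ∂(wper d M h t A) := by
  have hU : IsOpen (scOf h t p A ψ U).U := if_open hψ
  calc ∫⁻ u in T, a u ∂(scOf h t p A ψ U).mu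
      ≤ ∫⁻ u in T, g (ψ u) ∂(scOf h t p A ψ U).mu :=
        lintegral_mono_ae ((ae_restrict_iff' hT).2 hle)
    _ = ∫⁻ u in U ∩ T, g (ψ u) ∂(scOf h t p A ψ U).mu := by rw [scm_mu_restrict hU hT]; rfl
    _ = ∫⁻ x in ψ '' (U ∩ T), g x ∂(wper d M h t A) :=
        (scOf_lintegral_mu' hG hψ hA inter_subset_left ((if_open hψ).measurableSet.inter hT) g).symm
    _ ≤ _ := setLIntegral_le_lintegral _ _

theorem scm_up_wall_real (hG : CtGeo d M h t) (hψ : IsParam M ψ U) (hA : MeasurableSet A)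
    {T : Set (E d)} (hT : MeasurableSet T) {f : E d → ℝ} {g : V → ℝ}
    (hg : Integrable g (wper d M h t A)) (hg0 : 0 ≤ᵐ[wper d M h t A] g)
    (hle : ∀ᵐ u ∂(scOf h t p A ψ U).mu, u ∈ T → f u ≤ g (ψ u)) :
    ∫ u in T, f u ∂(scOf h t p A ψ U).mu ≤ ∫ x, g x ∂(wper d M h t A) := by
  have h1 : ENNReal.ofReal (∫ u in T, f u ∂(scOf h t p A ψ U).mu) ≤
      ENNReal.ofReal (∫ x, g x ∂(wper d M h t A)) := by
    rw [ofReal_integral_eq_lintegral_ofReal hg hg0]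
    refine (scm_ofReal_integral_le _ _).trans (scm_up_wall hG hψ hA hT ?_)
    filter_upwards [hle] with u hu huT
    exact ENNReal.ofReal_le_ofReal (hu huT)
  exact (ENNReal.ofReal_le_ofReal_iff (integral_nonneg_of_ae hg0)).1 h1

/-- upper transfer, bulk. -/
theorem scm_up_bulk (hG : CtGeo d M h t) (hψ : IsParam M ψ U) (hA : MeasurableSet A)
    {T : Set (E d)} (hT : MeasurableSet T) {a : E d → ℝ≥0∞} {g : V → ℝ≥0∞}
    (hle : ∀ u ∈ ctPre ψ U A ∩ U ∩ T, a u ≤ ENNReal.ofReal (ctRho h t ψ u) * g (ψ u)) :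
    ∫⁻ u in ctPre ψ U A ∩ U ∩ T, a u ≤ ∫⁻ x in A, g x ∂(wvol d M h t) := by
  have hBm : MeasurableSet (ctPre ψ U A ∩ U ∩ T) :=
    ((ct_measurableSet_pre hψ hA).inter (if_open hψ).measurableSet).inter hT
  have hBU : ctPre ψ U A ∩ U ∩ T ⊆ U := fun u hu => hu.1.2
  calc ∫⁻ u in ctPre ψ U A ∩ U ∩ T, a u
      ≤ ∫⁻ u in ctPre ψ U A ∩ U ∩ T, ENNReal.ofReal (ctRho h t ψ u) * g (ψ u) :=
        setLIntegral_mono' hBm hle
    _ = ∫⁻ x in ψ '' (ctPre ψ U A ∩ U ∩ T), g x ∂(wvol d M h t) :=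
        (ct_lintegral_wvol_chart hG hψ hBU hBm g).symm
    _ ≤ _ := lintegral_mono_set (by
        rintro _ ⟨u, hu, rfl⟩
        exact hu.1.1.1)

theorem scm_up_bulk_real (hG : CtGeo d M h t) (hψ : IsParam M ψ U) (hA : MeasurableSet A)
    {T : Set (E d)} (hT : MeasurableSet T) {f : E d → ℝ} {g : V → ℝ}
    (hg : IntegrableOn g A (wvol d M h t)) (hg0 : 0 ≤ᵐ[(wvol d M h t).restrict A] g)
    (hle : ∀ u ∈ ctPre ψ U A ∩ U ∩ T, f u ≤ g (ψ u)) :
    ∫ u in ctPre ψ U A ∩ U ∩ T, f u * ctRho h t ψ u ≤ ∫ x in A, g x ∂(wvol d M h t) := by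
  have h1 : ENNReal.ofReal (∫ u in ctPre ψ U A ∩ U ∩ T, f u * ctRho h t ψ u) ≤
      ENNReal.ofReal (∫ x in A, g x ∂(wvol d M h t)) := by
    rw [ofReal_integral_eq_lintegral_ofReal hg hg0]
    refine (scm_ofReal_integral_le _ _).trans (scm_up_bulk hG hψ hA hT fun u hu => ?_)
    have hr : 0 ≤ ctRho h t ψ u := (ct_rho_pos hG hψ hu.1.2).le
    rw [← ENNReal.ofReal_mul hr]
    refine ENNReal.ofReal_le_ofReal ?_
    rw [mul_comm]
    exact mul_le_mul_of_nonneg_left (hle u hu) hr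
  exact (ENNReal.ofReal_le_ofReal_iff (integral_nonneg_of_ae hg0)).1 h1

/-- a.e. transfer to the chart. -/
theorem scm_ae_chart (hG : CtGeo d M h t) (hψ : IsParam M ψ U) (hA : MeasurableSet A)
    {Q : V → Prop} (hQ : ∀ᵐ x ∂(wper d M h t A), Q x) :
    ∀ᵐ u ∂(scOf h t p A ψ U).mu, Q (ψ u) := by
  have hU : IsOpen (scOf h t p A ψ U).U := if_open hψ
  set N := toMeasurable (wper d M h t A) {x | ¬ Q x} with hN
  have hN0 : wper d M h t A N = 0 := by rw [hN, measure_toMeasurable]; exact hQ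
  have hNm : MeasurableSet N := measurableSet_toMeasurable _ _
  have hBm : MeasurableSet (ctPre ψ U N) := ct_measurableSet_pre hψ hNm
  have h1 := scOf_lintegral_mu' (p := p) hG hψ hA (B := ctPre ψ U N) (fun u hu => hu.2) hBm fun _ => 1
  rw [setLIntegral_one, setLIntegral_one] at h1
  have h2 : (scOf h t p A ψ U).mu (ctPre ψ U N) = 0 := by
    rw [← h1]
    refine measure_mono_null ?_ hN0
    rintro _ ⟨u, hu, rfl⟩
    exact hu.1
  have h3 : ∀ᵐ u ∂(scOf h t p A ψ U).mu, u ∈ U := ae_restrict_mem hU.measurableSet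
  filter_upwards [h3, measure_eq_zero_iff_ae_notMem.1 h2] with u hu hn
  by_contra hcon
  exact hn ⟨subset_toMeasurable _ _ hcon, hu⟩

/-- the potential integral on the wall, read in the chart. -/
theorem scm_lhs_wall (hG : CtGeo d M h t) (hψ : IsParam M ψ U) (hA : MeasurableSet A)
    {φ : V → ℝ≥0∞} (hφ : AEMeasurable φ (wper d M h t A)) (hφt : ∀ᵐ x ∂(wper d M h t A), φ x < ⊤)
    (g : E d → ℝ) :
    ∫⁻ x, ENNReal.ofReal (scWt ψ U g x) ∂((wper d M h t A).withDensity φ) =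
      ∫⁻ u, φ (ψ u) * ENNReal.ofReal (g u) ∂(scOf h t p A ψ U).mu := by
  have hU : IsOpen (scOf h t p A ψ U).U := if_open hψ
  have hUm : MeasurableSet U := (if_open hψ).measurableSet
  have hm : MeasurableSet (ψ '' U) := if_measurableSet_image hψ hUm subset_rfl
  rw [lintegral_withDensity_eq_lintegral_mul_non_measurable₀ _ hφ hφt]
  have e1 : (φ * fun x => ENNReal.ofReal (scWt ψ U g x)) =
      (ψ '' U).indicator (φ * fun x => ENNReal.ofReal (scWt ψ U g x)) := by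
    funext x
    by_cases hx : x ∈ ψ '' U
    · rw [indicator_of_mem hx]
    · rw [indicator_of_notMem hx, Pi.mul_apply, scWt_off g hx, ENNReal.ofReal_zero, mul_zero]
  rw [e1, lintegral_indicator hm, scOf_lintegral_mu' (p := p) hG hψ hA subset_rfl hUm]
  conv_rhs => rw [← scm_mu_restrict_U _ hU]
  refine setLIntegral_congr_fun hUm fun u hu => ?_
  rw [Pi.mul_apply, scWt_apply hψ g hu]

/-- the potential integral in the bulk, read in the chart. -/
theorem scm_lhs_bulk (hG : CtGeo d M h t) (hψ : IsParam M ψ U) (hA : MeasurableSet A)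
    {φ : V → ℝ≥0∞} (hφ : AEMeasurable φ ((wvol d M h t).restrict A))
    (hφt : ∀ᵐ x ∂((wvol d M h t).restrict A), φ x < ⊤) (g : E d → ℝ) :
    ∫⁻ x, ENNReal.ofReal (scWt ψ U g x) ∂(((wvol d M h t).restrict A).withDensity φ) =
      ∫⁻ u in ctPre ψ U A, ENNReal.ofReal (ctRho h t ψ u) * (φ (ψ u) * ENNReal.ofReal (g u)) := by
  have hUm : MeasurableSet U := (if_open hψ).measurableSet
  have hm : MeasurableSet (ψ '' U) := if_measurableSet_image hψ hUm subset_rfl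
  have hBm : MeasurableSet (ctPre ψ U A) := ct_measurableSet_pre hψ hA
  rw [lintegral_withDensity_eq_lintegral_mul_non_measurable₀ _ hφ hφt]
  have e1 : (φ * fun x => ENNReal.ofReal (scWt ψ U g x)) =
      (ψ '' U).indicator (φ * fun x => ENNReal.ofReal (scWt ψ U g x)) := by
    funext x
    by_cases hx : x ∈ ψ '' U
    · rw [indicator_of_mem hx]
    · rw [indicator_of_notMem hx, Pi.mul_apply, scWt_off g hx, ENNReal.ofReal_zero, mul_zero]
  have e2 : ψ '' U ∩ A = ψ '' (ctPre ψ U A) := by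
    ext x
    constructor
    · rintro ⟨⟨u, hu, rfl⟩, hx⟩
      exact ⟨u, ⟨hx, hu⟩, rfl⟩
    · rintro ⟨u, hu, rfl⟩
      exact ⟨⟨u, hu.2, rfl⟩, hu.1⟩
  rw [e1, lintegral_indicator hm, Measure.restrict_restrict hm, e2,
    ct_lintegral_wvol_chart hG hψ (fun u hu => hu.2) hBm]
  refine setLIntegral_congr_fun hBm fun u hu => ?_
  rw [Pi.mul_apply, scWt_apply hψ g hu.2]

theorem scm_scM_cont (F : Set (E d)) {ρ : ℝ} (hρ : 0 < ρ) : Continuous (scM F ρ) := by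
  unfold scM
  refine (((continuous_infDist_pt F).max continuous_const).pow 2).inv₀ fun x => ?_
  have : 0 < max (infDist x F) ρ := lt_max_of_lt_right hρ
  exact (pow_pos this 2).ne'

/-- the Hardy weight times a density. -/
theorem scm_hw_mul (F : Set (E d)) (θ : E d → ℝ) (dd ρ : ℝ) (b : E d → ℝ) (u : E d) :
    b u * scHw F θ dd ρ u =
      3.55 * (scTubeO F dd).indicator (fun x => scM F ρ x * (θ x ^ 2 * b x)) u := by
  unfold scHw
  by_cases hu : infDist u F < dd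
  · rw [if_pos hu, indicator_of_mem (show u ∈ scTubeO F dd from hu)]
    ring
  · rw [if_neg hu, indicator_of_notMem (show u ∉ scTubeO F dd from hu)]
    ring

/-- integrability of the Hardy term of a local test. -/
theorem scm_int_wall {D : ScCh d} {G F : Set (E d)} {τ Λ r₀ : ℝ} (hD : D.Ok G τ Λ) {w : E d → ℝ}
    (hw : ScLoc D.U F r₀ w) {dd ρ : ℝ} (hdd : dd ≤ r₀) (hρ : 0 < ρ) :
    IntegrableOn (fun x => scM F ρ x * w x ^ 2) (scTubeO F dd) D.mu := by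
  obtain ⟨hws, K, hK, hKU, hKw⟩ := hw
  have hwm : AEMeasurable w D.mu := hws.continuousOn.aemeasurable hD.opn.measurableSet
  obtain ⟨C, hC⟩ := hK.bddAbove_image
    ((scm_scM_cont F hρ).continuousOn.mul ((hws.continuousOn.mono hKU).pow 2)).abs
  refine sct_intOn hD ((sct_scM_meas F ρ).aemeasurable.mul (hwm.pow_const 2)).aestronglyMeasurable
    hK hKU (sct_tubeO_meas F dd) (fun x hx => hC (mem_image_of_mem _ hx)) fun x hx hxK => ?_
  have : w x = 0 := by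
    by_contra hne
    exact hxK (hKw x hx.1 ((show infDist x F < dd from hx.2).le.trans hdd) hne)
  simp [this]

/-- the wall: from the chart inequality to the budget. -/
theorem scm_wall_core (hd : 2 ≤ d) (hG : CtGeo d M h t) (hp : SmoothAlong d M p)
    (hA : CtLAM d M h t p A) {F : Set (E d)} {θ : E d → ℝ} {η rF r₀ τ Λ B₀ : ℝ}
    (HS : ScSet d M h t p ψ U F θ η rF r₀ τ Λ B₀) (hτ : τ ≤ 0.005) (hB₀ : 0 ≤ B₀) {dd C' ρ : ℝ}
    (hdd : dd ≤ r₀) (hC' : 0 ≤ C') (hρ : 0 < ρ)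
    (Hc : ∀ w : E d → ℝ, ScLoc U F r₀ w →
      3.55 * ∫ x in scTubeO F dd, scM F ρ x * w x ^ 2 ∂(scOf h t p A ψ U).mu ≤
        1.7 * ∫ x in scTubeO F r₀, scQw ((scOf h t p A ψ U).Gam x) ((scOf h t p A ψ U).nu x)
          (gradient w x) ∂(scOf h t p A ψ U).mu +
        C' * ∫ x in scTubeO F r₀, w x ^ 2 ∂(scOf h t p A ψ U).mu) :
    (shFW d M h t A).Bud (scWt ψ U (scHw F θ dd ρ)) 1 0 (C' + 1.7 * (1.005 * B₀)) := by
  rintro ⟨v, hv⟩
  have hgW := scOf_gradW hG hd hp hA HS.par hv.smooth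
  obtain ⟨d', rfl⟩ : ∃ d', d = d' + 1 := ⟨d - 1, by omega⟩
  simp only [Nat.add_sub_cancel] at hgW
  have hψ := HS.par
  have hAm := hA.lf.meas
  have hS : CtGeo d' (ctWall (d' + 1) M A) h t := ct_wall_geo hG A
  have hP : wper (d' + 1) M h t A = wvol d' (ctWall (d' + 1) M A) h t := hA.wper_eq hG hp (by omega)
  have hSM : ctWall (d' + 1) M A ⊆ M := (ct_wall_subset_bd A).trans (ct_bd_subset A)
  obtain ⟨K, hK, hKM, hKS, hK0⟩ := hv.cs
  have hvS : SmoothAlong d' (ctWall (d' + 1) M A) v := ct_wall_smooth hG A hv.smooth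
  have hvc := if_smoothAlong_continuousOn hS.mfd hvS
  have hK' : IsCompact (K ∩ ctWall (d' + 1) M A) := sh_wall_cpt hG.mfd A hK hKM hKS
  have hK'0 : ∀ x ∈ ctWall (d' + 1) M A, x ∉ K ∩ ctWall (d' + 1) M A → v x = 0 := fun x hx hxK =>
    hK0 x (hSM hx) fun hxK' => hxK ⟨hxK', hx⟩
  have hOk : (scOf h t p A ψ U).Ok (U ∩ scTube F r₀) τ Λ :=
    scOf_ok hG hp hA hψ inter_subset_left HS.bd
  obtain ⟨hw0, hw⟩ := sc_mf_loc HS hv.smooth hK hKM hK0
  have hae : ∀ᵐ x ∂(wper (d' + 1) M h t A), x ∈ ctWall (d' + 1) M A := by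
    rw [hP]
    exact sh_ae_mem hS
  -- integrability on the manifold
  have hi1 : Integrable (gradSq d' (ctWall (d' + 1) M A) h v) (wper (d' + 1) M h t A) := by
    rw [hP]
    exact sh_int_grad hS hvS hK' inter_subset_right hK'0
  have hi2 : Integrable (fun x => v x ^ 2) (wper (d' + 1) M h t A) := by
    rw [hP]
    exact sh_integrable_cs hS (hvc.pow 2) hK' inter_subset_right fun x hx hxK => by
      rw [hK'0 x hx hxK]
      simp
  have hm0 : 0 ≤ ∫ x, v x ^ 2 ∂(wper (d' + 1) M h t A) := integral_nonneg fun _ => sq_nonneg _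
  have hmass : (shFW (d' + 1) M h t A).mass ⟨v, hv⟩ = ∫ x, v x ^ 2 ∂(wper (d' + 1) M h t A) := by
    show (shMW _ _ _ _ _ _ Set.univ).toReal = _
    unfold shMW
    rw [withDensity_apply _ MeasurableSet.univ, Measure.restrict_univ,
      ← ofReal_integral_eq_lintegral_ofReal hi2 (Filter.Eventually.of_forall fun _ => sq_nonneg _),
      ENNReal.toReal_ofReal hm0]
  have hNe : (shFW (d' + 1) M h t A).N ⟨v, hv⟩ =
      1.7 * ∫ x, gradSq d' (ctWall (d' + 1) M A) h v x ∂(wper (d' + 1) M h t A) := by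
    show shNW _ _ _ _ _ _ = _
    unfold shNW
    simp only [Nat.add_sub_cancel]
  have hme : (shFW (d' + 1) M h t A).m ⟨v, hv⟩ =
      (wper (d' + 1) M h t A).withDensity fun x => ENNReal.ofReal (v x ^ 2) := rfl
  -- the left side
  have hL : ∫⁻ x, ENNReal.ofReal (scWt ψ U (scHw F θ dd ρ) x)
        ∂((wper (d' + 1) M h t A).withDensity fun x => ENNReal.ofReal (v x ^ 2)) =
      ENNReal.ofReal (3.55 * ∫ x in scTubeO F dd, scM F ρ x * (θ x * v (ψ x)) ^ 2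
        ∂(scOf h t p A ψ U).mu) := by
    rw [scm_lhs_wall (p := p) hG hψ hAm (by rw [hP]; exact sh_aem_ofReal hS (hvc.pow 2))
        (Filter.Eventually.of_forall fun x => ENNReal.ofReal_lt_top),
      ← scm_lint_ind (sct_tubeO_meas F dd) (scm_int_wall hOk hw hdd hρ)
        (fun x _ => mul_nonneg (sct_scM_nonneg F ρ x) (sq_nonneg _)) (by norm_num)]
    refine lintegral_congr fun u => ?_
    rw [← ENNReal.ofReal_mul (sq_nonneg _), scm_hw_mul F θ dd ρ (fun u => v (ψ u) ^ 2) u]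
    simp only [mul_pow]
  -- the right side
  have hR1 : ∫ x in scTubeO F r₀, scQw ((scOf h t p A ψ U).Gam x) ((scOf h t p A ψ U).nu x)
        (gradient (fun x => θ x * v (ψ x)) x) ∂(scOf h t p A ψ U).mu ≤
      ∫ x, (gradSq d' (ctWall (d' + 1) M A) h v x + 1.005 * B₀ * v x ^ 2)
        ∂(wper (d' + 1) M h t A) := by
    refine scm_up_wall_real hG hψ hAm (sct_tubeO_meas F r₀) (hi1.add (hi2.const_mul _)) ?_ ?_
    · filter_upwards [hae] with x hx
      exact add_nonneg (gs_sq_nonneg hS.mfd hS.met hvS hx)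
        (mul_nonneg (mul_nonneg (by norm_num) hB₀) (sq_nonneg _))
    · filter_upwards [hgW, sct_ae_U hOk] with u h1 hu huT
      have hdw : DifferentiableAt ℝ (v ∘ ψ) u :=
        (hw0.contDiffAt ((if_open hψ).mem_nhds hu)).differentiableAt (by simp)
      rw [h1]
      exact (sc_qw_win (hOk.gam.symm u hu) (hOk.gam.pos u hu)
        (sct_close hOk hτ ⟨hu, le_of_lt (show infDist u F < r₀ from huT)⟩)
        ((scOf h t p A ψ U).nu u) HS.win hdw).1
  have hR2 : ∫ x in scTubeO F r₀, (θ x * v (ψ x)) ^ 2 ∂(scOf h t p A ψ U).mu ≤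
      ∫ x, v x ^ 2 ∂(wper (d' + 1) M h t A) := by
    refine scm_up_wall_real hG hψ hAm (sct_tubeO_meas F r₀) hi2
      (Filter.Eventually.of_forall fun _ => sq_nonneg _) ?_
    filter_upwards [sct_ae_U hOk] with u hu huT
    have hdw : DifferentiableAt ℝ (v ∘ ψ) u :=
      (hw0.contDiffAt ((if_open hψ).mem_nhds hu)).differentiableAt (by simp)
    have h3 := (sc_qw_win (hOk.gam.symm u hu) (hOk.gam.pos u hu)
      (sct_close hOk hτ ⟨hu, le_of_lt (show infDist u F < r₀ from huT)⟩)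
      ((scOf h t p A ψ U).nu u) HS.win hdw).2.2
    rw [mul_pow]
    nlinarith [sq_nonneg (v (ψ u))]
  rw [integral_add hi1 (hi2.const_mul _), integral_const_mul] at hR1
  rw [hme, hL, hmass, hNe]
  refine ENNReal.ofReal_le_ofReal ?_
  have h4 := Hc _ hw
  have h5 := mul_le_mul_of_nonneg_left hR2 hC'
  linarith

/-- (HY) on the wall of a Core manifold. -/
theorem sc_mf_wall (hd : 8 ≤ d) : ∃ η₀ τ₀ : ℝ, 0 < η₀ ∧ 0 < τ₀ ∧ τ₀ ≤ 0.005 ∧
    ∀ rF r₀ Λ B₀ : ℝ, 0 < rF → 0 < r₀ → 0 ≤ Λ → 0 ≤ B₀ → ∃ dd C : ℝ, 0 < dd ∧ dd ≤ r₀ ∧ 0 ≤ C ∧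
    ∀ (M : Set V) (h : Ten V) (t p : V → ℝ) (A : Set V) (ψ : E d → V) (U F : Set (E d))
      (θ : E d → ℝ), CtGeo d M h t → IsClosed M → SmoothAlong d M p → CtLAM d M h t p A →
      ScSet d M h t p ψ U F θ η₀ rF r₀ τ₀ Λ B₀ → ∀ ρ : ℝ, 0 < ρ →
      (shFW d M h t A).Bud (scWt ψ U (scHw F θ dd ρ)) 1 0 C := by
  obtain ⟨η₀, τ₁, hη₀, hτ₁, H⟩ := sc_hardy_wall hd
  refine ⟨η₀, min τ₁ 0.005, hη₀, lt_min hτ₁ (by norm_num), min_le_right _ _,
    fun rF r₀ Λ B₀ hrF hr₀ hΛ hB₀ => ?_⟩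
  obtain ⟨dd, C', hdd0, hdd, hC', H'⟩ := H rF r₀ Λ hrF hr₀ hΛ
  refine ⟨dd, C' + 1.7 * (1.005 * B₀), hdd0, hdd, by positivity, ?_⟩
  intro M h t p A ψ U F θ hG _ hp hA HS ρ hρ
  refine scm_wall_core (by omega) hG hp hA HS (min_le_right _ _) hB₀ hdd hC'.le hρ fun w hw => ?_
  exact H' (scOf h t p A ψ U) F HS.closed HS.ne HS.flat
    (scOf_ok hG hp hA HS.par inter_subset_left (HS.bd.mono_tau (min_le_left _ _))) w hw ρ hρ

/-- `scOf_gradW` with an exceptional set which does not depend on the function. -/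
theorem scOf_gradW_all (hG : CtGeo d M h t) (hd : 2 ≤ d) (hp : SmoothAlong d M p)
    (hA : CtLAM d M h t p A) (hψ : IsParam M ψ U) :
    ∀ᵐ u ∂(scOf h t p A ψ U).mu, ∀ v : V → ℝ, SmoothAlong d M v →
      gradSq (d - 1) (ctWall d M A) h v (ψ u) =
      scQw ((scOf h t p A ψ U).Gam u) ((scOf h t p A ψ U).nu u) (gradient (v ∘ ψ) u) := by
  have hAm := hA.lf.meas
  have hS : MeasurableSet (ctPre ψ U A) := ct_measurableSet_pre hψ hAm
  have hUo := if_open hψ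
  have hOk : (scOf h t p A ψ U).Ok ∅ 0 0 := scOf_ok hG hp hA hψ (empty_subset _)
    ⟨fun x hx => absurd hx (notMem_empty x), fun x hx => absurd hx (notMem_empty x),
      fun x hx => absurd hx (notMem_empty x), fun x hx => absurd hx (notMem_empty x)⟩
  have hac : (scOf h t p A ψ U).mu ≪ Gmt.gmtMu (ctPre ψ U A) := by
    rw [hOk.mu_eq]
    exact (withDensity_absolutelyContinuous _ _).trans Measure.absolutelyContinuous_restrict
  rw [ae_iff]
  set N : Set (E d) := {u | ¬ ∀ v : V → ℝ, SmoothAlong d M v →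
      gradSq (d - 1) (ctWall d M A) h v (ψ u) =
      scQw ((scOf h t p A ψ U).Gam u) ((scOf h t p A ψ U).nu u) (gradient (v ∘ ψ) u)} with hN
  set R : Set (E d) := {u | u ∈ U ∧ Gmt.GmtReg (ctPre ψ U A) u} with hR
  have hcov : N ⊆ (Uᶜ ∪ (Gmt.gmtBd (ctPre ψ U A))ᶜ) ∪ (Gmt.gmtSing (ctPre ψ U A) U ∪ (N ∩ R)) := by
    intro u hu
    by_cases h1 : u ∈ U
    · by_cases h2 : u ∈ Gmt.gmtBd (ctPre ψ U A)
      · by_cases h3 : Gmt.GmtReg (ctPre ψ U A) u
        · exact Or.inr (Or.inr ⟨hu, h1, h3⟩)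
        · exact Or.inr (Or.inl ⟨h1, h2, h3⟩)
      · exact Or.inl (Or.inr h2)
    · exact Or.inl (Or.inl h1)
  refine measure_mono_null hcov (measure_union_null (measure_union_null ?_ ?_)
    (measure_union_null ?_ ?_))
  · show (Measure.restrict _ U) Uᶜ = 0
    rw [Measure.restrict_apply hUo.measurableSet.compl, compl_inter_self, measure_empty]
  · exact hac (Gmt.gmtMu_compl_gmtBd hS)
  · exact le_antisymm ((Measure.restrict_apply_le _ _).trans
      (Gmt.gmt_sing_perM_null hd hOk.data hOk.lam).le) zero_le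
  · refine measure_null_of_locally_null _ fun u₀ hu₀ => ?_
    obtain ⟨-, hu₀U, hreg⟩ := hu₀
    have hx₀ : ψ u₀ ∈ ctWall d M A := (ct_reg_iff hψ A hu₀U).2 hreg
    obtain ⟨O, φ, hO, hKO, hφ, hn⟩ :=
      ct_def_near hG hAm (K := {ψ u₀}) isCompact_singleton (Set.singleton_subset_iff.2 hx₀)
    have hx₀O : ψ u₀ ∈ O := hKO rfl
    have hψ' : IsParam (M ∩ O) ψ (U ∩ ψ ⁻¹' O) := if_param_restrict hO hψ
    obtain ⟨r, hr, hball⟩ := Metric.isOpen_iff.1 (if_open hψ') u₀ ⟨hu₀U, hx₀O⟩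
    obtain ⟨c1, c2, c3⟩ := hφ.chart (hG.inter hO) hψ'
    have hSφ : (ctPre ψ U A ∩ ball u₀ r : Set (E d)) =ᵐ[volume]
        ({y | y ∈ ball u₀ r ∧ (φ ∘ ψ) y < 0} : Set (E d)) := by
      have e1 : ctPre ψ U A ∩ ball u₀ r = ctPre ψ (U ∩ ψ ⁻¹' O) (A ∩ O) ∩ ball u₀ r := by
        ext y
        constructor
        · rintro ⟨⟨a1, a2⟩, a3⟩
          exact ⟨⟨⟨a1, (hball a3).2⟩, hball a3⟩, a3⟩
        · rintro ⟨⟨a1, a2⟩, a3⟩
          exact ⟨⟨a1.1, a2.1⟩, a3⟩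
      have e2 : ({y | y ∈ ball u₀ r ∧ (φ ∘ ψ) y < 0} : Set (E d)) =
          {u | u ∈ U ∩ ψ ⁻¹' O ∧ φ (ψ u) < 0} ∩ ball u₀ r := by
        ext y
        constructor
        · rintro ⟨a1, a2⟩
          exact ⟨⟨hball a1, a2⟩, a1⟩
        · rintro ⟨⟨-, a2⟩, a3⟩
          exact ⟨a3, a2⟩
      rw [e1, e2]
      exact c3.inter (ae_eq_refl _)
    obtain ⟨-, g2, g3, -⟩ := Gmt.gmt_reg_mu u₀ r hr (φ ∘ ψ) (c1.mono hball)
      (fun y hy => c2 y (hball hy)) hS hSφ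
    refine ⟨(N ∩ R) ∩ ball u₀ r, inter_mem_nhdsWithin _ (ball_mem_nhds _ hr), hac ?_⟩
    rw [measure_eq_zero_iff_ae_notMem]
    filter_upwards [measure_eq_zero_iff_ae_notMem.1 g2,
      (ae_restrict_iff' measurableSet_ball).1 g3] with y a1 a2
    rintro ⟨⟨hyN, -⟩, hyb⟩
    apply hyN
    intro v hv
    have hy0 : φ (ψ y) = 0 := by
      by_contra hne
      exact a1 ⟨hyb, hne⟩
    have hgr : gradient (φ ∘ ψ) y ≠ 0 := by
      intro h0
      apply c2 y (hball hyb)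
      ext a
      rw [← Gmt.gmt_inner_gradient, h0, inner_zero_left]
      rfl
    exact scOf_gradW_pt hG hd hψ hv hO hφ hn (hball hyb).1 (hball hyb).2 hy0
      (inv_ne_zero (norm_ne_zero_iff.2 hgr)) (a2 hyb)

/-- integrability of the bulk Hardy term of a local test. -/
theorem scm_int_bulk {U F : Set (E d)} {r₀ : ℝ} {w rho : E d → ℝ} (hw : ScLoc U F r₀ w)
    (hrho : ContinuousOn rho U) {dd ρ : ℝ} (hdd : dd ≤ r₀) (hρ : 0 < ρ) {B : Set (E d)}
    (hBm : MeasurableSet B) (hB : B ⊆ U ∩ scTubeO F dd) :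
    IntegrableOn (fun x => scM F ρ x * w x ^ 2 * rho x) B volume := by
  obtain ⟨hws, K, hK, hKU, hKw⟩ := hw
  have h1 : IntegrableOn (fun x => scM F ρ x * w x ^ 2 * rho x) K volume :=
    (((scm_scM_cont F hρ).continuousOn.mul ((hws.continuousOn.mono hKU).pow 2)).mul
      (hrho.mono hKU)).integrableOn_compact hK
  refine h1.of_forall_sdiff_eq_zero hBm fun x hx => ?_
  have : w x = 0 := by
    by_contra hne
    exact hx.2 (hKw x (hB hx.1).1 ((show infDist x F < dd from (hB hx.1).2).le.trans hdd) hne)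
  simp [this]

/-- integrability of the Hardy term of a local cylinder test. -/
theorem scm_int_cyl {D : ScCh d} {G F : Set (E d)} {τ Λ r₀ : ℝ} (hD : D.Ok G τ Λ)
    {vc : E d × ℝ → ℝ} (hv : ScLocC D.U F r₀ vc) {dd ρ : ℝ} (hdd : dd ≤ r₀) (hρ : 0 < ρ) (I : Set ℝ)
    (hI : MeasurableSet I) :
    IntegrableOn (fun x => scM F ρ x * ∫ t in I, vc (x, t) ^ 2) (scTubeO F dd) D.mu := by
  obtain ⟨hvs, K, hK, hKU, hKv⟩ := hv
  have hT := sct_tubeO_meas F r₀
  have hU := hD.opn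
  have hOo : IsOpen ((D.U ∩ scTubeO F r₀) ×ˢ (univ : Set ℝ)) :=
    (hU.inter (sct_tubeO_open F r₀)).prod isOpen_univ
  have hOU : (D.U ∩ scTubeO F r₀) ×ˢ (univ : Set ℝ) ⊆ D.U ×ˢ (univ : Set ℝ) :=
    prod_mono inter_subset_left subset_rfl
  have hvc := hvs.continuousOn
  have him : IntegrableOn (fun x => ∫ t in I, vc (x, t) ^ 2) (scTubeO F r₀) D.mu := by
    obtain ⟨C, hC⟩ := hK.bddAbove_image ((hvc.mono hKU).pow 2).abs
    refine sct_cyl_intOn hD hT (sct_meas_ind hOo.measurableSet ((hvc.mono hOU).pow 2)) hK hKU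
      (fun y hy => hC (mem_image_of_mem _ hy)) (fun y hy hyK => ?_) I hI
    have : vc y = 0 := (sct_locC_zero hU hK hKv hy hyK).self_of_nhds
    simp [this]
  have him' : IntegrableOn (fun x => ∫ t in I, vc (x, t) ^ 2) (scTubeO F dd) D.mu :=
    him.mono_set fun x hx => (show infDist x F < dd from hx).trans_le hdd
  refine Integrable.bdd_mul (c := (ρ ^ 2)⁻¹) him' (sct_scM_meas F ρ).aestronglyMeasurable
    (Filter.Eventually.of_forall fun x => ?_)
  rw [Real.norm_eq_abs, abs_of_nonneg (sct_scM_nonneg F ρ x)]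
  exact sct_scM_le F hρ x

/-- upper transfer, cylinder. -/
theorem scm_up_cyl (hG : CtGeo d M h t) (hψ : IsParam M ψ U) (hA : MeasurableSet A) {k : ℕ}
    {X : Set V} (hS : CtGeo k X h t) (hP : wper d M h t A = wvol k X h t) {Φ : V → ℝ → ℝ}
    {K : Set V} {L : ℝ} (hΦ : ShCI X K L Φ) (hK : IsCompact K) (hKX : K ⊆ X)
    (h0 : ∀ x ∈ X, ∀ s, 0 ≤ Φ x s) {T : Set (E d)} (hT : MeasurableSet T) {q : E d → ℝ → ℝ}
    (I : Set ℝ) (hle : ∀ᵐ u ∂(scOf h t p A ψ U).mu, u ∈ T → ∀ s, q u s ≤ Φ (ψ u) s) :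
    ∫ u in T, (∫ s in I, q u s) ∂(scOf h t p A ψ U).mu ≤
      ∫ s in I, ∫ x, Φ x s ∂(wper d M h t A) := by
  have h1 : ENNReal.ofReal (∫ u in T, (∫ s in I, q u s) ∂(scOf h t p A ψ U).mu) ≤
      ENNReal.ofReal (∫ s in I, ∫ x, Φ x s ∂(wper d M h t A)) := by
    rw [hP, hΦ.ofReal_iter hS hK hKX h0 I, ← hP]
    refine (scm_ofReal_integral_le _ _).trans (scm_up_wall hG hψ hA hT ?_)
    filter_upwards [hle] with u hu huT
    exact (scm_ofReal_integral_le _ _).trans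
      (lintegral_mono fun s => ENNReal.ofReal_le_ofReal (hu huT s))
  refine (ENNReal.ofReal_le_ofReal_iff (integral_nonneg fun s => integral_nonneg_of_ae ?_)).1 h1
  rw [hP]
  filter_upwards [sh_ae_mem hS] with x hx
  exact h0 x hx s

/-- the joined side: from the chart inequality to the budget. -/
theorem scm_side_core (hd : 2 ≤ d) (hG : CtGeo d M h t) (hp : SmoothAlong d M p)
    (hA : CtLAM d M h t p A) {F : Set (E d)} {θ : E d → ℝ} {η rF r₀ τ Λ B₀ : ℝ}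
    (HS : ScSet d M h t p ψ U F θ η rF r₀ τ Λ B₀) (hτ : τ ≤ 0.005) (hB₀ : 0 ≤ B₀) {dd C' ρ : ℝ}
    (hdd : dd ≤ r₀) (hC' : 0 ≤ C') (hρ : 0 < ρ)
    (Hc : ∀ (vb : E d → ℝ) (vc : E d × ℝ → ℝ), ScLoc U F r₀ vb → ScLocC U F r₀ vc →
      (∀ᵐ x ∂(scOf h t p A ψ U).mu, vc (x, 0) = vb x) →
      3.55 * ((∫ x in ctPre ψ U A ∩ U ∩ scTubeO F dd, scM F ρ x * vb x ^ 2 * ctRho h t ψ x) +
          ∫ x in scTubeO F dd, scM F ρ x * (∫ s in Ioi (0 : ℝ), vc (x, s) ^ 2)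
            ∂(scOf h t p A ψ U).mu) ≤
        0.8 * (∫ x in ctPre ψ U A ∩ U ∩ scTubeO F r₀,
          (scOf h t p A ψ U).Gam x (gradient vb x) (gradient vb x) * ctRho h t ψ x) +
        1.7 * ∫ x in scTubeO F r₀, (∫ s in Ioi (0 : ℝ),
          (scQw ((scOf h t p A ψ U).Gam x) ((scOf h t p A ψ U).nu x) (scGx vc x s) +
            scDt vc x s ^ 2)) ∂(scOf h t p A ψ U).mu +
        C' * ((∫ x in ctPre ψ U A ∩ U ∩ scTubeO F r₀, vb x ^ 2 * ctRho h t ψ x) +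
          ∫ x in scTubeO F r₀, (∫ s in Ioi (0 : ℝ), vc (x, s) ^ 2) ∂(scOf h t p A ψ U).mu)) :
    (shFS d M h t A).Bud (scWt ψ U (scHw F θ dd ρ)) 1 0 (C' + 1.7 * (1.005 * B₀)) := by
  rintro ⟨⟨vb, vc⟩, hv⟩
  replace hv : ShTS d M A vb vc := hv
  have hgW := scOf_gradW_all hG hd hp hA HS.par
  obtain ⟨d', rfl⟩ : ∃ d', d = d' + 1 := ⟨d - 1, by omega⟩
  simp only [Nat.add_sub_cancel] at hgW
  have hψ := HS.par
  have hUo := if_open hψ
  have hAm := hA.lf.meas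
  have hS : CtGeo d' (ctWall (d' + 1) M A) h t := ct_wall_geo hG A
  have hP : wper (d' + 1) M h t A = wvol d' (ctWall (d' + 1) M A) h t := hA.wper_eq hG hp (by omega)
  have hSM : ctWall (d' + 1) M A ⊆ M := (ct_wall_subset_bd A).trans (ct_bd_subset A)
  obtain ⟨K, L, hK, hKM, hKS, hK0, hL⟩ := hv.cs
  have hK' : IsCompact (K ∩ ctWall (d' + 1) M A) := sh_wall_cpt hG.mfd A hK hKM hKS
  have hKX : K ∩ ctWall (d' + 1) M A ⊆ ctWall (d' + 1) M A := inter_subset_right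
  have hzx : ∀ x ∈ ctWall (d' + 1) M A, x ∉ K ∩ ctWall (d' + 1) M A → ∀ s, vc x s = 0 :=
    fun x hx hxK => (hK0 x (hSM hx) fun hxK' => hxK ⟨hxK', hx⟩).2
  have hwS := sh_cyl_sub (k := d') hG.mfd hSM hv.c_smooth
  have hci : ShCI (ctWall (d' + 1) M A) (K ∩ ctWall (d' + 1) M A) L vc :=
    sh_ci_self hS.mfd hwS hzx hL
  have hciM : ShCI M K L vc := sh_ci_self hG.mfd hv.c_smooth (fun x hx hxK => (hK0 x hx hxK).2) hL
  have hphi := sh_ci_phi hS hwS hK'.isClosed hzx hL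
  have hbc := if_smoothAlong_continuousOn hG.mfd hv.b_smooth
  have hb0 : ∀ x ∈ M, x ∉ K → vb x = 0 := fun x hx hxK => (hK0 x hx hxK).1
  have hOk : (scOf h t p A ψ U).Ok (U ∩ scTube F r₀) τ Λ :=
    scOf_ok hG hp hA hψ inter_subset_left HS.bd
  obtain ⟨hbs, hbl⟩ := sc_mf_loc HS hv.b_smooth hK hKM hb0
  obtain ⟨hcs, hcl⟩ := sc_mf_locC HS hv.c_smooth hK hKM (fun x hx hxK => (hK0 x hx hxK).2) hL
  have hae : ∀ᵐ x ∂(wper (d' + 1) M h t A), x ∈ ctWall (d' + 1) M A := by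
    rw [hP]
    exact sh_ae_mem hS
  have hwin : ∀ u ∈ U, infDist u F < r₀ → ∀ (ν : E (d' + 1)) (w : E (d' + 1) → ℝ),
      DifferentiableAt ℝ w u →
      scQw ((scOf h t p A ψ U).Gam u) ν (gradient (fun y => θ y * w y) u) ≤
        scQw ((scOf h t p A ψ U).Gam u) ν (gradient w u) + 1.005 * B₀ * w u ^ 2 ∧
      (scOf h t p A ψ U).Gam u (gradient (fun y => θ y * w y) u) (gradient (fun y => θ y * w y) u) ≤
        (scOf h t p A ψ U).Gam u (gradient w u) (gradient w u) + 1.005 * B₀ * w u ^ 2 ∧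
      θ u ^ 2 ≤ 1 := fun u hu huT ν w hw =>
    sc_qw_win (hOk.gam.symm u hu) (hOk.gam.pos u hu) (sct_close hOk hτ ⟨hu, le_of_lt huT⟩) ν HS.win hw
  have hc0 : (0 : ℝ) ≤ 1.005 * B₀ := mul_nonneg (by norm_num) hB₀
  -- integrability on the manifold
  have hi1 : Integrable (gradSq (d' + 1) M h vb) (wvol (d' + 1) M h t) :=
    sh_int_grad hG hv.b_smooth hK hKM hb0
  have hi2 : Integrable (fun x => vb x ^ 2) (wvol (d' + 1) M h t) :=
    sh_integrable_cs hG (hbc.pow 2) hK hKM fun x hx hxK => by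
      rw [hb0 x hx hxK]
      simp
  -- the form and the mass
  have h2 := sh_lint_dens hG (D := fun _ => 1) continuousOn_const (fun _ _ => zero_le_one) hbc hK hKM
    hb0 A
  have h4 := hci.lint_dens hS hK' hKX (D := fun _ => 1) continuousOn_const (fun _ _ => zero_le_one)
    (Set.Ioi (0 : ℝ))
  simp only [ENNReal.ofReal_one, lintegral_one, one_mul] at h2 h4
  rw [← hP] at h4
  have ha0 : 0 ≤ ∫ x in A, vb x ^ 2 ∂(wvol (d' + 1) M h t) := integral_nonneg fun _ => sq_nonneg _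
  have hm0 : 0 ≤ ∫ s in Set.Ioi (0 : ℝ), ∫ x, vc x s ^ 2 ∂(wper (d' + 1) M h t A) :=
    integral_nonneg fun _ => integral_nonneg fun _ => sq_nonneg _
  have hme : (shFS (d' + 1) M h t A).m ⟨(vb, vc), hv⟩ =
      ((wvol (d' + 1) M h t).restrict A).withDensity (fun x => ENNReal.ofReal (vb x ^ 2)) +
        (wper (d' + 1) M h t A).withDensity
          fun x => ∫⁻ s in Set.Ioi (0 : ℝ), ENNReal.ofReal (vc x s ^ 2) := rfl
  have hmass : (shFS (d' + 1) M h t A).mass ⟨(vb, vc), hv⟩ = ∫ x in A, vb x ^ 2 ∂(wvol (d' + 1) M h t) +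
      ∫ s in Set.Ioi (0 : ℝ), ∫ x, vc x s ^ 2 ∂(wper (d' + 1) M h t A) := by
    unfold ShForm.mass
    rw [hme, Measure.add_apply, h2, h4, ← ENNReal.ofReal_add ha0 hm0,
      ENNReal.toReal_ofReal (add_nonneg ha0 hm0)]
  have hNe : (shFS (d' + 1) M h t A).N ⟨(vb, vc), hv⟩ =
      0.8 * ∫ x in A, gradSq (d' + 1) M h vb x ∂(wvol (d' + 1) M h t) +
      1.7 * ∫ s in Set.Ioi (0 : ℝ), ∫ x, (gradSq d' (ctWall (d' + 1) M A) h (fun y => vc y s) x +
        deriv (fun σ => vc x σ) s ^ 2) ∂(wper (d' + 1) M h t A) := by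
    show shNS _ _ _ _ _ _ _ = _
    unfold shNS
    simp only [Nat.add_sub_cancel]
  -- the left side, bulk
  have hSU : scTubeO F dd ∩ ctPre ψ U A = ctPre ψ U A ∩ U ∩ scTubeO F dd := by
    ext x
    constructor
    · rintro ⟨a1, a2⟩
      exact ⟨⟨a2, a2.2⟩, a1⟩
    · rintro ⟨⟨a1, -⟩, a3⟩
      exact ⟨a3, a1⟩
  have hBm : ∀ r : ℝ, MeasurableSet (ctPre ψ U A ∩ U ∩ scTubeO F r) := fun r =>
    ((ct_measurableSet_pre hψ hAm).inter hUo.measurableSet).inter (sct_tubeO_meas F r)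
  have hL1 : ∫⁻ x, ENNReal.ofReal (scWt ψ U (scHw F θ dd ρ) x)
        ∂(((wvol (d' + 1) M h t).restrict A).withDensity fun x => ENNReal.ofReal (vb x ^ 2)) =
      ENNReal.ofReal (3.55 * ∫ x in ctPre ψ U A ∩ U ∩ scTubeO F dd,
        scM F ρ x * (θ x * vb (ψ x)) ^ 2 * ctRho h t ψ x) := by
    have hI3 := scm_int_bulk hbl (ct_rho_continuousOn hG hψ) hdd hρ (hBm dd)
      (fun x hx => ⟨hx.1.2, hx.2⟩)
    have hI3' : IntegrableOn (fun x => scM F ρ x * (θ x * vb (ψ x)) ^ 2 * ctRho h t ψ x)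
        (scTubeO F dd) (volume.restrict (ctPre ψ U A)) := by
      unfold IntegrableOn
      rw [Measure.restrict_restrict (sct_tubeO_meas F dd), hSU]
      exact hI3
    rw [← hSU, ← Measure.restrict_restrict (sct_tubeO_meas F dd)]
    rw [scm_lhs_bulk (φ := fun x => ENNReal.ofReal (vb x ^ 2)) hG hψ hAm
        (sh_aem_ofReal hG (hbc.pow 2)).restrict
        (Filter.Eventually.of_forall fun x => ENNReal.ofReal_lt_top),
      ← scm_lint_ind (sct_tubeO_meas F dd) hI3' (fun x _ => mul_nonneg (mul_nonneg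
        (sct_scM_nonneg F ρ x) (sq_nonneg _)) (mul_nonneg (Real.exp_pos _).le (if_vd_nonneg h ψ x)))
        (by norm_num)]
    refine lintegral_congr fun u => ?_
    have hr : 0 ≤ ctRho h t ψ u := mul_nonneg (Real.exp_pos _).le (if_vd_nonneg h ψ u)
    rw [← ENNReal.ofReal_mul (sq_nonneg _), ← ENNReal.ofReal_mul hr, ← mul_assoc,
      scm_hw_mul F θ dd ρ (fun u => ctRho h t ψ u * vb (ψ u) ^ 2) u]
    congr 3
    funext x
    ring
  -- the left side, cylinder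
  have hsl : ∀ x ∈ M, IntegrableOn (fun s => vc x s ^ 2) (Ioi (0 : ℝ)) volume := fun x hx =>
    (((hciM.line_cont hx).pow 2).integrable_of_hasCompactSupport
      (HasCompactSupport.intro (isCompact_Icc (a := -L) (b := L)) fun s hs => by
        have hs' : L < |s| := by
          by_contra hcon
          exact hs (abs_le.1 (not_lt.1 hcon))
        show vc x s ^ 2 = 0
        rw [hL x s hs']
        norm_num)).integrableOn
  have hL2 : ∫⁻ x, ENNReal.ofReal (scWt ψ U (scHw F θ dd ρ) x)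
        ∂((wper (d' + 1) M h t A).withDensity
          fun x => ∫⁻ s in Set.Ioi (0 : ℝ), ENNReal.ofReal (vc x s ^ 2)) =
      ENNReal.ofReal (3.55 * ∫ x in scTubeO F dd,
        scM F ρ x * (∫ s in Ioi (0 : ℝ), (θ x * vc (ψ x) s) ^ 2) ∂(scOf h t p A ψ U).mu) := by
    have hfin : ∫⁻ x, (∫⁻ s in Ioi (0 : ℝ), ENNReal.ofReal (vc x s ^ 2))
        ∂(wvol d' (ctWall (d' + 1) M A) h t) ≠ ⊤ := by
      rw [← hci.sq.ofReal_iter hS hK' hKX (fun _ _ _ => sq_nonneg _)]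
      exact ENNReal.ofReal_ne_top
    have ham := hci.sq.aemeasurable_lint hS (Ioi (0 : ℝ))
    have hlt := ae_lt_top' ham hfin
    rw [← hP] at ham hlt
    rw [scm_lhs_wall (p := p) hG hψ hAm ham hlt,
      ← scm_lint_ind (sct_tubeO_meas F dd) (scm_int_cyl hOk hcl hdd hρ (Ioi 0) measurableSet_Ioi)
        (fun x _ => mul_nonneg (sct_scM_nonneg F ρ x) (integral_nonneg fun _ => sq_nonneg _))
        (by norm_num)]
    refine lintegral_congr_ae ?_
    filter_upwards [sct_ae_U hOk] with u hu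
    rw [← ofReal_integral_eq_lintegral_ofReal (hsl _ (if_mem hψ hu))
        (Filter.Eventually.of_forall fun _ => sq_nonneg _),
      ← ENNReal.ofReal_mul (integral_nonneg fun _ => sq_nonneg _),
      scm_hw_mul F θ dd ρ (fun u => ∫ s in Ioi (0 : ℝ), vc (ψ u) s ^ 2) u]
    simp only [mul_pow, integral_const_mul]
  -- the right side, bulk
  have hdb : ∀ u ∈ U, DifferentiableAt ℝ (vb ∘ ψ) u := fun u hu =>
    (hbs.contDiffAt (hUo.mem_nhds hu)).differentiableAt (by simp)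
  have hR1 : ∫ x in ctPre ψ U A ∩ U ∩ scTubeO F r₀,
        (scOf h t p A ψ U).Gam x (gradient (fun x => θ x * vb (ψ x)) x)
          (gradient (fun x => θ x * vb (ψ x)) x) * ctRho h t ψ x ≤
      ∫ x in A, (gradSq (d' + 1) M h vb x + 1.005 * B₀ * vb x ^ 2) ∂(wvol (d' + 1) M h t) := by
    refine scm_up_bulk_real hG hψ hAm (sct_tubeO_meas F r₀)
      (hi1.add (hi2.const_mul _)).integrableOn (ae_restrict_of_ae ?_) fun u hu => ?_
    · filter_upwards [sh_ae_mem hG] with x hx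
      exact add_nonneg (gs_sq_nonneg hG.mfd hG.met hv.b_smooth hx) (mul_nonneg hc0 (sq_nonneg _))
    · rw [scOf_grad (p := p) (A := A) hG hψ hv.b_smooth hu.1.2]
      exact (hwin u hu.1.2 hu.2 0 _ (hdb u hu.1.2)).2.1
  have hR3 : ∫ x in ctPre ψ U A ∩ U ∩ scTubeO F r₀, (θ x * vb (ψ x)) ^ 2 * ctRho h t ψ x ≤
      ∫ x in A, vb x ^ 2 ∂(wvol (d' + 1) M h t) := by
    refine scm_up_bulk_real hG hψ hAm (sct_tubeO_meas F r₀) hi2.integrableOn
      (Filter.Eventually.of_forall fun _ => sq_nonneg _) fun u hu => ?_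
    have h3 := (hwin u hu.1.2 hu.2 0 _ (hdb u hu.1.2)).2.2
    rw [mul_pow]
    nlinarith [sq_nonneg (vb (ψ u))]
  -- the right side, cylinder
  have hsm : ∀ s, SmoothAlong (d' + 1) M fun y => vc y s := sh_cyl_slice hG.mfd hv.c_smooth
  have hdc : ∀ u ∈ U, ∀ s, DifferentiableAt ℝ (fun y => vc (ψ y) s) u := fun u hu s =>
    ((hsm s ψ U hψ).contDiffAt (hUo.mem_nhds hu)).differentiableAt (by simp)
  have hΦ : ShCI (ctWall (d' + 1) M A) (K ∩ ctWall (d' + 1) M A) L fun x s =>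
      (gradSq d' (ctWall (d' + 1) M A) h (fun y => vc y s) x + deriv (fun σ => vc x σ) s ^ 2) +
        1.005 * B₀ * vc x s ^ 2 :=
    hphi.add (hci.sq.mul_left (g := fun _ => 1.005 * B₀) continuousOn_const)
  have hR2 : ∫ x in scTubeO F r₀, (∫ s in Ioi (0 : ℝ),
        (scQw ((scOf h t p A ψ U).Gam x) ((scOf h t p A ψ U).nu x)
          (scGx (fun y : E (d' + 1) × ℝ => θ y.1 * vc (ψ y.1) y.2) x s) +
          scDt (fun y : E (d' + 1) × ℝ => θ y.1 * vc (ψ y.1) y.2) x s ^ 2))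
        ∂(scOf h t p A ψ U).mu ≤
      ∫ s in Ioi (0 : ℝ), ∫ x, ((gradSq d' (ctWall (d' + 1) M A) h (fun y => vc y s) x +
        deriv (fun σ => vc x σ) s ^ 2) + 1.005 * B₀ * vc x s ^ 2) ∂(wper (d' + 1) M h t A) := by
    refine scm_up_cyl hG hψ hAm hS hP hΦ hK' hKX (fun x hx s => ?_) (sct_tubeO_meas F r₀) _ ?_
    · exact add_nonneg (add_nonneg (gs_sq_nonneg hS.mfd hS.met (sh_cyl_slice hS.mfd hwS s) hx)
        (sq_nonneg _)) (mul_nonneg hc0 (sq_nonneg _))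
    · filter_upwards [hgW, sct_ae_U hOk] with u h1 hu huT s
      obtain ⟨w1, -, w3⟩ := hwin u hu huT ((scOf h t p A ψ U).nu u) _ (hdc u hu s)
      have e1 : scGx (fun y : E (d' + 1) × ℝ => θ y.1 * vc (ψ y.1) y.2) u s =
          gradient (fun y => θ y * vc (ψ y) s) u := rfl
      have e2 : scDt (fun y : E (d' + 1) × ℝ => θ y.1 * vc (ψ y.1) y.2) u s =
          θ u * deriv (fun σ => vc (ψ u) σ) s := by
        show deriv (fun σ => θ u * vc (ψ u) σ) s = _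
        rw [deriv_const_mul_field]
      have e3 : gradient ((fun y => vc y s) ∘ ψ) u = gradient (fun y => vc (ψ y) s) u := rfl
      rw [e1, e2, h1 _ (hsm s), e3, mul_pow]
      nlinarith [sq_nonneg (deriv (fun σ => vc (ψ u) σ) s)]
  have hR4 : ∫ x in scTubeO F r₀, (∫ s in Ioi (0 : ℝ), (θ x * vc (ψ x) s) ^ 2)
        ∂(scOf h t p A ψ U).mu ≤
      ∫ s in Ioi (0 : ℝ), ∫ x, vc x s ^ 2 ∂(wper (d' + 1) M h t A) := by
    refine scm_up_cyl hG hψ hAm hS hP hci.sq hK' hKX (fun x hx s => sq_nonneg _)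
      (sct_tubeO_meas F r₀) _ ?_
    filter_upwards [sct_ae_U hOk] with u hu huT s
    have w3 := (hwin u hu huT 0 _ (hdc u hu s)).2.2
    rw [mul_pow]
    nlinarith [sq_nonneg (vc (ψ u) s)]
  -- the seam
  have hseam : ∀ᵐ x ∂(scOf h t p A ψ U).mu, θ x * vc (ψ x) 0 = θ x * vb (ψ x) := by
    filter_upwards [scm_ae_chart (p := p) hG hψ hAm hae] with u hu
    rw [hv.seam _ hu]
  have h5 := Hc _ _ hbl hcl hseam
  rw [integral_add hi1.integrableOn (hi2.const_mul _).integrableOn, integral_const_mul] at hR1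
  have e4 := hphi.integral_add (hci.sq.mul_left (g := fun _ => 1.005 * B₀) continuousOn_const) hS hK'
    hKX (Ioi (0 : ℝ))
  rw [← hP] at e4
  simp only [integral_const_mul] at e4
  rw [e4] at hR2
  have hX1 : 0 ≤ 3.55 * ∫ x in ctPre ψ U A ∩ U ∩ scTubeO F dd,
      scM F ρ x * (θ x * vb (ψ x)) ^ 2 * ctRho h t ψ x :=
    mul_nonneg (by norm_num) (integral_nonneg fun x => mul_nonneg (mul_nonneg
      (sct_scM_nonneg F ρ x) (sq_nonneg _)) (mul_nonneg (Real.exp_pos _).le (if_vd_nonneg h ψ x)))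
  have hX2 : 0 ≤ 3.55 * ∫ x in scTubeO F dd,
      scM F ρ x * (∫ s in Ioi (0 : ℝ), (θ x * vc (ψ x) s) ^ 2) ∂(scOf h t p A ψ U).mu :=
    mul_nonneg (by norm_num) (integral_nonneg fun x => mul_nonneg (sct_scM_nonneg F ρ x)
      (integral_nonneg fun _ => sq_nonneg _))
  rw [hme, lintegral_add_measure, hL1, hL2, hmass, hNe, ← ENNReal.ofReal_add hX1 hX2]
  refine ENNReal.ofReal_le_ofReal ?_
  have h6 := mul_le_mul_of_nonneg_left (add_le_add hR3 hR4) hC'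
  have h7 : 0 ≤ B₀ * ∫ x in A, vb x ^ 2 ∂(wvol (d' + 1) M h t) := mul_nonneg hB₀ ha0
  simp only at h5
  linarith

/-- (HY) on the joined side of `A`. -/
theorem sc_mf_side (hd : 8 ≤ d) : ∃ η₀ τ₀ : ℝ, 0 < η₀ ∧ 0 < τ₀ ∧ τ₀ ≤ 0.005 ∧
    ∀ rF r₀ Λ B₀ : ℝ, 0 < rF → 0 < r₀ → 0 ≤ Λ → 0 ≤ B₀ → ∃ dd C : ℝ, 0 < dd ∧ dd ≤ r₀ ∧ 0 ≤ C ∧
    ∀ (M : Set V) (h : Ten V) (t p : V → ℝ) (A : Set V) (ψ : E d → V) (U F : Set (E d))
      (θ : E d → ℝ), CtGeo d M h t → IsClosed M → SmoothAlong d M p → CtLAM d M h t p A →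
      ScSet d M h t p ψ U F θ η₀ rF r₀ τ₀ Λ B₀ → ∀ ρ : ℝ, 0 < ρ →
      (shFS d M h t A).Bud (scWt ψ U (scHw F θ dd ρ)) 1 0 C := by
  obtain ⟨η₀, τ₁, hη₀, hτ₁, H⟩ := sc_hardy_side hd
  refine ⟨η₀, min τ₁ 0.005, hη₀, lt_min hτ₁ (by norm_num), min_le_right _ _,
    fun rF r₀ Λ B₀ hrF hr₀ hΛ hB₀ => ?_⟩
  obtain ⟨dd, C', hdd0, hdd, hC', H'⟩ := H rF r₀ Λ hrF hr₀ hΛ
  refine ⟨dd, C' + 1.7 * (1.005 * B₀), hdd0, hdd, by positivity, ?_⟩
  intro M h t p A ψ U F θ hG _ hp hA HS ρ hρ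
  refine scm_side_core (by omega) hG hp hA HS (min_le_right _ _) hB₀ hdd hC'.le hρ
    fun vb vc hb hc hs => ?_
  exact H' (scOf h t p A ψ U) F HS.closed HS.ne HS.flat
    (scOf_ok hG hp hA HS.par inter_subset_left (HS.bd.mono_tau (min_le_left _ _))) vb vc hb hc hs ρ hρ

omit [FiniteDimensional ℝ V] [MeasurableSpace V] [BorelSpace V] in
/-- the weight is monotone in the width of the tube. -/
theorem scWt_hw_mono (ψ : E d → V) (U F : Set (E d)) (θ : E d → ℝ) {dd dd' : ℝ} (hdd : dd ≤ dd')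
    (ρ : ℝ) (x : V) : scWt ψ U (scHw F θ dd ρ) x ≤ scWt ψ U (scHw F θ dd' ρ) x := by
  unfold scWt
  split_ifs with hx
  · unfold scHw
    refine mul_le_mul_of_nonneg_left (mul_le_mul_of_nonneg_left ?_ (sq_nonneg _)) (by norm_num)
    split_ifs with h1 h2 h2
    · exact le_rfl
    · exact absurd (h1.trans_le hdd) h2
    · exact sct_scM_nonneg F ρ _
    · exact le_rfl
  · exact le_rfl

/-- **(HY) ON A CORE MANIFOLD**: wall and both joined sides. -/
theorem sc_mf_hy (hd : 8 ≤ d) : ∃ η₀ τ₀ : ℝ, 0 < η₀ ∧ 0 < τ₀ ∧ τ₀ ≤ 0.005 ∧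
    ∀ rF r₀ Λ B₀ : ℝ, 0 < rF → 0 < r₀ → 0 ≤ Λ → 0 ≤ B₀ → ∃ dd C : ℝ, 0 < dd ∧ dd ≤ r₀ ∧ 0 ≤ C ∧
    ∀ (M : Set V) (h : Ten V) (t p : V → ℝ) (A : Set V) (ψ : E d → V) (U F : Set (E d))
      (θ : E d → ℝ), CtGeo d M h t → IsClosed M → SmoothAlong d M p → CtLAM d M h t p A →
      ScSet d M h t p ψ U F θ η₀ rF r₀ τ₀ Λ B₀ → ∀ ρ : ℝ, 0 < ρ →
      ShBud d M h t A (scWt ψ U (scHw F θ dd ρ)) 1 0 C := by
  obtain ⟨η₁, τ₁, hη₁, hτ₁, hτ₁', H1⟩ := sc_mf_wall (V := V) hd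
  obtain ⟨η₂, τ₂, hη₂, hτ₂, -, H2⟩ := sc_mf_side (V := V) hd
  refine ⟨min η₁ η₂, min τ₁ τ₂, lt_min hη₁ hη₂, lt_min hτ₁ hτ₂, (min_le_left _ _).trans hτ₁',
    fun rF r₀ Λ B₀ hrF hr₀ hΛ hB₀ => ?_⟩
  obtain ⟨d₁, C₁, hd₁, hd₁', hC₁, K1⟩ := H1 rF r₀ Λ B₀ hrF hr₀ hΛ hB₀
  obtain ⟨d₂, C₂, hd₂, -, -, K2⟩ := H2 rF r₀ Λ B₀ hrF hr₀ hΛ hB₀
  refine ⟨min d₁ d₂, max C₁ C₂, lt_min hd₁ hd₂, (min_le_left _ _).trans hd₁',
    hC₁.trans (le_max_left _ _), ?_⟩
  intro M h t p A ψ U F θ hG hM hp hA HS ρ hρ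
  have HS1 := HS.mono (min_le_left η₁ η₂) (min_le_left τ₁ τ₂)
  have HS2 := HS.mono (min_le_right η₁ η₂) (min_le_right τ₁ τ₂)
  have hd2 : 2 ≤ d := by omega
  have hp' := gs_sm_neg hp
  have hA' := hA.diff hG hp
  exact ⟨sc_bud_mono (sh_fw_ok hG hM hd2 hp hA).N_nonneg
      (scWt_hw_mono ψ U F θ (min_le_left d₁ d₂) ρ) (le_max_left _ _)
      (K1 M h t p A ψ U F θ hG hM hp hA HS1 ρ hρ),
    sc_bud_mono (sh_fs_ok hG hM hd2 hp hA).N_nonneg
      (scWt_hw_mono ψ U F θ (min_le_right d₁ d₂) ρ) (le_max_right _ _)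
      (K2 M h t p A ψ U F θ hG hM hp hA HS2 ρ hρ),
    sc_bud_mono (sh_fs_ok hG hM hd2 hp' hA').N_nonneg
      (scWt_hw_mono ψ U F θ (min_le_right d₁ d₂) ρ) (le_max_right _ _)
      (K2 M h t (fun x => -p x) (M \ A) ψ U F θ hG hM hp' hA' HS2.neg ρ hρ)⟩

end

end Claimed.Agent.R315
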