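import Claimed.Agent.R315.Sc.Ch

/-!
# Row 315, package Sc (P Appendix C.2), part 4: POINTWISE calculus of the Hardy field.   Architect: helper257.   PACKAGE L-SC-PW.

`π = scPi L` = orthogonal projection onto `Lᗮ`, `y = π (x - z)`, `q = scZ2 z L κ x = |y|² + κ² = ζ²`, `ξ = scXi = y/q = ∇ log ζ`, `Y = D.Y = Gam^♯ ξ`.
Write `n² = Gam ν ν`, `b = Gam^♯ ν` (`Gmt.gmtSharp`: `⟪gmtSharp B ξ, η⟫ = B ξ η`).  All statements at a point `x ∈ G ⊆ U` (`U` open, data smooth on `U`).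

FORMULAS
* `Dξ(a) = q⁻¹ π a - 2 q⁻² ⟪y, a⟫ y`   (`Dq(a) = 2⟪y, a⟫` since `π` is a symmetric idempotent);
* `DY(a) = (D_a Gam)^♯ ξ + Gam^♯ (Dξ a)`   (`gmtSharp` is linear in both arguments: `fderiv_clm_apply`-style product rule; `toDual.symm` is a CLM);
* `div Y = ∑_i (D_{e_i} Gam)(ξ, e_i) + q⁻¹ tr(Gam π) - 2 q⁻² Gam(y,y)`, `tr(Gam π) = scTr = ∑_i Gam (π e_i) e_i`;
* `A(ν, (DY)ᵀ ν) = rho² ⟪DY b, ν⟫ = rho² [(D_b Gam)(ξ,ν) + q⁻¹ |π b|² - 2 q⁻² Gam(y,ν)²]`  (`Gam (π b) ν = ⟪π b, b⟫ = |π b|²`, `⟪y, b⟫ = Gam y ν`);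
* `D_Y A (ν,ν) = 2 rho (D_Y rho) n² + rho² (D_Y Gam)(ν,ν)`.
Hence `gmtFv1 A Y x ν/(rho n) = q⁻¹ [tr(Gam π) - |π b|²/n²] - 2 q⁻² scQw Gam ν y + lo`,
`lo = ∑_i (D_{e_i}Gam)(ξ,e_i) + D_Y rho/rho + (D_Y Gam)(ν,ν)/(2n²) - (D_b Gam)(ξ,ν)/n²`.
ESTIMATES (`τ ≤ 1/2`)
* `tr(Gam π) ≥ 8 - m τ`: `Gam = ⟪,⟫ + R`, `|R(ξ,η)| ≤ τ|ξ||η|` (polarisation of `close`, `R` symmetric), `∑_i ⟪π e_i, e_i⟫ = trace π = finrank Lᗮ = m - finrank L ≥ 8`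
  (`LinearMap.trace_eq_sum_inner`, `LinearMap.IsProj.trace`, `Submodule.finrank_add_finrank_orthogonal`);
* `|b|² ≤ (1+τ) n²` (`|b|² = Gam ν b ≤ n √(Gam b b) ≤ n √(1+τ) |b|`), `|π b| ≤ |b|`;  `0 ≤ scQw Gam ν y ≤ Gam y y ≤ (1+τ) q`;
* `|ξ|² ≤ q⁻¹`, `|Y| ≤ (1+τ)|ξ|`, `n² ≥ 1 - τ`, so `|lo| ≤ C_m Λ q^{-1/2} = C_m Λ ζ/q ≤ C_m Λ ζ₀/q`.
So `gmtFv1/(rho n) ≥ q⁻¹ (5 - (m+3) τ - C_m Λ ζ₀) ≥ 4.5/q`, and `div (rho Y) = rho div Y + D_Y rho ≥ rho q⁻¹ (6 - (m+2) τ - C_m Λ ζ₀) ≥ 5.8 rho/q`.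
PRODUCT RULE `X = v Y`: `div X = v div Y + ⟪∇v, Y⟫`, `(DX)ᵀ ν = v (DY)ᵀ ν + ⟪Y,ν⟫ ∇v`; `⟪∇v, Y⟫ = Gam(∇v, ξ)`, `⟪Y,ν⟫ = Gam(ξ,ν)`.
-/

set_option autoImplicit false
open scoped ContDiff Topology ENNReal RealInnerProductSpace
open MeasureTheory Set Metric

namespace Claimed.Agent.R315

noncomputable section

variable {m : ℕ}

/-- orthogonal projection onto `Lᗮ`. -/
def scPi (L : Submodule ℝ (E m)) : E m →L[ℝ] E m := Lᗮ.starProjection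

/-- `∇ log ζ`. -/
def scXi (z : E m) (L : Submodule ℝ (E m)) (κ : ℝ) (x : E m) : E m :=
  (scZ2 z L κ x)⁻¹ • scPi L (x - z)

/-- the Hardy field `Gam^♯ ∇ log ζ`. -/
def ScCh.Y (D : ScCh m) (z : E m) (L : Submodule ℝ (E m)) (κ : ℝ) (x : E m) : E m :=
  Gmt.gmtSharp (D.Gam x) (scXi z L κ x)

/-- `tr (B π)`. -/
def scTr (B : Gmt.Bil m) (L : Submodule ℝ (E m)) : ℝ := ∑ i : Fin m, B (scPi L (eb i)) (eb i)

/-! ### the function `ζ` -/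

theorem sc_infDist_eq (L : Submodule ℝ (E m)) (y : E m) :
    infDist y (L : Set (E m)) = ‖scPi L y‖ := by
  unfold scPi
  rw [Submodule.starProjection_orthogonal_val, Submodule.starProjection_minimal,
    Metric.infDist_eq_iInf]
  simp only [dist_eq_norm]
  rfl

theorem scZ2_eq (z : E m) (L : Submodule ℝ (E m)) (κ : ℝ) (x : E m) :
    scZ2 z L κ x = ‖scPi L (x - z)‖ ^ 2 + κ ^ 2 := by
  rw [scZ2, sc_infDist_eq]

theorem scZ2_pos (z : E m) (L : Submodule ℝ (E m)) {κ : ℝ} (hκ : 0 < κ) (x : E m) :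
    0 < scZ2 z L κ x := by
  unfold scZ2; positivity

theorem scPi_idem (L : Submodule ℝ (E m)) (a : E m) : scPi L (scPi L a) = scPi L a := by
  have := (Lᗮ).isIdempotentElem_starProjection
  exact congrArg (fun T : E m →L[ℝ] E m => T a) this

theorem scPi_symm (L : Submodule ℝ (E m)) (a b : E m) : ⟪scPi L a, b⟫ = ⟪a, scPi L b⟫ :=
  Submodule.inner_starProjection_left_eq_right _ a b

theorem scPi_norm_le (L : Submodule ℝ (E m)) (a : E m) : ‖scPi L a‖ ≤ ‖a‖ :=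
  Submodule.norm_starProjection_apply_le _ a

theorem scPi_inner_self (L : Submodule ℝ (E m)) (a : E m) : ⟪scPi L a, a⟫ = ‖scPi L a‖ ^ 2 := by
  rw [← real_inner_self_eq_norm_sq, scPi_symm L a (scPi L a), scPi_idem, scPi_symm]

theorem scZ2_contDiff (z : E m) (L : Submodule ℝ (E m)) (κ : ℝ) : ContDiff ℝ ∞ (scZ2 z L κ) := by
  have : scZ2 z L κ = fun x => ‖scPi L (x - z)‖ ^ 2 + κ ^ 2 := funext (scZ2_eq z L κ)
  rw [this]
  exact (((scPi L).contDiff.comp (contDiff_id.sub contDiff_const)).norm_sq ℝ).add contDiff_const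

theorem scXi_contDiff (z : E m) (L : Submodule ℝ (E m)) {κ : ℝ} (hκ : 0 < κ) :
    ContDiff ℝ ∞ (scXi z L κ) := by
  unfold scXi
  exact ((scZ2_contDiff z L κ).inv fun x => (scZ2_pos z L hκ x).ne').smul
    ((scPi L).contDiff.comp (contDiff_id.sub contDiff_const))

theorem scPi_sq_le (z : E m) (L : Submodule ℝ (E m)) (κ : ℝ) (x : E m) :
    ‖scPi L (x - z)‖ ^ 2 ≤ scZ2 z L κ x := by
  rw [scZ2_eq]; nlinarith [sq_nonneg κ]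

theorem scXi_norm_sq_le (z : E m) (L : Submodule ℝ (E m)) {κ : ℝ} (hκ : 0 < κ) (x : E m) :
    ‖scXi z L κ x‖ ^ 2 ≤ (scZ2 z L κ x)⁻¹ := by
  have hq := scZ2_pos z L hκ x
  unfold scXi
  rw [norm_smul, mul_pow, Real.norm_eq_abs, sq_abs]
  have h1 := scPi_sq_le z L κ x
  have h2 : 0 ≤ (scZ2 z L κ x)⁻¹ ^ 2 := by positivity
  calc (scZ2 z L κ x)⁻¹ ^ 2 * ‖scPi L (x - z)‖ ^ 2 ≤ (scZ2 z L κ x)⁻¹ ^ 2 * scZ2 z L κ x :=
        mul_le_mul_of_nonneg_left h1 h2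
    _ = (scZ2 z L κ x)⁻¹ := by field_simp

theorem scPi_sub_hasFDerivAt (z : E m) (L : Submodule ℝ (E m)) (x : E m) :
    HasFDerivAt (fun x => scPi L (x - z)) (scPi L) x := by
  have := ((scPi L).hasFDerivAt (x := x - z)).comp x ((hasFDerivAt_id x).sub_const z)
  rw [ContinuousLinearMap.comp_id] at this
  exact this

theorem scZ2_hasFDerivAt (z : E m) (L : Submodule ℝ (E m)) (κ : ℝ) (x : E m) :
    HasFDerivAt (scZ2 z L κ) ((2 : ℝ) • innerSL ℝ (scPi L (x - z))) x := by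
  have : scZ2 z L κ = fun x => ‖scPi L (x - z)‖ ^ 2 + κ ^ 2 := funext (scZ2_eq z L κ)
  rw [this]
  have h1 : HasFDerivAt (fun x => scPi L (x - z)) (scPi L) x := scPi_sub_hasFDerivAt z L x
  have h2 := (h1.norm_sq).add_const (κ ^ 2)
  have e : (2 : ℝ) • innerSL ℝ (scPi L (x - z)) =
      2 • (innerSL ℝ (scPi L (x - z))) ∘SL scPi L := by
    ext a
    simp only [smul_apply, innerSL_apply_apply, ContinuousLinearMap.comp_apply, smul_eq_mul,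
      nsmul_eq_mul]
    rw [← scPi_symm, scPi_idem]
    norm_num
  rw [e]
  exact h2

theorem scXi_hasFDerivAt (z : E m) (L : Submodule ℝ (E m)) {κ : ℝ} (hκ : 0 < κ) (x : E m) :
    HasFDerivAt (scXi z L κ) ((scZ2 z L κ x)⁻¹ • scPi L +
      ((-(scZ2 z L κ x ^ 2)⁻¹) • ((2 : ℝ) • innerSL ℝ (scPi L (x - z)))).smulRight
        (scPi L (x - z))) x := by
  have hq := scZ2_pos z L hκ x
  have h1 : HasFDerivAt (fun x => scPi L (x - z)) (scPi L) x := scPi_sub_hasFDerivAt z L x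
  have h2 : HasFDerivAt (fun x => (scZ2 z L κ x)⁻¹)
      ((-(scZ2 z L κ x ^ 2)⁻¹) • ((2 : ℝ) • innerSL ℝ (scPi L (x - z)))) x :=
    (hasDerivAt_inv hq.ne').comp_hasFDerivAt x (scZ2_hasFDerivAt z L κ x)
  exact h2.smul h1

theorem scXi_fderiv (z : E m) (L : Submodule ℝ (E m)) {κ : ℝ} (hκ : 0 < κ) (x a : E m) :
    fderiv ℝ (scXi z L κ) x a = (scZ2 z L κ x)⁻¹ • scPi L a -
      (2 * (scZ2 z L κ x)⁻¹ ^ 2 * ⟪scPi L (x - z), a⟫) • scPi L (x - z) := by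
  rw [(scXi_hasFDerivAt z L hκ x).fderiv]
  simp only [add_apply, smul_apply,
    ContinuousLinearMap.smulRight_apply, innerSL_apply_apply, smul_eq_mul]
  rw [sub_eq_add_neg ((scZ2 z L κ x)⁻¹ • (scPi L) a), ← neg_smul]
  congr 2
  rw [inv_pow]; ring


/-! ### linear algebra of a form close to the Euclidean one -/

/-- polarised closeness. -/
theorem sc_close_polar {B : Gmt.Bil m} {τ : ℝ} (hs : ∀ ξ η, B ξ η = B η ξ)
    (hc : ∀ ξ : E m, |B ξ ξ - ‖ξ‖ ^ 2| ≤ τ * ‖ξ‖ ^ 2) (ξ η : E m) :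
    |B ξ η - ⟪ξ, η⟫| ≤ τ * ‖ξ‖ * ‖η‖ := by
  have key : ∀ u v : E m, |4 * (B u v - ⟪u, v⟫)| ≤ τ * (2 * ‖u‖ ^ 2 + 2 * ‖v‖ ^ 2) := by
    intro u v
    have h1 := hc (u + v)
    have h2 := hc (u - v)
    have e1 : B (u + v) (u + v) = B u u + 2 * B u v + B v v := by
      simp only [map_add, _root_.add_apply]; rw [hs v u]; ring
    have e2 : B (u - v) (u - v) = B u u - 2 * B u v + B v v := by
      simp only [map_sub, _root_.sub_apply]; rw [hs v u]; ring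
    have e3 : ‖u + v‖ ^ 2 = ‖u‖ ^ 2 + 2 * ⟪u, v⟫ + ‖v‖ ^ 2 := norm_add_sq_real u v
    have e4 : ‖u - v‖ ^ 2 = ‖u‖ ^ 2 - 2 * ⟪u, v⟫ + ‖v‖ ^ 2 := norm_sub_sq_real u v
    rw [e1, e3] at h1
    rw [e2, e4] at h2
    rw [abs_le] at h1 h2 ⊢
    constructor <;> nlinarith [h1.1, h1.2, h2.1, h2.2]
  by_cases hξ : ξ = 0
  · subst hξ; simp
  by_cases hη : η = 0
  · subst hη; simp
  have ha : 0 < ‖ξ‖ := norm_pos_iff.2 hξ
  have hb : 0 < ‖η‖ := norm_pos_iff.2 hη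
  have h := key (‖η‖ • ξ) (‖ξ‖ • η)
  have e1 : B (‖η‖ • ξ) (‖ξ‖ • η) = ‖η‖ * ‖ξ‖ * B ξ η := by
    simp only [map_smul, _root_.smul_apply, smul_eq_mul]; ring
  have e2 : ⟪‖η‖ • ξ, ‖ξ‖ • η⟫ = ‖η‖ * ‖ξ‖ * ⟪ξ, η⟫ := by
    rw [real_inner_smul_left, real_inner_smul_right]; ring
  rw [e1, e2, norm_smul, norm_smul, norm_norm, norm_norm] at h
  have e3 : 4 * (‖η‖ * ‖ξ‖ * B ξ η - ‖η‖ * ‖ξ‖ * ⟪ξ, η⟫) = (4 * ‖η‖ * ‖ξ‖) * (B ξ η - ⟪ξ, η⟫) := by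
    ring
  rw [e3, abs_mul, abs_of_pos (by positivity : 0 < 4 * ‖η‖ * ‖ξ‖)] at h
  have h5 : (4 * ‖η‖ * ‖ξ‖) * |B ξ η - ⟪ξ, η⟫| ≤ (4 * ‖η‖ * ‖ξ‖) * (τ * ‖ξ‖ * ‖η‖) := by
    calc _ ≤ _ := h
      _ = _ := by ring
  exact le_of_mul_le_mul_left h5 (by positivity)

theorem scPi_trace (L : Submodule ℝ (E m)) :
    ∑ i : Fin m, ⟪scPi L (eb i), eb i⟫ = (Module.finrank ℝ Lᗮ : ℝ) := by
  have h1 := LinearMap.trace_eq_sum_inner ((scPi L : E m →L[ℝ] E m) : E m →ₗ[ℝ] E m)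
    (EuclideanSpace.basisFun (Fin m) ℝ)
  have h2 : LinearMap.IsProj Lᗮ ((scPi L : E m →L[ℝ] E m) : E m →ₗ[ℝ] E m) := by
    constructor
    · intro x
      exact Submodule.starProjection_apply_mem _ x
    · intro x hx
      exact Submodule.starProjection_eq_self_iff.2 hx
  rw [h2.trace] at h1
  rw [h1]
  refine Finset.sum_congr rfl fun i _ => ?_
  rw [real_inner_comm]
  simp

theorem scTr_ge {B : Gmt.Bil m} {τ : ℝ} (hs : ∀ ξ η, B ξ η = B η ξ)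
    (hc : ∀ ξ : E m, |B ξ ξ - ‖ξ‖ ^ 2| ≤ τ * ‖ξ‖ ^ 2) (hm : 8 ≤ m) {L : Submodule ℝ (E m)}
    (hL : Module.finrank ℝ L ≤ m - 8) : 8 - m * τ ≤ scTr B L := by
  have hτ : 0 ≤ τ := by
    have := hc (eb ⟨0, by omega⟩)
    have h3 : ‖(eb ⟨0, by omega⟩ : E m)‖ = 1 := by simp
    rw [h3, one_pow, mul_one] at this
    exact (abs_nonneg _).trans this
  have h1 : ∀ i : Fin m, ⟪scPi L (eb i), eb i⟫ - τ ≤ B (scPi L (eb i)) (eb i) := by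
    intro i
    have h := sc_close_polar hs hc (scPi L (eb i)) (eb i)
    have h2 : ‖scPi L (eb i)‖ ≤ 1 := by
      have := scPi_norm_le L (eb i)
      simpa using this
    have h3 : ‖(eb i : E m)‖ = 1 := by simp
    rw [h3, mul_one] at h
    have h4 : τ * ‖scPi L (eb i)‖ ≤ τ := by nlinarith
    have := (abs_le.1 h).1
    linarith
  have h2 : ∑ i : Fin m, (⟪scPi L (eb i), eb i⟫ - τ) ≤ scTr B L := Finset.sum_le_sum fun i _ => h1 i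
  rw [Finset.sum_sub_distrib, scPi_trace] at h2
  simp only [Finset.sum_const, Finset.card_univ, Fintype.card_fin, nsmul_eq_mul] at h2
  have h3 := Submodule.finrank_add_finrank_orthogonal L
  rw [finrank_euclideanSpace, Fintype.card_fin] at h3
  have h4 : 8 ≤ Module.finrank ℝ Lᗮ := by omega
  have h5 : (8 : ℝ) ≤ (Module.finrank ℝ Lᗮ : ℝ) := by exact_mod_cast h4
  linarith

/-- Cauchy-Schwarz for a symmetric positive definite form. -/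
theorem sc_bil_cs {B : Gmt.Bil m} (hs : ∀ ξ η, B ξ η = B η ξ) (hp : ∀ ξ, ξ ≠ 0 → 0 < B ξ ξ)
    (ξ η : E m) : B ξ η ^ 2 ≤ B ξ ξ * B η η := by
  have hnn : ∀ ξ, 0 ≤ B ξ ξ := by
    intro ξ
    by_cases h : ξ = 0
    · subst h; simp
    · exact (hp ξ h).le
  have h : ∀ t : ℝ, 0 ≤ B η η * (t * t) + (2 * B ξ η) * t + B ξ ξ := by
    intro t
    have := hnn (ξ + t • η)
    have e : B (ξ + t • η) (ξ + t • η) = B η η * (t * t) + (2 * B ξ η) * t + B ξ ξ := by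
      simp only [map_add, map_smul, _root_.add_apply, _root_.smul_apply, smul_eq_mul]
      rw [hs η ξ]
      ring
    rwa [e] at this
  have := discrim_le_zero h
  unfold discrim at this
  nlinarith

theorem scQb_eq {B : Gmt.Bil m} (hs : ∀ ξ η, B ξ η = B η ξ) {ν : E m} (hν : B ν ν ≠ 0) (ξ η : E m) :
    scQb B ν ξ η = B (ξ - (B ξ ν / B ν ν) • ν) (η - (B η ν / B ν ν) • ν) := by
  simp only [map_sub, map_smul, _root_.sub_apply, _root_.smul_apply, smul_eq_mul]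
  rw [hs ν η]
  unfold scQb
  field_simp
  ring

theorem scQw_eq_scQb (B : Gmt.Bil m) (ν ξ : E m) : scQw B ν ξ = scQb B ν ξ ξ := by
  unfold scQw scQb; ring

theorem scQb_sq_le {B : Gmt.Bil m} (hs : ∀ ξ η, B ξ η = B η ξ) (hp : ∀ ξ, ξ ≠ 0 → 0 < B ξ ξ)
    {ν : E m} (hν : ν ≠ 0) (ξ η : E m) :
    scQb B ν ξ η ^ 2 ≤ scQw B ν ξ * scQw B ν η ∧ 0 ≤ scQw B ν ξ ∧ scQw B ν ξ ≤ B ξ ξ := by
  have hn := hp ν hν
  refine ⟨?_, ?_, ?_⟩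
  · rw [scQw_eq_scQb, scQw_eq_scQb, scQb_eq hs hn.ne', scQb_eq hs hn.ne', scQb_eq hs hn.ne']
    exact sc_bil_cs hs hp _ _
  · have := sc_bil_cs hs hp ξ ν
    unfold scQw
    rw [sub_nonneg, div_le_iff₀ hn]
    exact this
  · unfold scQw
    have : 0 ≤ B ξ ν ^ 2 / B ν ν := by positivity
    linarith

theorem scQw_add_smul (B : Gmt.Bil m) (hs : ∀ ξ η, B ξ η = B η ξ) (ν ξ η : E m) (a b : ℝ) :
    scQw B ν (a • ξ + b • η) = a ^ 2 * scQw B ν ξ + 2 * a * b * scQb B ν ξ η + b ^ 2 * scQw B ν η := by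
  unfold scQw scQb
  simp only [map_add, map_smul, _root_.add_apply, _root_.smul_apply, smul_eq_mul]
  rw [hs η ξ]
  ring


/-! ### the field `Y` -/

theorem sc_sharp_inner (B : Gmt.Bil m) (ξ η : E m) : ⟪Gmt.gmtSharp B ξ, η⟫ = B ξ η := by
  unfold Gmt.gmtSharp
  exact InnerProductSpace.toDual_symm_apply

/-- `toDual.symm` as a real continuous linear map. -/
def scShL (m : ℕ) : (E m →L[ℝ] ℝ) →L[ℝ] E m :=
  LinearMap.toContinuousLinearMap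
    { toFun := fun φ => (InnerProductSpace.toDual ℝ (E m)).symm φ
      map_add' := fun a b => map_add _ a b
      map_smul' := fun c a => by simp }

theorem scShL_apply (B : Gmt.Bil m) (ξ : E m) : scShL m (B ξ) = Gmt.gmtSharp B ξ := rfl

theorem sc_coord (v : E m) (i : Fin m) : v i = ⟪v, eb i⟫ := by
  simp [EuclideanSpace.inner_single_right]

theorem sc_sum_coord (B : E m →L[ℝ] ℝ) (y : E m) : ∑ i : Fin m, ⟪y, eb i⟫ * B (eb i) = B y := by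
  have h : y = ∑ i : Fin m, ⟪y, eb i⟫ • (eb i : E m) := by
    have := (EuclideanSpace.basisFun (Fin m) ℝ).sum_repr y
    conv_lhs => rw [← this]
    refine Finset.sum_congr rfl fun i _ => ?_
    simp [EuclideanSpace.inner_single_right]
  conv_rhs => rw [h]
  rw [map_sum]
  refine Finset.sum_congr rfl fun i _ => ?_
  rw [map_smul, smul_eq_mul]

theorem ScCh.Y_hasFDerivAt {D : ScCh m} {G : Set (E m)} {τ Λ : ℝ} (hD : D.Ok G τ Λ) (z : E m)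
    (L : Submodule ℝ (E m)) {κ : ℝ} (hκ : 0 < κ) {x : E m} (hx : x ∈ D.U) :
    HasFDerivAt (D.Y z L κ)
      ((scShL m).comp
        ((D.Gam x).comp (fderiv ℝ (scXi z L κ) x) + (fderiv ℝ D.Gam x).flip (scXi z L κ x))) x := by
  have h1 : HasFDerivAt D.Gam (fderiv ℝ D.Gam x) x :=
    ((hD.gam.smooth.contDiffAt (hD.opn.mem_nhds hx)).differentiableAt (by simp)).hasFDerivAt
  have h2 : HasFDerivAt (scXi z L κ) (fderiv ℝ (scXi z L κ) x) x :=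
    (((scXi_contDiff z L hκ).differentiable (by simp)) x).hasFDerivAt
  have h3 := h1.clm_apply h2
  exact (scShL m).hasFDerivAt.comp x h3

theorem ScCh.Y_contDiffOn {D : ScCh m} {G : Set (E m)} {τ Λ : ℝ} (hD : D.Ok G τ Λ) (z : E m)
    (L : Submodule ℝ (E m)) {κ : ℝ} (hκ : 0 < κ) : ContDiffOn ℝ ∞ (D.Y z L κ) D.U := by
  have h3 := hD.gam.smooth.clm_apply (scXi_contDiff z L hκ).contDiffOn
  exact (scShL m).contDiff.comp_contDiffOn h3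

theorem ScCh.Y_fderiv {D : ScCh m} {G : Set (E m)} {τ Λ : ℝ} (hD : D.Ok G τ Λ) (z : E m)
    (L : Submodule ℝ (E m)) {κ : ℝ} (hκ : 0 < κ) {x : E m} (hx : x ∈ D.U) (a : E m) :
    fderiv ℝ (D.Y z L κ) x a = Gmt.gmtSharp (fderiv ℝ D.Gam x a) (scXi z L κ x) +
      Gmt.gmtSharp (D.Gam x) (fderiv ℝ (scXi z L κ) x a) := by
  rw [(ScCh.Y_hasFDerivAt hD z L hκ hx).fderiv, ← scShL_apply, ← scShL_apply, ← map_add,
    add_comm (fderiv ℝ D.Gam x a (scXi z L κ x))]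
  rfl

/-- `⟪DY a, η⟫`. -/
theorem ScCh.Y_fderiv_inner {D : ScCh m} {G : Set (E m)} {τ Λ : ℝ} (hD : D.Ok G τ Λ) (z : E m)
    (L : Submodule ℝ (E m)) {κ : ℝ} (hκ : 0 < κ) {x : E m} (hx : x ∈ D.U) (a η : E m) :
    ⟪fderiv ℝ (D.Y z L κ) x a, η⟫ = fderiv ℝ D.Gam x a (scXi z L κ x) η +
      ((scZ2 z L κ x)⁻¹ * D.Gam x (scPi L a) η -
        2 * (scZ2 z L κ x)⁻¹ ^ 2 * ⟪scPi L (x - z), a⟫ * D.Gam x (scPi L (x - z)) η) := by
  rw [ScCh.Y_fderiv hD z L hκ hx, inner_add_left, sc_sharp_inner, sc_sharp_inner, scXi_fderiv z L hκ]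
  simp only [map_sub, map_smul, _root_.sub_apply, _root_.smul_apply, smul_eq_mul]

/-- the divergence of `Y`. -/
theorem ScCh.Y_div {D : ScCh m} {G : Set (E m)} {τ Λ : ℝ} (hD : D.Ok G τ Λ) (z : E m)
    (L : Submodule ℝ (E m)) {κ : ℝ} (hκ : 0 < κ) {x : E m} (hx : x ∈ D.U) :
    Gmt.gmtDiv (D.Y z L κ) x = ∑ i : Fin m, fderiv ℝ D.Gam x (eb i) (scXi z L κ x) (eb i) +
      ((scZ2 z L κ x)⁻¹ * scTr (D.Gam x) L -
        2 * (scZ2 z L κ x)⁻¹ ^ 2 * D.Gam x (scPi L (x - z)) (scPi L (x - z))) := by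
  unfold Gmt.gmtDiv scTr
  have h : ∀ i : Fin m, fderiv ℝ (D.Y z L κ) x (Gmt.eb i) i =
      fderiv ℝ D.Gam x (eb i) (scXi z L κ x) (eb i) +
      ((scZ2 z L κ x)⁻¹ * D.Gam x (scPi L (eb i)) (eb i) -
        2 * (scZ2 z L κ x)⁻¹ ^ 2 * (⟪scPi L (x - z), eb i⟫ * D.Gam x (scPi L (x - z)) (eb i))) := by
    intro i
    rw [sc_coord, ScCh.Y_fderiv_inner hD z L hκ hx]
    ring
  rw [Finset.sum_congr rfl fun i _ => h i, Finset.sum_add_distrib, Finset.sum_sub_distrib,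
    ← Finset.mul_sum, ← Finset.mul_sum, sc_sum_coord]


theorem sc_grad_inner (v : E m → ℝ) (x a : E m) : ⟪gradient v x, a⟫ = fderiv ℝ v x a := by
  unfold gradient
  exact InnerProductSpace.toDual_symm_apply

theorem sc_bil_bsmul (m : ℕ) : IsBoundedSMul ℝ (E m →L[ℝ] E m →L[ℝ] ℝ) := by
  have := @NormedSpace.toIsBoundedSMul ℝ (E m →L[ℝ] E m →L[ℝ] ℝ) _ _ _
  exact this

theorem ScCh.A_fderiv {D : ScCh m} {G : Set (E m)} {τ Λ : ℝ} (hD : D.Ok G τ Λ) {x : E m}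
    (hx : x ∈ D.U) (a ν ν' : E m) :
    fderiv ℝ D.A x a ν ν' = 2 * D.rho x * fderiv ℝ D.rho x a * D.Gam x ν ν' +
      D.rho x ^ 2 * fderiv ℝ D.Gam x a ν ν' := by
  have h1 : HasFDerivAt D.Gam (fderiv ℝ D.Gam x) x :=
    ((hD.gam.smooth.contDiffAt (hD.opn.mem_nhds hx)).differentiableAt (by simp)).hasFDerivAt
  have h2 : HasFDerivAt D.rho (fderiv ℝ D.rho x) x :=
    ((hD.rho_s.contDiffAt (hD.opn.mem_nhds hx)).differentiableAt (by simp)).hasFDerivAt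
  have := sc_bil_bsmul m
  have h3 := HasFDerivAt.fun_smul (𝕜 := ℝ) (𝕜' := ℝ) (F := E m →L[ℝ] E m →L[ℝ] ℝ) (h2.pow 2) h1
  have h5 : fderiv ℝ D.A x = _ := h3.fderiv
  rw [h5]
  simp only [_root_.add_apply, _root_.smul_apply, ContinuousLinearMap.smulRight_apply, smul_eq_mul,
    nsmul_eq_mul]
  norm_num
  ring

theorem ScCh.A_smooth {D : ScCh m} {G : Set (E m)} {τ Λ : ℝ} (hD : D.Ok G τ Λ) :
    ContDiffOn ℝ ∞ D.A D.U := by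
  have := sc_bil_bsmul m
  exact ContDiffOn.smul (𝕜 := ℝ) (F := E m →L[ℝ] E m →L[ℝ] ℝ) (hD.rho_s.pow 2) hD.gam.smooth

theorem ScCh.A_sqrt {D : ScCh m} {G : Set (E m)} {τ Λ : ℝ} (hD : D.Ok G τ Λ) {x : E m}
    (hx : x ∈ D.U) (ν : E m) :
    Real.sqrt (D.A x ν ν) = D.rho x * Real.sqrt (D.Gam x ν ν) := by
  have : D.A x ν ν = D.rho x ^ 2 * D.Gam x ν ν := rfl
  rw [this, Real.sqrt_mul (sq_nonneg _), Real.sqrt_sq (hD.rho_pos x hx).le]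

/-- `gmtFv1` in terms of `b = Gam^♯ ν`. -/
theorem sc_fv1_eq {D : ScCh m} {G : Set (E m)} {τ Λ : ℝ} (hD : D.Ok G τ Λ) {x : E m}
    (hx : x ∈ D.U) (X : E m → E m) (ν : E m) :
    Gmt.gmtFv1 D.A X x ν = D.rho x * Real.sqrt (D.Gam x ν ν) * Gmt.gmtDiv X x +
      (fderiv ℝ D.A x (X x) ν ν / 2 -
        D.rho x ^ 2 * ⟪fderiv ℝ X x (Gmt.gmtSharp (D.Gam x) ν), ν⟫) /
        (D.rho x * Real.sqrt (D.Gam x ν ν)) := by
  unfold Gmt.gmtFv1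
  rw [ScCh.A_sqrt hD hx]
  have : D.A x ν (ContinuousLinearMap.adjoint (fderiv ℝ X x) ν) =
      D.rho x ^ 2 * ⟪fderiv ℝ X x (Gmt.gmtSharp (D.Gam x) ν), ν⟫ := by
    rw [← ContinuousLinearMap.adjoint_inner_right, sc_sharp_inner]
    rfl
  rw [this]

/-- product rule for the first variation integrand. -/
theorem sc_fv1_smul {D : ScCh m} {G : Set (E m)} {τ Λ : ℝ} (hD : D.Ok G τ Λ) (z : E m)
    (L : Submodule ℝ (E m)) {κ : ℝ} (hκ : 0 < κ) {x : E m} (hx : x ∈ D.U) {v : E m → ℝ}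
    (hv : DifferentiableAt ℝ v x) {ν : E m} (hν : ν ≠ 0) :
    Gmt.gmtFv1 D.A (fun y => v y • D.Y z L κ y) x ν = v x * Gmt.gmtFv1 D.A (D.Y z L κ) x ν +
      D.rho x * Real.sqrt (D.Gam x ν ν) * scQb (D.Gam x) ν (gradient v x) (scXi z L κ x) := by
  have hY : HasFDerivAt (D.Y z L κ) (fderiv ℝ (D.Y z L κ) x) x :=
    (((ScCh.Y_contDiffOn hD z L hκ).contDiffAt (hD.opn.mem_nhds hx)).differentiableAt
      (by simp)).hasFDerivAt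
  have hX := hv.hasFDerivAt.fun_smul hY
  have hXa : ∀ a, fderiv ℝ (fun y => v y • D.Y z L κ y) x a =
      v x • fderiv ℝ (D.Y z L κ) x a + fderiv ℝ v x a • D.Y z L κ x := by
    intro a
    rw [hX.fderiv]
    simp only [_root_.add_apply, _root_.smul_apply, ContinuousLinearMap.smulRight_apply]
  have hdiv : Gmt.gmtDiv (fun y => v y • D.Y z L κ y) x =
      v x * Gmt.gmtDiv (D.Y z L κ) x + fderiv ℝ v x (D.Y z L κ x) := by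
    unfold Gmt.gmtDiv
    rw [Finset.mul_sum, ← sc_sum_coord (fderiv ℝ v x) (D.Y z L κ x), ← Finset.sum_add_distrib]
    refine Finset.sum_congr rfl fun i _ => ?_
    rw [hXa, ← sc_coord]
    simp only [PiLp.add_apply, PiLp.smul_apply, smul_eq_mul]
    ring
  have hρ := hD.rho_pos x hx
  have hn2 : 0 < D.Gam x ν ν := hD.gam.pos x hx ν hν
  have hn : 0 < Real.sqrt (D.Gam x ν ν) := Real.sqrt_pos.2 hn2
  have hnn : Real.sqrt (D.Gam x ν ν) ^ 2 = D.Gam x ν ν := Real.sq_sqrt hn2.le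
  rw [sc_fv1_eq hD hx, sc_fv1_eq hD hx, hdiv, hXa, inner_add_left, real_inner_smul_left,
    real_inner_smul_left, map_smul]
  have e1 : fderiv ℝ v x (D.Y z L κ x) = D.Gam x (gradient v x) (scXi z L κ x) := by
    rw [← sc_grad_inner, real_inner_comm, ScCh.Y, sc_sharp_inner, hD.gam.symm x hx]
  have e2 : fderiv ℝ v x (Gmt.gmtSharp (D.Gam x) ν) = D.Gam x (gradient v x) ν := by
    rw [← sc_grad_inner, real_inner_comm, sc_sharp_inner, hD.gam.symm x hx]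
  have e3 : ⟪D.Y z L κ x, ν⟫ = D.Gam x (scXi z L κ x) ν := by
    rw [ScCh.Y, sc_sharp_inner]
  rw [e1, e2, e3]
  unfold scQb
  simp only [_root_.smul_apply, smul_eq_mul]
  generalize Real.sqrt (D.Gam x ν ν) = n at hn hnn
  rw [← hnn]
  field_simp
  ring


/-- the lower order terms. -/
def ScCh.lo (D : ScCh m) (z : E m) (L : Submodule ℝ (E m)) (κ : ℝ) (x ν : E m) : ℝ :=
  ∑ i : Fin m, fderiv ℝ D.Gam x (eb i) (scXi z L κ x) (eb i) +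
    fderiv ℝ D.rho x (D.Y z L κ x) / D.rho x +
    fderiv ℝ D.Gam x (D.Y z L κ x) ν ν / (2 * D.Gam x ν ν) -
    fderiv ℝ D.Gam x (Gmt.gmtSharp (D.Gam x) ν) (scXi z L κ x) ν / D.Gam x ν ν

/-- the formula for the first variation integrand of the Hardy field. -/
theorem sc_fv1_Y {D : ScCh m} {G : Set (E m)} {τ Λ : ℝ} (hD : D.Ok G τ Λ) (z : E m)
    (L : Submodule ℝ (E m)) {κ : ℝ} (hκ : 0 < κ) {x : E m} (hx : x ∈ D.U) {ν : E m} (hν : ν ≠ 0) :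
    Gmt.gmtFv1 D.A (D.Y z L κ) x ν = D.rho x * Real.sqrt (D.Gam x ν ν) *
      ((scZ2 z L κ x)⁻¹ * (scTr (D.Gam x) L -
          ‖scPi L (Gmt.gmtSharp (D.Gam x) ν)‖ ^ 2 / D.Gam x ν ν) -
        2 * (scZ2 z L κ x)⁻¹ ^ 2 * scQw (D.Gam x) ν (scPi L (x - z)) + D.lo z L κ x ν) := by
  have hρ := hD.rho_pos x hx
  have hn2 : 0 < D.Gam x ν ν := hD.gam.pos x hx ν hν
  have hn : 0 < Real.sqrt (D.Gam x ν ν) := Real.sqrt_pos.2 hn2
  have hnn : Real.sqrt (D.Gam x ν ν) ^ 2 = D.Gam x ν ν := Real.sq_sqrt hn2.le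
  rw [sc_fv1_eq hD hx, ScCh.Y_div hD z L hκ hx, ScCh.A_fderiv hD hx, ScCh.Y_fderiv_inner hD z L hκ hx]
  have e1 : D.Gam x (scPi L (Gmt.gmtSharp (D.Gam x) ν)) ν =
      ‖scPi L (Gmt.gmtSharp (D.Gam x) ν)‖ ^ 2 := by
    rw [hD.gam.symm x hx, ← sc_sharp_inner, real_inner_comm, scPi_inner_self]
  have e2 : ⟪scPi L (x - z), Gmt.gmtSharp (D.Gam x) ν⟫ = D.Gam x (scPi L (x - z)) ν := by
    rw [real_inner_comm, sc_sharp_inner, hD.gam.symm x hx]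
  rw [e1, e2]
  unfold ScCh.lo scQw
  generalize Real.sqrt (D.Gam x ν ν) = n at hn hnn
  rw [← hnn]
  field_simp
  ring

theorem sc_sharp_norm_le {B : Gmt.Bil m} {τ : ℝ} (hs : ∀ ξ η, B ξ η = B η ξ)
    (hc : ∀ ξ : E m, |B ξ ξ - ‖ξ‖ ^ 2| ≤ τ * ‖ξ‖ ^ 2) (ξ : E m) :
    ‖Gmt.gmtSharp B ξ‖ ≤ (1 + τ) * ‖ξ‖ := by
  set b := Gmt.gmtSharp B ξ with hb
  by_cases h0 : b = 0
  · rw [h0, norm_zero]
    have h1 := hc ξ
    have h2 : 0 ≤ τ * ‖ξ‖ ^ 2 := (abs_nonneg _).trans h1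
    by_cases hξ : ξ = 0
    · subst hξ; simp
    · have : 0 < ‖ξ‖ ^ 2 := by have := norm_pos_iff.2 hξ; positivity
      have hτ : 0 ≤ τ := nonneg_of_mul_nonneg_left h2 this
      positivity
  have hbp : 0 < ‖b‖ := norm_pos_iff.2 h0
  have h1 : ‖b‖ ^ 2 = B ξ b := by rw [← real_inner_self_eq_norm_sq, hb, sc_sharp_inner]
  have h2 := (abs_le.1 (sc_close_polar hs hc ξ b)).2
  have h3 : ⟪ξ, b⟫ ≤ ‖ξ‖ * ‖b‖ := real_inner_le_norm ξ b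
  have h4 : ‖b‖ * ‖b‖ ≤ ((1 + τ) * ‖ξ‖) * ‖b‖ := by nlinarith
  exact le_of_mul_le_mul_right h4 hbp

/-- basic facts at a point of `G`. -/
theorem ScCh.Ok.nonneg {D : ScCh m} {G : Set (E m)} {τ Λ : ℝ} (hD : D.Ok G τ Λ) (hm : 8 ≤ m)
    {x : E m} (hx : x ∈ G) : 0 ≤ τ ∧ 0 ≤ Λ := by
  constructor
  · have := hD.close x hx (eb ⟨0, by omega⟩)
    have h3 : ‖(eb ⟨0, by omega⟩ : E m)‖ = 1 := by simp
    rw [h3, one_pow, mul_one] at this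
    exact (abs_nonneg _).trans this
  · have h1 := hD.dRho x hx
    have h2 := hD.rho_pos x (hD.sub hx)
    have h3 : 0 ≤ Λ * D.rho x := (norm_nonneg _).trans h1
    exact nonneg_of_mul_nonneg_left h3 h2

theorem scXi_norm_le (z : E m) (L : Submodule ℝ (E m)) {κ : ℝ} (hκ : 0 < κ) (x : E m) {ζ₀ : ℝ}
    (hζ : 0 < ζ₀) (hq : scZ2 z L κ x ≤ ζ₀ ^ 2) : ‖scXi z L κ x‖ ≤ ζ₀ * (scZ2 z L κ x)⁻¹ := by
  have hq0 := scZ2_pos z L hκ x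
  have h1 := scXi_norm_sq_le z L hκ x
  have h2 : (scZ2 z L κ x)⁻¹ ≤ (ζ₀ * (scZ2 z L κ x)⁻¹) ^ 2 := by
    rw [mul_pow]
    have : (scZ2 z L κ x)⁻¹ = scZ2 z L κ x * (scZ2 z L κ x)⁻¹ ^ 2 := by field_simp
    conv_lhs => rw [this]
    exact mul_le_mul_of_nonneg_right hq (by positivity)
  exact (pow_le_pow_iff_left₀ (norm_nonneg _) (by positivity) (by norm_num)).1 (h1.trans h2)


theorem sc_T1_bound {D : ScCh m} {G : Set (E m)} {τ Λ : ℝ} (hD : D.Ok G τ Λ) {x : E m} (hx : x ∈ G)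
    (ξ : E m) : |∑ i : Fin m, fderiv ℝ D.Gam x (eb i) ξ (eb i)| ≤ m * Λ * ‖ξ‖ := by
  have h1 : ∀ i : Fin m, |fderiv ℝ D.Gam x (eb i) ξ (eb i)| ≤ Λ * ‖ξ‖ := by
    intro i
    have := hD.dGam x hx (eb i) ξ (eb i)
    have h3 : ‖(eb i : E m)‖ = 1 := by simp
    rw [h3, mul_one, mul_one] at this
    exact this
  calc |∑ i : Fin m, fderiv ℝ D.Gam x (eb i) ξ (eb i)|
      ≤ ∑ i : Fin m, |fderiv ℝ D.Gam x (eb i) ξ (eb i)| := Finset.abs_sum_le_sum_abs _ _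
    _ ≤ ∑ _i : Fin m, Λ * ‖ξ‖ := Finset.sum_le_sum fun i _ => h1 i
    _ = m * Λ * ‖ξ‖ := by simp; ring

theorem sc_Y_norm_le {D : ScCh m} {G : Set (E m)} {τ Λ : ℝ} (hD : D.Ok G τ Λ) {x : E m} (hx : x ∈ G)
    (z : E m) (L : Submodule ℝ (E m)) (κ : ℝ) : ‖D.Y z L κ x‖ ≤ (1 + τ) * ‖scXi z L κ x‖ :=
  sc_sharp_norm_le (hD.gam.symm x (hD.sub hx)) (hD.close x hx) _

theorem sc_dRho_bound {D : ScCh m} {G : Set (E m)} {τ Λ : ℝ} (hD : D.Ok G τ Λ) {x : E m}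
    (hx : x ∈ G) (a : E m) : |fderiv ℝ D.rho x a| ≤ Λ * D.rho x * ‖a‖ := by
  have h1 := (fderiv ℝ D.rho x).le_opNorm a
  rw [Real.norm_eq_abs] at h1
  exact h1.trans (mul_le_mul_of_nonneg_right (hD.dRho x hx) (norm_nonneg _))

theorem ScCh.lo_bound {D : ScCh m} {G : Set (E m)} {τ Λ : ℝ} (hD : D.Ok G τ Λ) (hm : 8 ≤ m)
    (hτ : τ ≤ 0.005) (z : E m) (L : Submodule ℝ (E m)) (κ : ℝ) {x : E m} (hx : x ∈ G) {ν : E m}
    (hν : ‖ν‖ = 1) : |D.lo z L κ x ν| ≤ (m + 3) * Λ * ‖scXi z L κ x‖ := by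
  obtain ⟨hτ0, hΛ0⟩ := hD.nonneg hm hx
  have hxU := hD.sub hx
  have hρ := hD.rho_pos x hxU
  set ξ := scXi z L κ x with hξ
  set Y := D.Y z L κ x with hY
  set b := Gmt.gmtSharp (D.Gam x) ν with hb
  set N := D.Gam x ν ν with hN
  have hξ0 : 0 ≤ ‖ξ‖ := norm_nonneg _
  have hΛξ : 0 ≤ Λ * ‖ξ‖ := by positivity
  have hN1 : 0.995 ≤ N := by
    have := (abs_le.1 (hD.close x hx ν)).1
    rw [hν] at this
    linarith
  have hYn : ‖Y‖ ≤ 1.005 * ‖ξ‖ := by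
    have := sc_Y_norm_le hD hx z L κ
    nlinarith
  have hbn : ‖b‖ ≤ 1.005 := by
    have := sc_sharp_norm_le (hD.gam.symm x hxU) (hD.close x hx) ν
    rw [hν] at this
    linarith
  have t1 := sc_T1_bound hD hx ξ
  have t2 : |fderiv ℝ D.rho x Y / D.rho x| ≤ 1.1 * (Λ * ‖ξ‖) := by
    rw [abs_div, abs_of_pos hρ, div_le_iff₀ hρ]
    have := sc_dRho_bound hD hx Y
    have h2 : Λ * D.rho x * ‖Y‖ ≤ Λ * D.rho x * (1.005 * ‖ξ‖) :=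
      mul_le_mul_of_nonneg_left hYn (by positivity)
    have h3 : 0 ≤ Λ * ‖ξ‖ * D.rho x := by positivity
    nlinarith
  have t3 : |fderiv ℝ D.Gam x Y ν ν / (2 * N)| ≤ 0.6 * (Λ * ‖ξ‖) := by
    have h2N : 0 < 2 * N := by linarith
    rw [abs_div, abs_of_pos h2N, div_le_iff₀ h2N]
    have := hD.dGam x hx Y ν ν
    rw [hν, mul_one, mul_one] at this
    have h2 : Λ * ‖Y‖ ≤ Λ * (1.005 * ‖ξ‖) := mul_le_mul_of_nonneg_left hYn hΛ0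
    nlinarith
  have t4 : |fderiv ℝ D.Gam x b ξ ν / N| ≤ 1.1 * (Λ * ‖ξ‖) := by
    have hN0 : 0 < N := by linarith
    rw [abs_div, abs_of_pos hN0, div_le_iff₀ hN0]
    have := hD.dGam x hx b ξ ν
    rw [hν, mul_one] at this
    have h2 : Λ * ‖b‖ * ‖ξ‖ ≤ Λ * 1.005 * ‖ξ‖ :=
      mul_le_mul_of_nonneg_right (mul_le_mul_of_nonneg_left hbn hΛ0) hξ0
    nlinarith
  have e : D.lo z L κ x ν = ∑ i : Fin m, fderiv ℝ D.Gam x (eb i) ξ (eb i) +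
    fderiv ℝ D.rho x Y / D.rho x + fderiv ℝ D.Gam x Y ν ν / (2 * N) -
    fderiv ℝ D.Gam x b ξ ν / N := rfl
  rw [e]
  rw [abs_le] at t1 t2 t3 t4 ⊢
  constructor <;> nlinarith [t1.1, t1.2, t2.1, t2.2, t3.1, t3.2, t4.1, t4.2]

/-- **pointwise lower bound on the wall**. -/
theorem sc_pw_wall (hm : 8 ≤ m) : ∃ τ₀ c₀ : ℝ, 0 < τ₀ ∧ τ₀ ≤ 0.005 ∧ 0 < c₀ ∧ c₀ ≤ 0.09 ∧
    ∀ (D : ScCh m) (G : Set (E m)) (τ Λ ζ₀ : ℝ), D.Ok G τ Λ → τ ≤ τ₀ → 0 < ζ₀ → Λ * ζ₀ ≤ c₀ →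
    ∀ (z : E m) (L : Submodule ℝ (E m)) (κ : ℝ), Module.finrank ℝ L ≤ m - 8 → 0 < κ →
    ∀ x ∈ G, scZ2 z L κ x ≤ ζ₀ ^ 2 → ∀ ν : E m, ‖ν‖ = 1 →
      4.5 * (D.rho x * Real.sqrt (D.Gam x ν ν)) * (scZ2 z L κ x)⁻¹ ≤
        Gmt.gmtFv1 D.A (D.Y z L κ) x ν := by
  have hm8 : (8 : ℝ) ≤ m := by exact_mod_cast hm
  refine ⟨min 0.005 (0.25 / (m + 6)), 0.25 / (m + 3), lt_min (by norm_num) (by positivity),
    min_le_left _ _, by positivity, ?_, ?_⟩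
  · rw [div_le_iff₀ (by positivity)]; linarith
  intro D G τ Λ ζ₀ hD hτ hζ₀ hΛζ z L κ hL hκ x hx hq ν hν
  obtain ⟨hτ0, hΛ0⟩ := hD.nonneg hm hx
  have hxU := hD.sub hx
  have hρ := hD.rho_pos x hxU
  have hν0 : ν ≠ 0 := by
    intro h; rw [h, norm_zero] at hν; norm_num at hν
  have hτ1 : τ ≤ 0.005 := hτ.trans (min_le_left _ _)
  have hτ2 : (m + 6) * τ ≤ 0.25 := by
    have := hτ.trans (min_le_right _ _)
    rw [le_div_iff₀ (by positivity)] at this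
    linarith
  have hc2 : (m + 3) * (Λ * ζ₀) ≤ 0.25 := by
    rw [le_div_iff₀ (by positivity)] at hΛζ
    linarith
  have hs := hD.gam.symm x hxU
  have hc := hD.close x hx
  have hp := hD.gam.pos x hxU
  rw [sc_fv1_Y hD z L hκ hxU hν0]
  set q := scZ2 z L κ x with hqd
  have hq0 : 0 < q := scZ2_pos z L hκ x
  have hqi : 0 < q⁻¹ := by positivity
  set N := D.Gam x ν ν with hN
  have hN1 : 1 - τ ≤ N := by
    have := (abs_le.1 (hc ν)).1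
    rw [hν] at this
    linarith
  have hN0 : 0 < N := by linarith
  have hn : 0 < Real.sqrt N := Real.sqrt_pos.2 hN0
  have hTr := scTr_ge hs hc hm hL
  have hP : ‖scPi L (Gmt.gmtSharp (D.Gam x) ν)‖ ^ 2 / N ≤ 1 + 4 * τ := by
    rw [div_le_iff₀ hN0]
    have h1 := scPi_norm_le L (Gmt.gmtSharp (D.Gam x) ν)
    have h2 := sc_sharp_norm_le hs hc ν
    rw [hν, mul_one] at h2
    have h3 : ‖scPi L (Gmt.gmtSharp (D.Gam x) ν)‖ ^ 2 ≤ (1 + τ) ^ 2 :=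
      pow_le_pow_left₀ (norm_nonneg _) (h1.trans h2) 2
    nlinarith
  have hQ : q⁻¹ ^ 2 * scQw (D.Gam x) ν (scPi L (x - z)) ≤ (1 + τ) * q⁻¹ := by
    have h1 := (scQb_sq_le hs hp hν0 (scPi L (x - z)) (scPi L (x - z))).2.2
    have h2 := (abs_le.1 (hc (scPi L (x - z)))).2
    have h3 := scPi_sq_le z L κ x
    have h4 : scQw (D.Gam x) ν (scPi L (x - z)) ≤ (1 + τ) * q := by nlinarith
    calc q⁻¹ ^ 2 * scQw (D.Gam x) ν (scPi L (x - z)) ≤ q⁻¹ ^ 2 * ((1 + τ) * q) :=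
          mul_le_mul_of_nonneg_left h4 (by positivity)
      _ = (1 + τ) * q⁻¹ := by field_simp
  have hlo : -(0.25 * q⁻¹) ≤ D.lo z L κ x ν := by
    have h1 := (abs_le.1 (ScCh.lo_bound hD hm hτ1 z L κ hx hν)).1
    have h2 := scXi_norm_le z L hκ x hζ₀ hq
    have h3 : (m + 3) * Λ * ‖scXi z L κ x‖ ≤ (m + 3) * Λ * (ζ₀ * q⁻¹) :=
      mul_le_mul_of_nonneg_left h2 (by positivity)
    have h4 : (m + 3) * Λ * (ζ₀ * q⁻¹) = (m + 3) * (Λ * ζ₀) * q⁻¹ := by ring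
    have h5 : (m + 3) * (Λ * ζ₀) * q⁻¹ ≤ 0.25 * q⁻¹ := mul_le_mul_of_nonneg_right hc2 hqi.le
    linarith
  have hmain : 4.5 * q⁻¹ ≤ q⁻¹ * (scTr (D.Gam x) L -
      ‖scPi L (Gmt.gmtSharp (D.Gam x) ν)‖ ^ 2 / N) -
      2 * q⁻¹ ^ 2 * scQw (D.Gam x) ν (scPi L (x - z)) + D.lo z L κ x ν := by
    have h1 : q⁻¹ * (8 - m * τ - (1 + 4 * τ)) ≤ q⁻¹ * (scTr (D.Gam x) L -
      ‖scPi L (Gmt.gmtSharp (D.Gam x) ν)‖ ^ 2 / N) :=
      mul_le_mul_of_nonneg_left (by linarith) hqi.le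
    have h2 : ((m + 6) * τ) * q⁻¹ ≤ 0.25 * q⁻¹ := mul_le_mul_of_nonneg_right hτ2 hqi.le
    nlinarith
  have hρn : 0 < D.rho x * Real.sqrt N := by positivity
  calc 4.5 * (D.rho x * Real.sqrt N) * q⁻¹ = (D.rho x * Real.sqrt N) * (4.5 * q⁻¹) := by ring
    _ ≤ _ := mul_le_mul_of_nonneg_left hmain hρn.le


/-- product rule for the divergence. -/
theorem sc_div_smul {v : E m → ℝ} {X : E m → E m} {x : E m} (hv : DifferentiableAt ℝ v x)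
    (hX : DifferentiableAt ℝ X x) :
    Gmt.gmtDiv (fun y => v y • X y) x = v x * Gmt.gmtDiv X x + fderiv ℝ v x (X x) := by
  have hX' := hv.hasFDerivAt.fun_smul hX.hasFDerivAt
  unfold Gmt.gmtDiv
  rw [Finset.mul_sum, ← sc_sum_coord (fderiv ℝ v x) (X x), ← Finset.sum_add_distrib]
  refine Finset.sum_congr rfl fun i _ => ?_
  rw [hX'.fderiv, ← sc_coord]
  simp only [_root_.add_apply, _root_.smul_apply, ContinuousLinearMap.smulRight_apply,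
    PiLp.add_apply, PiLp.smul_apply, smul_eq_mul]
  ring

/-- **pointwise lower bound in the bulk**. -/
theorem sc_pw_bulk (hm : 8 ≤ m) : ∃ τ₀ c₀ : ℝ, 0 < τ₀ ∧ τ₀ ≤ 0.005 ∧ 0 < c₀ ∧ c₀ ≤ 0.09 ∧
    ∀ (D : ScCh m) (G : Set (E m)) (τ Λ ζ₀ : ℝ), D.Ok G τ Λ → τ ≤ τ₀ → 0 < ζ₀ → Λ * ζ₀ ≤ c₀ →
    ∀ (z : E m) (L : Submodule ℝ (E m)) (κ : ℝ), Module.finrank ℝ L ≤ m - 8 → 0 < κ →
    ∀ x ∈ G, scZ2 z L κ x ≤ ζ₀ ^ 2 →
      5.8 * D.rho x * (scZ2 z L κ x)⁻¹ ≤ Gmt.gmtDiv (fun y => D.rho y • D.Y z L κ y) x := by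
  have hm8 : (8 : ℝ) ≤ m := by exact_mod_cast hm
  refine ⟨min 0.005 (0.1 / (m + 2)), 0.1 / (m + 2), lt_min (by norm_num) (by positivity),
    min_le_left _ _, by positivity, ?_, ?_⟩
  · rw [div_le_iff₀ (by positivity)]; linarith
  intro D G τ Λ ζ₀ hD hτ hζ₀ hΛζ z L κ hL hκ x hx hq
  obtain ⟨hτ0, hΛ0⟩ := hD.nonneg hm hx
  have hxU := hD.sub hx
  have hρ := hD.rho_pos x hxU
  have hτ1 : τ ≤ 0.005 := hτ.trans (min_le_left _ _)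
  have hτ2 : (m + 2) * τ ≤ 0.1 := by
    have := hτ.trans (min_le_right _ _)
    rw [le_div_iff₀ (by positivity)] at this
    linarith
  have hc2 : (m + 2) * (Λ * ζ₀) ≤ 0.1 := by
    rw [le_div_iff₀ (by positivity)] at hΛζ
    linarith
  have hs := hD.gam.symm x hxU
  have hc := hD.close x hx
  have hdρ : DifferentiableAt ℝ D.rho x :=
    (hD.rho_s.contDiffAt (hD.opn.mem_nhds hxU)).differentiableAt (by simp)
  have hdY : DifferentiableAt ℝ (D.Y z L κ) x :=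
    ((ScCh.Y_contDiffOn hD z L hκ).contDiffAt (hD.opn.mem_nhds hxU)).differentiableAt (by simp)
  rw [sc_div_smul hdρ hdY, ScCh.Y_div hD z L hκ hxU]
  set q := scZ2 z L κ x with hqd
  have hq0 : 0 < q := scZ2_pos z L hκ x
  have hqi : 0 < q⁻¹ := by positivity
  have hTr := scTr_ge hs hc hm hL
  have hξ := scXi_norm_le z L hκ x hζ₀ hq
  have hξ0 : 0 ≤ ‖scXi z L κ x‖ := norm_nonneg _
  have hΛξ : Λ * ‖scXi z L κ x‖ ≤ (Λ * ζ₀) * q⁻¹ := by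
    calc Λ * ‖scXi z L κ x‖ ≤ Λ * (ζ₀ * q⁻¹) := mul_le_mul_of_nonneg_left hξ hΛ0
      _ = _ := by ring
  have hΛξ0 : 0 ≤ Λ * ‖scXi z L κ x‖ := by positivity
  have t1 := (abs_le.1 (sc_T1_bound hD hx (scXi z L κ x))).1
  have t2 : -(1.005 * (Λ * ‖scXi z L κ x‖) * D.rho x) ≤ fderiv ℝ D.rho x (D.Y z L κ x) := by
    have h1 := (abs_le.1 (sc_dRho_bound hD hx (D.Y z L κ x))).1
    have h2 := sc_Y_norm_le hD hx z L κ
    have h3 : ‖D.Y z L κ x‖ ≤ 1.005 * ‖scXi z L κ x‖ := by nlinarith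
    have h4 : Λ * D.rho x * ‖D.Y z L κ x‖ ≤ Λ * D.rho x * (1.005 * ‖scXi z L κ x‖) :=
      mul_le_mul_of_nonneg_left h3 (by positivity)
    nlinarith
  have hQ : q⁻¹ ^ 2 * D.Gam x (scPi L (x - z)) (scPi L (x - z)) ≤ (1 + τ) * q⁻¹ := by
    have h2 := (abs_le.1 (hc (scPi L (x - z)))).2
    have h3 := scPi_sq_le z L κ x
    have h4 : D.Gam x (scPi L (x - z)) (scPi L (x - z)) ≤ (1 + τ) * q := by nlinarith
    calc q⁻¹ ^ 2 * D.Gam x (scPi L (x - z)) (scPi L (x - z)) ≤ q⁻¹ ^ 2 * ((1 + τ) * q) :=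
          mul_le_mul_of_nonneg_left h4 (by positivity)
      _ = (1 + τ) * q⁻¹ := by field_simp
  have hmain : 5.8 * q⁻¹ + 1.005 * (Λ * ‖scXi z L κ x‖) ≤
      ∑ i : Fin m, fderiv ℝ D.Gam x (eb i) (scXi z L κ x) (eb i) +
      (q⁻¹ * scTr (D.Gam x) L - 2 * q⁻¹ ^ 2 * D.Gam x (scPi L (x - z)) (scPi L (x - z))) := by
    have h1 : q⁻¹ * (8 - m * τ) ≤ q⁻¹ * scTr (D.Gam x) L := mul_le_mul_of_nonneg_left hTr hqi.le
    have h2 : ((m + 2) * τ) * q⁻¹ ≤ 0.1 * q⁻¹ := mul_le_mul_of_nonneg_right hτ2 hqi.le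
    have h3 : ((m + 2) * (Λ * ζ₀)) * q⁻¹ ≤ 0.1 * q⁻¹ := mul_le_mul_of_nonneg_right hc2 hqi.le
    have h4 : (m + 2) * (Λ * ‖scXi z L κ x‖) ≤ (m + 2) * ((Λ * ζ₀) * q⁻¹) :=
      mul_le_mul_of_nonneg_left hΛξ (by positivity)
    nlinarith
  have := mul_le_mul_of_nonneg_left hmain hρ.le
  nlinarith


end

end Claimed.Agent.R315
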