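import Claimed.Agent.R315.Sc.SideC

/-!
# Row 315, package Sc (P Appendix C.2), part 6: bulk, seam, cylinders; `D.spJ`, `D.spC` are `ScSp.Ok`.   Architect: helper257.   PACKAGE L-SC-SIDE.

1. `sc_bulk_box`: Gauss-Green (`Gmt.gmt_gauss_green`, `hS = gmt_lam_lf`) for `T = vb² • (rho • Y)` (`sc_test_field`):
   `div T = vb² div(rho Y) + 2 rho vb Gam(∇vb, ξ) ≥ 5.8 rho vb²/q - rho [Gam(∇vb,∇vb) + vb² Gam(ξ,ξ)]`, `Gam(ξ,ξ) ≤ 1.005/q`;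
   `⟪T,ν⟫ = vb² rho Gam(ξ,ν) ≤ vb² rho n √(Gam ξ ξ)`, so `∫ ⟪T,ν⟫ d|Dχ_S| ≤ 1.0025 ∫ vb² q^{-1/2} dμ`.
2. `sc_seam_1d`: `g(0)² = -∫_0^∞ (g²)' = -2∫ g g' ≤ ∫ (a g² + a⁻¹ g'²)` (`integral_Ioi_of_hasDerivAt_of_tendsto`, compact support).
3. `sc_cyl_box`: `sc_wall_box` for `w = vc(·,t)`, every `t`; integrate over `t ∈ I`; `integral_integral_swap` (integrands: bounded, measurable, vanishing off a compact subset of `U × ℝ`).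
4. `sc_spJ_ok`.  BOX: `.8 bulkE + 1.7 cylE ≥ .8·4.79 ∫_S rho vb²/q - .802 ∫ vb² q^{-1/2} dμ + 1.7·3.39 ∫∫ vc²/q + 1.7 ∫∫ (∂_t vc)²`; seam with `a = q^{-1/2}/2`:
   `vb² q^{-1/2} = vc(x,0)² q^{-1/2} ≤ ∫_0^∞ (vc²/(2q) + 2 (∂_t vc)²)`; `.802·2 ≤ 1.7`, `1.7·3.39 - .401 ≥ 3.8`, `.8·4.79 ≥ 3.8`.
   "lives in `G`" for `μ`-a.e. `x` with `vb x ≠ 0`: then `vc(x,0) ≠ 0`, so `∫_0^∞ vc(x,t)² dt > 0` (continuity) and `x` is seen by `cylM`.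
   IMS: pointwise identities as on the wall (`χ` does not depend on `t`), `.8·1.005 ≤ 1.71`, `1.7·1.005 ≤ 1.71`.
5. `sc_spC_ok`: the same without bulk.
6. `ScCh.Ok.co`: `Gmt.gmt_lam_compl`.  `D.co.mu = D.mu`, `D.co.nu = -D.nu` a.e. (`gmtPerM A Sᶜ = gmtPerM A S` on `U`: from `gmtPer` and `∫_{Sᶜ} div T = -∫_S div T`), `scQw` is even in `ν`.
-/

set_option autoImplicit false
open scoped ContDiff Topology ENNReal RealInnerProductSpace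
open MeasureTheory Set Metric

namespace Claimed.Agent.R315

noncomputable section

variable {m : ℕ} {D : ScCh m} {G : Set (E m)} {τ Λ : ℝ}

/-- **the bulk inequality with its boundary term**. -/
theorem sc_bulk_box (hm : 8 ≤ m) : ∃ τ₀ c₀ : ℝ, 0 < τ₀ ∧ τ₀ ≤ 0.005 ∧ 0 < c₀ ∧
    ∀ (D : ScCh m) (G : Set (E m)) (τ Λ ζ₀ : ℝ), D.Ok G τ Λ → τ ≤ τ₀ → 0 < ζ₀ → Λ * ζ₀ ≤ c₀ →
    ∀ (z : E m) (L : Submodule ℝ (E m)) (κ : ℝ), Module.finrank ℝ L ≤ m - 8 → 0 < κ →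
    ∀ vb : E m → ℝ, ScTw D.U vb →
      (∀ᵐ x ∂(volume.restrict (D.S ∩ D.U)), vb x ≠ 0 → x ∈ G ∧ scZ2 z L κ x ≤ ζ₀ ^ 2) →
      (∀ᵐ x ∂D.mu, vb x ≠ 0 → x ∈ G) →
      4.79 * ∫ x in D.S ∩ D.U, vb x ^ 2 * D.rho x * (scZ2 z L κ x)⁻¹ ≤
        D.bulkE vb + 1.0025 * ∫ x, vb x ^ 2 * (Real.sqrt (scZ2 z L κ x))⁻¹ ∂D.mu := by
  obtain ⟨τ₀, c₀, hτ₀, hτ₀', hc₀, -, H⟩ := sc_pw_bulk hm
  refine ⟨τ₀, c₀, hτ₀, hτ₀', hc₀, ?_⟩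
  intro D G τ Λ ζ₀ hD hτ hζ hΛ z L κ hL hκ vb hvb hb1 hb2
  exact sc_sd_bulk_box_aux hD (hτ.trans hτ₀') hκ hvb (H D G τ Λ ζ₀ hD hτ hζ hΛ z L κ hL hκ) hb1 hb2

/-- the one dimensional trace inequality. -/
theorem sc_seam_1d {g : ℝ → ℝ} (hg : ContDiff ℝ 1 g) (hc : HasCompactSupport g) {a : ℝ} (ha : 0 < a) :
    g 0 ^ 2 ≤ ∫ t in Ioi (0 : ℝ), (a * g t ^ 2 + a⁻¹ * deriv g t ^ 2) := by
  exact sc_sd_seam_1d hg hc ha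

/-- slices of cylinder tests are wall tests. -/
theorem ScTc.slice {U : Set (E m)} {vc : E m × ℝ → ℝ} (h : ScTc U vc) (t : ℝ) :
    ScTw U (fun x => vc (x, t)) := by
  exact sc_sd_slice h t

/-- integrability on the cylinder and Fubini. -/
theorem sc_cyl_swap (hD : D.Ok G τ Λ) {g : E m × ℝ → ℝ} (hg : Measurable g) {C : ℝ}
    (hC : ∀ y, |g y| ≤ C) {K : Set (E m × ℝ)} (hK : IsCompact K) (hKU : K ⊆ D.U ×ˢ univ)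
    (h0 : ∀ y, y ∉ K → g y = 0) (I : Set ℝ) (hI : MeasurableSet I) :
    Integrable (fun x => ∫ t in I, g (x, t)) D.mu ∧
      ∫ x, (∫ t in I, g (x, t)) ∂D.mu = ∫ t in I, (∫ x, g (x, t) ∂D.mu) := by
  have := sc_sd_sigmaFinite hD
  have h := sc_sd_int_prod hD I hg.aestronglyMeasurable hK hKU (fun y _ => hC y) h0
  exact ⟨h.integral_prod_left, sc_sd_swap hD h⟩

/-- the box inequality on cylinders. -/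
theorem sc_cyl_box (hm : 8 ≤ m) : ∃ τ₀ c₀ : ℝ, 0 < τ₀ ∧ τ₀ ≤ 0.005 ∧ 0 < c₀ ∧
    ∀ (D : ScCh m) (G : Set (E m)) (τ Λ ζ₀ : ℝ), D.Ok G τ Λ → τ ≤ τ₀ → 0 < ζ₀ → Λ * ζ₀ ≤ c₀ →
    ∀ (z : E m) (L : Submodule ℝ (E m)) (κ : ℝ), Module.finrank ℝ L ≤ m - 8 → 0 < κ →
    ∀ (I : Set ℝ), MeasurableSet I → ∀ vc : E m × ℝ → ℝ, ScTc D.U vc →
      (∀ᵐ x ∂D.mu, (∃ t ∈ I, vc (x, t) ≠ 0) → x ∈ G ∧ scZ2 z L κ x ≤ ζ₀ ^ 2) →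
      3.39 * ∫ x, (∫ t in I, vc (x, t) ^ 2) * (scZ2 z L κ x)⁻¹ ∂D.mu ≤
        ∫ x, (∫ t in I, scQw (D.Gam x) (D.nu x) (scGx vc x t)) ∂D.mu := by
  obtain ⟨τ₀, c₀, hτ₀, hτ₀', hc₀, H⟩ := sc_wall_box hm
  refine ⟨τ₀, c₀, hτ₀, hτ₀', hc₀, ?_⟩
  intro D G τ Λ ζ₀ hD hτ hζ hΛ z L κ hL hκ I hI vc hvc hG
  exact sc_sd_cyl_box_aux hD hκ hI hvc (H D G τ Λ ζ₀ hD hτ hζ hΛ z L κ hL hκ) hG

theorem sc_sd_near_zero {vc : E m × ℝ → ℝ} (hc : Continuous vc) {x : E m} (h : vc (x, 0) ≠ 0) :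
    ∃ t ∈ Ioi (0 : ℝ), vc (x, t) ≠ 0 := by
  have ho : IsOpen {t : ℝ | vc (x, t) ≠ 0} :=
    isOpen_ne_fun (hc.comp (continuous_const.prodMk continuous_id)) continuous_const
  obtain ⟨ε, hε, hb⟩ := Metric.isOpen_iff.1 ho 0 h
  refine ⟨ε / 2, by simpa using hε, hb ?_⟩
  rw [mem_ball_zero_iff, Real.norm_eq_abs, abs_of_pos (by positivity)]
  linarith

/-- **the joined side satisfies the axioms**. -/
theorem sc_spJ_ok (hm : 8 ≤ m) : ∃ τ₀ c₀ : ℝ, 0 < τ₀ ∧ τ₀ ≤ 0.005 ∧ 0 < c₀ ∧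
    ∀ (D : ScCh m) (G : Set (E m)) (τ Λ ζ₀ : ℝ), D.Ok G τ Λ → τ ≤ τ₀ → 0 < ζ₀ → Λ * ζ₀ ≤ c₀ →
      D.spJ.Ok G ζ₀ := by
  obtain ⟨τ₁, c₁, hτ₁, hτ₁', hc₁, H₁⟩ := sc_bulk_box hm
  obtain ⟨τ₂, c₂, hτ₂, -, hc₂, H₂⟩ := sc_cyl_box hm
  refine ⟨min τ₁ τ₂, min c₁ c₂, lt_min hτ₁ hτ₂, (min_le_left _ _).trans hτ₁', lt_min hc₁ hc₂, ?_⟩
  intro D G τ Λ ζ₀ hD hτ hζ hΛ
  have hτ5 : τ ≤ 0.005 := hτ.trans ((min_le_left _ _).trans hτ₁')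
  have hmul : ∀ (v : D.spJ.T) {χ : E m → ℝ} (h : ContDiff ℝ ∞ χ), D.spJ.mul χ v =
      ⟨(fun x => χ x * v.1.1 x, fun y => χ y.1 * v.1.2 y), v.2.mul h⟩ := fun v χ h => dif_pos h
  refine ⟨fun v => ?_, fun v => ?_, fun v => ?_, fun v χ hχ => ?_,
    fun v ι s χ hG hχ hsum => ?_, fun v z L κ hL hκ hG => ?_⟩
  · exact add_nonneg (mul_nonneg (by norm_num) (sc_sd_bulkE_nonneg hD v.1.1))
      (mul_nonneg (by norm_num) (sc_sd_cylE_nonneg hD (Ioi 0) v.1.2))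
  · have := sc_sd_bulkM_fin hD v.2.b
    have := sc_sd_cylM_fin hD (Ioi 0) v.2.c
    show IsFiniteMeasure (D.bulkM v.1.1 + D.cylM (Ioi 0) v.1.2)
    infer_instance
  · obtain ⟨R₁, hR₁⟩ := sc_sd_bulkM_bdd v.2.b
    obtain ⟨R₂, hR₂⟩ := sc_sd_cylM_bdd (Ioi 0) v.2.c
    refine ⟨max R₁ R₂, ?_⟩
    show (D.bulkM v.1.1 + D.cylM (Ioi 0) v.1.2) _ = 0
    rw [Measure.add_apply, hR₁ _ (le_max_left _ _), hR₂ _ (le_max_right _ _), add_zero]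
  · rw [hmul v hχ]
    show D.bulkM (fun x => χ x * v.1.1 x) + D.cylM (Ioi 0) (fun y => χ y.1 * v.1.2 y) =
      (D.bulkM v.1.1 + D.cylM (Ioi 0) v.1.2).withDensity _
    rw [withDensity_add_measure, sc_sd_bulkM_mul hD v.2.b hχ, sc_sd_cylM_mul (Ioi 0) v.2.c hχ]
  · have hG2 : (∀ᵐ x ∂(D.bulkM v.1.1), x ∈ G) ∧ ∀ᵐ x ∂(D.cylM (Ioi 0) v.1.2), x ∈ G :=
      ae_add_measure_iff.1 hG
    have hc := sc_sd_chi_cont s χ hχ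
    have h1 := sc_sd_bulk_ims hD hτ5 v.2.b (sc_sd_bulkM_ae hD v.2.b hG2.1) s χ hχ hsum
    have h2 := sc_sd_cyl_ims hD hτ5 measurableSet_Ioi v.2.c
      (sc_sd_cylM_ae isOpen_Ioi v.2.c hG2.2) s χ hχ hsum
    have h3 : ∑ i ∈ s, D.spJ.N (D.spJ.mul (χ i) v) =
        0.8 * ∑ i ∈ s, D.bulkE (fun x => χ i x * v.1.1 x) +
        1.7 * ∑ i ∈ s, D.cylE (Ioi 0) (fun y => χ i y.1 * v.1.2 y) := by
      rw [Finset.mul_sum, Finset.mul_sum, ← Finset.sum_add_distrib]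
      exact Finset.sum_congr rfl fun i hi => by rw [hmul v (hχ i hi)]; rfl
    have h4 : ∫ x, ∑ i ∈ s, ‖fderiv ℝ (χ i) x‖ ^ 2 ∂(D.spJ.ms v) =
        (∫ x in D.S ∩ D.U, v.1.1 x ^ 2 * D.rho x * (∑ i ∈ s, ‖fderiv ℝ (χ i) x‖ ^ 2)) +
        ∫ x, (∫ t in Ioi (0 : ℝ), v.1.2 (x, t) ^ 2) * (∑ i ∈ s, ‖fderiv ℝ (χ i) x‖ ^ 2) ∂D.mu := by
      rw [← sc_sd_bulkM_integral hD v.2.b, ← sc_sd_cylM_integral (Ioi 0) v.2.c]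
      exact integral_add_measure (sc_sd_bulkM_integrable hD v.2.b hc)
        (sc_sd_cylM_integrable hD (Ioi 0) v.2.c hc)
    have h5 : 0 ≤ ∫ x in D.S ∩ D.U,
        v.1.1 x ^ 2 * D.rho x * (∑ i ∈ s, ‖fderiv ℝ (χ i) x‖ ^ 2) :=
      setIntegral_nonneg (sc_sd_bulk_ms hD) fun x hx =>
        mul_nonneg (mul_nonneg (sq_nonneg _) (hD.rho_pos x hx.2).le)
          (Finset.sum_nonneg fun _ _ => sq_nonneg _)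
    have h6 : 0 ≤ ∫ x, (∫ t in Ioi (0 : ℝ), v.1.2 (x, t) ^ 2) *
        (∑ i ∈ s, ‖fderiv ℝ (χ i) x‖ ^ 2) ∂D.mu :=
      integral_nonneg fun x => mul_nonneg (integral_nonneg fun _ => sq_nonneg _)
        (Finset.sum_nonneg fun _ _ => sq_nonneg _)
    rw [h3, h4]
    show _ ≤ 0.8 * D.bulkE v.1.1 + 1.7 * D.cylE (Ioi 0) v.1.2 + _
    linarith
  · have hG2 : (∀ᵐ x ∂(D.bulkM v.1.1), x ∈ G ∧ scZ2 z L κ x ≤ ζ₀ ^ 2) ∧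
        ∀ᵐ x ∂(D.cylM (Ioi 0) v.1.2), x ∈ G ∧ scZ2 z L κ x ≤ ζ₀ ^ 2 := ae_add_measure_iff.1 hG
    have hc := sc_sd_inv_cont z L hκ
    have hGb := sc_sd_bulkM_ae hD v.2.b hG2.1
    have hGc := sc_sd_cylM_ae isOpen_Ioi v.2.c hG2.2
    have hGs : ∀ᵐ x ∂D.mu, v.1.1 x ≠ 0 → x ∈ G := by
      filter_upwards [hGc, v.2.seam] with x hx hs hv
      exact (hx (sc_sd_near_zero v.2.c.smooth.continuous (by rw [hs]; exact hv))).1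
    have b1 := H₁ D G τ Λ ζ₀ hD (hτ.trans (min_le_left _ _)) hζ (hΛ.trans (min_le_left _ _))
      z L κ hL hκ v.1.1 v.2.b hGb hGs
    have c1 := H₂ D G τ Λ ζ₀ hD (hτ.trans (min_le_right _ _)) hζ (hΛ.trans (min_le_right _ _))
      z L κ hL hκ (Ioi 0) measurableSet_Ioi v.1.2 v.2.c hGc
    have s1 := sc_sd_seam hD v.2 z L hκ
    have e1 := sc_sd_cylE_eq hD (Ioi 0) v.2.c
    have t1 := sc_sd_cylT_nonneg D (Ioi 0) v.1.2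
    have h4 : ∫ x, (scZ2 z L κ x)⁻¹ ∂(D.spJ.ms v) =
        (∫ x in D.S ∩ D.U, v.1.1 x ^ 2 * D.rho x * (scZ2 z L κ x)⁻¹) +
        ∫ x, (∫ t in Ioi (0 : ℝ), v.1.2 (x, t) ^ 2) * (scZ2 z L κ x)⁻¹ ∂D.mu := by
      rw [← sc_sd_bulkM_integral hD v.2.b, ← sc_sd_cylM_integral (Ioi 0) v.2.c]
      exact integral_add_measure (sc_sd_bulkM_integrable hD v.2.b hc)
        (sc_sd_cylM_integrable hD (Ioi 0) v.2.c hc)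
    have h5 : 0 ≤ ∫ x in D.S ∩ D.U, v.1.1 x ^ 2 * D.rho x * (scZ2 z L κ x)⁻¹ :=
      setIntegral_nonneg (sc_sd_bulk_ms hD) fun x hx =>
        mul_nonneg (mul_nonneg (sq_nonneg _) (hD.rho_pos x hx.2).le)
          (inv_pos.2 (scZ2_pos z L hκ x)).le
    have h6 : 0 ≤ ∫ x, (∫ t in Ioi (0 : ℝ), v.1.2 (x, t) ^ 2) * (scZ2 z L κ x)⁻¹ ∂D.mu :=
      integral_nonneg fun x => mul_nonneg (integral_nonneg fun _ => sq_nonneg _)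
        (inv_pos.2 (scZ2_pos z L hκ x)).le
    rw [h4]
    show _ ≤ 0.8 * D.bulkE v.1.1 + 1.7 * D.cylE (Ioi 0) v.1.2
    linarith

/-- **the full cylinder satisfies the axioms**. -/
theorem sc_spC_ok (hm : 8 ≤ m) : ∃ τ₀ c₀ : ℝ, 0 < τ₀ ∧ τ₀ ≤ 0.005 ∧ 0 < c₀ ∧
    ∀ (D : ScCh m) (G : Set (E m)) (τ Λ ζ₀ : ℝ), D.Ok G τ Λ → τ ≤ τ₀ → 0 < ζ₀ → Λ * ζ₀ ≤ c₀ →
      D.spC.Ok G ζ₀ := by
  obtain ⟨τ₀, c₀, hτ₀, hτ₀', hc₀, H⟩ := sc_cyl_box hm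
  refine ⟨τ₀, c₀, hτ₀, hτ₀', hc₀, ?_⟩
  intro D G τ Λ ζ₀ hD hτ hζ hΛ
  have hτ5 : τ ≤ 0.005 := hτ.trans hτ₀'
  have hmul : ∀ (v : D.spC.T) {χ : E m → ℝ} (h : ContDiff ℝ ∞ χ), D.spC.mul χ v =
      ⟨fun y => χ y.1 * v.1 y, v.2.mul h⟩ := fun v χ h => dif_pos h
  refine ⟨fun v => ?_, fun v => ?_, fun v => ?_, fun v χ hχ => ?_,
    fun v ι s χ hG hχ hsum => ?_, fun v z L κ hL hκ hG => ?_⟩
  · exact mul_nonneg (by norm_num) (sc_sd_cylE_nonneg hD univ v.1)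
  · exact sc_sd_cylM_fin hD univ v.2
  · obtain ⟨R, hR⟩ := sc_sd_cylM_bdd univ v.2
    exact ⟨R, hR R le_rfl⟩
  · rw [hmul v hχ]
    exact sc_sd_cylM_mul univ v.2 hχ
  · have h2 := sc_sd_cyl_ims hD hτ5 MeasurableSet.univ v.2
      (sc_sd_cylM_ae isOpen_univ v.2 hG) s χ hχ hsum
    have h3 : ∑ i ∈ s, D.spC.N (D.spC.mul (χ i) v) =
        1.7 * ∑ i ∈ s, D.cylE univ (fun y => χ i y.1 * v.1 y) := by
      rw [Finset.mul_sum]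
      exact Finset.sum_congr rfl fun i hi => by rw [hmul v (hχ i hi)]; rfl
    have h4 : ∫ x, ∑ i ∈ s, ‖fderiv ℝ (χ i) x‖ ^ 2 ∂(D.spC.ms v) =
        ∫ x, (∫ t in univ, v.1 (x, t) ^ 2) * (∑ i ∈ s, ‖fderiv ℝ (χ i) x‖ ^ 2) ∂D.mu :=
      sc_sd_cylM_integral univ v.2 _
    have h6 : 0 ≤ ∫ x, (∫ t in univ, v.1 (x, t) ^ 2) *
        (∑ i ∈ s, ‖fderiv ℝ (χ i) x‖ ^ 2) ∂D.mu :=
      integral_nonneg fun x => mul_nonneg (integral_nonneg fun _ => sq_nonneg _)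
        (Finset.sum_nonneg fun _ _ => sq_nonneg _)
    rw [h3, h4]
    show _ ≤ 1.7 * D.cylE univ v.1 + _
    linarith
  · have c1 := H D G τ Λ ζ₀ hD hτ hζ hΛ z L κ hL hκ univ MeasurableSet.univ v.1 v.2
      (sc_sd_cylM_ae isOpen_univ v.2 hG)
    have e1 := sc_sd_cylE_eq hD univ v.2
    have t1 := sc_sd_cylT_nonneg D univ v.1
    have h4 : ∫ x, (scZ2 z L κ x)⁻¹ ∂(D.spC.ms v) =
        ∫ x, (∫ t in univ, v.1 (x, t) ^ 2) * (scZ2 z L κ x)⁻¹ ∂D.mu :=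
      sc_sd_cylM_integral univ v.2 _
    have h6 : 0 ≤ ∫ x, (∫ t in univ, v.1 (x, t) ^ 2) * (scZ2 z L κ x)⁻¹ ∂D.mu :=
      integral_nonneg fun x => mul_nonneg (integral_nonneg fun _ => sq_nonneg _)
        (inv_pos.2 (scZ2_pos z L hκ x)).le
    rw [h4]
    show _ ≤ 1.7 * D.cylE univ v.1
    linarith

/-- the other side. -/
theorem ScCh.Ok.co (hD : D.Ok G τ Λ) : D.co.Ok G τ Λ ∧ D.co.mu = D.mu ∧
    ∀ᵐ x ∂D.mu, D.co.nu x = -D.nu x := by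
  have hS := hD.lam.meas
  have hper : Gmt.gmtPerM D.A D.Sᶜ = Gmt.gmtPerM D.A D.S := by
    refine Gmt.gmtPerM_unique ⟨(Gmt.gmtPerM_spec _ D.Sᶜ).1, fun U hU => ?_⟩
    rw [← Gmt.gmtPer_compl _ hS U]
    exact Gmt.gmtPerM_open _ D.Sᶜ hU
  refine ⟨⟨hD.opn, hD.rho_s, hD.rho_pos, hD.gam, hD.p_s.neg, ?_, hD.sub, hD.close, hD.dGam,
    hD.dRho, fun x hx => ?_⟩, ?_, ?_⟩
  · have h := Gmt.gmt_lam_compl hD.data hD.lam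
    have e : D.co.f = fun x => -D.f x := funext fun x => neg_mul _ _
    show Gmt.GmtLAM D.A D.co.f D.U D.Sᶜ
    rw [e]
    exact h
  · show |-(D.p x)| ≤ Λ
    rw [abs_neg]
    exact hD.pB x hx
  · show (Gmt.gmtPerM D.A D.Sᶜ).restrict D.U = _
    rw [hper]
    rfl
  · have h := Gmt.gmtNu_compl hD.opn (Gmt.gmt_lam_lf hD.data hD.lam)
    rw [hD.mu_eq]
    exact (withDensity_absolutelyContinuous _ _).ae_le h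

end

end Claimed.Agent.R315
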