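import Claimed.Agent.R315.Sc.Wall

/-!
# Row 315, package Sc, L-SC-SIDE (helper199), part A: measure theoretic tools and the bulk   (prefix `sc_sd_`)

The data `D.Gam`, `D.rho`, `D.p` are arbitrary off `D.U`: all measurability statements are a.e. statements for measures restricted to `D.U`.
-/

set_option autoImplicit false
open scoped ContDiff Topology ENNReal RealInnerProductSpace
open MeasureTheory Set Metric

namespace Claimed.Agent.R315

noncomputable section

variable {m : ℕ} {D : ScCh m} {G : Set (E m)} {τ Λ : ℝ}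

/-! ### the measure `D.mu` -/

theorem sc_sd_mu_compact (hD : D.Ok G τ Λ) {K : Set (E m)} (hK : IsCompact K) (hKU : K ⊆ D.U) :
    D.mu K < ⊤ := by
  have h := sc_int_mu hD (g := K.indicator fun _ => (1 : ℝ))
    (measurable_const.indicator hK.measurableSet) (C := 1)
    (fun x => by by_cases hx : x ∈ K <;> simp [hx]) hK hKU (fun x hx => by simp [hx])
  rw [integrable_indicator_iff hK.measurableSet, integrableOn_const_iff] at h
  simpa using h

theorem sc_sd_mu_compl (D : ScCh m) (hU : IsOpen D.U) : D.mu D.Uᶜ = 0 := by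
  unfold ScCh.mu
  rw [Measure.restrict_apply hU.measurableSet.compl, compl_inter_self, measure_empty]

theorem sc_sd_ae_mem (D : ScCh m) (hU : IsOpen D.U) : ∀ᵐ x ∂D.mu, x ∈ D.U :=
  ae_restrict_mem hU.measurableSet

theorem sc_sd_sigmaFinite (hD : D.Ok G τ Λ) : SigmaFinite D.mu := by
  obtain ⟨K, hK, hKU, -, hun⟩ := Gmt.gmt_exists_exhaustion hD.opn
  refine ⟨⟨⟨fun n => K n ∪ D.Uᶜ, fun _ => trivial, fun n => ?_, ?_⟩⟩⟩
  · refine (measure_union_le _ _).trans_lt ?_
    rw [sc_sd_mu_compl D hD.opn, add_zero]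
    exact sc_sd_mu_compact hD (hK n) (hKU n)
  · rw [← iUnion_union, hun, union_compl_self]

/-- integrability of a.e. bounded functions which vanish off a compact subset of `U`. -/
theorem sc_sd_int (hD : D.Ok G τ Λ) {g : E m → ℝ} (hg : AEStronglyMeasurable g D.mu) {C : ℝ}
    {K : Set (E m)} (hK : IsCompact K) (hKU : K ⊆ D.U) (hC : ∀ᵐ x ∂D.mu, x ∈ K → |g x| ≤ C)
    (h0 : ∀ᵐ x ∂D.mu, x ∉ K → g x = 0) : Integrable g D.mu := by
  have h := sc_int_mu hD (g := K.indicator fun _ => |C|)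
    (measurable_const.indicator hK.measurableSet) (C := |C|)
    (fun x => by by_cases hx : x ∈ K <;> simp [hx]) hK hKU (fun x hx => by simp [hx])
  refine h.mono' hg ?_
  filter_upwards [hC, h0] with x h1 h2
  by_cases hx : x ∈ K
  · rw [indicator_of_mem hx, Real.norm_eq_abs]
    exact (h1 hx).trans (le_abs_self C)
  · rw [indicator_of_notMem hx, h2 hx, norm_zero]

/-! ### measurability on `U` -/

theorem sc_sd_aesm_gam (hD : D.Ok G τ Λ) (κ : Measure (E m)) :
    AEStronglyMeasurable D.Gam (κ.restrict D.U) :=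
  hD.gam.smooth.continuousOn.aestronglyMeasurable hD.opn.measurableSet

theorem sc_sd_aesm_clm_apply {α X F : Type*} [MeasurableSpace α] {μ : Measure α}
    [NormedAddCommGroup X] [NormedSpace ℝ X] [NormedAddCommGroup F] [NormedSpace ℝ F]
    {φ : α → X →L[ℝ] F} {v : α → X} (hφ : AEStronglyMeasurable φ μ)
    (hv : AEStronglyMeasurable v μ) : AEStronglyMeasurable (fun x => φ x (v x)) μ := by
  have := ContinuousLinearMap.aestronglyMeasurable_comp₂
    (ContinuousLinearMap.id ℝ (X →L[ℝ] F)) hφ hv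
  simpa using this

theorem sc_sd_aesm_bil (hD : D.Ok G τ Λ) (κ : Measure (E m)) {a b : E m → E m}
    (ha : AEStronglyMeasurable a (κ.restrict D.U)) (hb : AEStronglyMeasurable b (κ.restrict D.U)) :
    AEStronglyMeasurable (fun x => D.Gam x (a x) (b x)) (κ.restrict D.U) := by
  exact sc_sd_aesm_clm_apply (sc_sd_aesm_clm_apply (sc_sd_aesm_gam hD κ) ha) hb

theorem sc_sd_aesm_rho (hD : D.Ok G τ Λ) (κ : Measure (E m)) :
    AEStronglyMeasurable D.rho (κ.restrict D.U) :=
  hD.rho_s.continuousOn.aestronglyMeasurable hD.opn.measurableSet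

theorem sc_sd_aesm_nu (D : ScCh m) (κ : Measure (E m)) : AEStronglyMeasurable D.nu κ :=
  (Gmt.measurable_gmtNu D.S).aestronglyMeasurable

theorem sc_sd_aesm_qw (hD : D.Ok G τ Λ) (κ : Measure (E m)) {a : E m → E m}
    (ha : AEStronglyMeasurable a (κ.restrict D.U)) :
    AEStronglyMeasurable (fun x => scQw (D.Gam x) (D.nu x) (a x)) (κ.restrict D.U) := by
  unfold scQw
  have hν := sc_sd_aesm_nu D (κ.restrict D.U)
  exact (sc_sd_aesm_bil hD κ ha ha).sub
    ((((sc_sd_aesm_bil hD κ ha hν).aemeasurable.pow_const 2).div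
      (sc_sd_aesm_bil hD κ hν hν).aemeasurable).aestronglyMeasurable)

/-! ### pointwise facts on `U` -/

theorem ScCh.Ok.gam_nonneg (hD : D.Ok G τ Λ) {x : E m} (hx : x ∈ D.U) (ξ : E m) :
    0 ≤ D.Gam x ξ ξ := by
  by_cases h : ξ = 0
  · subst h; simp
  · exact (hD.gam.pos x hx ξ h).le

theorem sc_sd_qw_bounds (hD : D.Ok G τ Λ) {x : E m} (hx : x ∈ D.U) (ν ξ : E m) :
    0 ≤ scQw (D.Gam x) ν ξ ∧ scQw (D.Gam x) ν ξ ≤ D.Gam x ξ ξ := by
  by_cases hν : ν = 0
  · subst hν
    unfold scQw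
    simp only [map_zero, ne_eq, OfNat.ofNat_ne_zero, not_false_eq_true, zero_pow, div_zero,
      sub_zero, le_refl, and_true]
    exact hD.gam_nonneg hx ξ
  · exact (scQb_sq_le (hD.gam.symm x hx) (hD.gam.pos x hx) hν ξ ξ).2

theorem sc_sd_gam_le (hD : D.Ok G τ Λ) (hτ : τ ≤ 0.005) {x : E m} (hx : x ∈ G) (ξ : E m) :
    D.Gam x ξ ξ ≤ 1.005 * ‖ξ‖ ^ 2 := by
  have h := (abs_le.1 (hD.close x hx ξ)).2
  have h2 : τ * ‖ξ‖ ^ 2 ≤ 0.005 * ‖ξ‖ ^ 2 := mul_le_mul_of_nonneg_right hτ (sq_nonneg _)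
  linarith

/-- `Gam` is bounded on compact subsets of `U`. -/
theorem sc_sd_gam_bdd (hD : D.Ok G τ Λ) {K : Set (E m)} (hK : IsCompact K) (hKU : K ⊆ D.U) :
    ∃ C : ℝ, 0 ≤ C ∧ ∀ x ∈ K, ∀ ξ η : E m, |D.Gam x ξ η| ≤ C * ‖ξ‖ * ‖η‖ := by
  have hc : ContinuousOn D.Gam K := hD.gam.smooth.continuousOn.mono hKU
  obtain ⟨C, hC⟩ := IsCompact.exists_bound_of_continuousOn (f := D.Gam) hK hc
  refine ⟨max C 0, le_max_right _ _, fun x hx ξ η => ?_⟩
  have h1 : |D.Gam x ξ η| ≤ ‖D.Gam x‖ * ‖ξ‖ * ‖η‖ := by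
    rw [← Real.norm_eq_abs]
    exact (D.Gam x).le_opNorm₂ ξ η
  refine h1.trans ?_
  gcongr
  exact (hC x hx).trans (le_max_left _ _)

/-! ### integrability for the Lebesgue measure -/

theorem sc_sd_int_vol {U : Set (E m)} {f : E m → ℝ} (hf : ContinuousOn f U) {K : Set (E m)}
    (hK : IsCompact K) (hKU : K ⊆ U) (h0 : ∀ x, x ∉ K → f x = 0) : Integrable f volume :=
  ((hf.mono hKU).integrableOn_compact hK).integrable_of_forall_notMem_eq_zero h0

/-- monotonicity of the integral when only the (nonnegative) majorant is known to be integrable. -/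
theorem sc_sd_integral_le {α : Type*} [MeasurableSpace α] {μ : Measure α} {f g : α → ℝ}
    (hg : Integrable g μ) (h0 : ∀ᵐ x ∂μ, 0 ≤ g x) (hfg : ∀ᵐ x ∂μ, f x ≤ g x) :
    ∫ x, f x ∂μ ≤ ∫ x, g x ∂μ := by
  by_cases hf : Integrable f μ
  · exact integral_mono_ae hf hg hfg
  · rw [integral_undef hf]
    exact integral_nonneg_of_ae h0

/-! ### gradients -/

theorem sc_sd_grad_cont {w : E m → ℝ} (hw : ContDiff ℝ ∞ w) : Continuous (gradient w) := by
  show Continuous fun x => (InnerProductSpace.toDual ℝ (E m)).symm (fderiv ℝ w x)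
  exact (InnerProductSpace.toDual ℝ (E m)).symm.continuous.comp (hw.continuous_fderiv (by simp))

theorem sc_sd_grad_zero {w : E m → ℝ} {x : E m} (hx : x ∉ tsupport w) : gradient w x = 0 := by
  unfold gradient
  rw [fderiv_of_notMem_tsupport ℝ hx, map_zero]

theorem sc_sd_grad_norm (w : E m → ℝ) (x : E m) : ‖gradient w x‖ = ‖fderiv ℝ w x‖ := by
  unfold gradient
  exact LinearIsometryEquiv.norm_map _ _

theorem sc_sd_grad_mul {χ w : E m → ℝ} {x : E m} (hχ : DifferentiableAt ℝ χ x)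
    (hw : DifferentiableAt ℝ w x) :
    gradient (fun y => χ y * w y) x = χ x • gradient w x + w x • gradient χ x := by
  refine ext_inner_right ℝ fun a => ?_
  rw [inner_add_left, real_inner_smul_left, real_inner_smul_left, sc_grad_inner, sc_grad_inner,
    sc_grad_inner, fderiv_fun_mul hχ hw]
  simp only [_root_.add_apply, _root_.smul_apply, smul_eq_mul]

theorem sc_sd_sum_chi {ι : Type} (s : Finset ι) (χ : ι → E m → ℝ)
    (hχ : ∀ i ∈ s, ContDiff ℝ ∞ (χ i)) (hsum : ∀ x, ∑ i ∈ s, χ i x ^ 2 = 1) (x a : E m) :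
    ∑ i ∈ s, χ i x * fderiv ℝ (χ i) x a = 0 := by
  have h1 : HasFDerivAt (fun y => ∑ i ∈ s, χ i y * χ i y)
      (∑ i ∈ s, (χ i x • fderiv ℝ (χ i) x + χ i x • fderiv ℝ (χ i) x)) x := by
    refine HasFDerivAt.fun_sum fun i hi => ?_
    have h := ((hχ i hi).differentiable (by simp) x).hasFDerivAt
    exact h.mul h
  have h2 : (fun y => ∑ i ∈ s, χ i y * χ i y) = fun _ => (1 : ℝ) := by
    funext y
    rw [← hsum y]
    exact Finset.sum_congr rfl fun i _ => (sq _).symm
  rw [h2] at h1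
  have h3 := congrArg (fun T : E m →L[ℝ] ℝ => T a) (h1.unique (hasFDerivAt_const (1 : ℝ) x))
  simp only [_root_.sum_apply, _root_.add_apply, _root_.smul_apply, smul_eq_mul,
    _root_.zero_apply] at h3
  have h4 : ∑ i ∈ s, (χ i x * fderiv ℝ (χ i) x a + χ i x * fderiv ℝ (χ i) x a) =
      2 * ∑ i ∈ s, χ i x * fderiv ℝ (χ i) x a := by
    rw [Finset.mul_sum]
    exact Finset.sum_congr rfl fun i _ => by ring
  linarith

theorem sc_sd_gam_cont (hD : D.Ok G τ Λ) {a b : E m → E m} (ha : ContinuousOn a D.U)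
    (hb : ContinuousOn b D.U) : ContinuousOn (fun x => D.Gam x (a x) (b x)) D.U :=
  (hD.gam.smooth.continuousOn.clm_apply ha).clm_apply hb

/-! ### measures with a real density -/

section wd

variable {α : Type*} [MeasurableSpace α] {lam : Measure α} {d : α → ℝ}

theorem sc_sd_wd_integral (hd : AEMeasurable d lam) (h0 : ∀ᵐ x ∂lam, 0 ≤ d x) (h : α → ℝ) :
    ∫ x, h x ∂(lam.withDensity fun x => ENNReal.ofReal (d x)) = ∫ x, d x * h x ∂lam := by
  rw [integral_withDensity_eq_integral_toReal_smul₀ hd.ennreal_ofReal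
    (Filter.Eventually.of_forall fun x => ENNReal.ofReal_lt_top)]
  refine integral_congr_ae ?_
  filter_upwards [h0] with x hx
  rw [ENNReal.toReal_ofReal hx, smul_eq_mul]

theorem sc_sd_wd_integrable (hd : AEMeasurable d lam) (h0 : ∀ᵐ x ∂lam, 0 ≤ d x) {h : α → ℝ}
    (hh : Integrable (fun x => d x * h x) lam) :
    Integrable h (lam.withDensity fun x => ENNReal.ofReal (d x)) := by
  rw [integrable_withDensity_iff_integrable_smul₀' hd.ennreal_ofReal
    (Filter.Eventually.of_forall fun x => ENNReal.ofReal_lt_top)]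
  refine hh.congr ?_
  filter_upwards [h0] with x hx
  rw [ENNReal.toReal_ofReal hx, smul_eq_mul]

theorem sc_sd_wd_ae (hd : AEMeasurable d lam) {P : α → Prop} :
    (∀ᵐ x ∂(lam.withDensity fun x => ENNReal.ofReal (d x)), P x) ↔
      ∀ᵐ x ∂lam, 0 < d x → P x := by
  rw [ae_withDensity_iff' hd.ennreal_ofReal]
  refine Filter.eventually_congr (Filter.Eventually.of_forall fun x => ?_)
  rw [ne_eq, ENNReal.ofReal_eq_zero, not_le]

theorem sc_sd_wd_mul (hd : AEMeasurable d lam) {c : α → ℝ} (hc : Measurable c) :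
    (lam.withDensity fun x => ENNReal.ofReal (c x ^ 2 * d x)) =
      (lam.withDensity fun x => ENNReal.ofReal (d x)).withDensity fun x =>
        ENNReal.ofReal (c x ^ 2) := by
  rw [← withDensity_mul₀ hd.ennreal_ofReal (hc.pow_const 2).ennreal_ofReal.aemeasurable]
  congr 1
  funext x
  rw [Pi.mul_apply, mul_comm (ENNReal.ofReal (d x)), ENNReal.ofReal_mul (sq_nonneg _)]

theorem sc_sd_wd_zero {f : α → ℝ≥0∞} {A : Set α} (hA : MeasurableSet A) (h : ∀ x ∈ A, f x = 0) :
    lam.withDensity f A = 0 := by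
  rw [withDensity_apply _ hA]
  refine le_antisymm ((setLIntegral_mono' hA fun x hx => (h x hx).le).trans ?_) bot_le
  simp

end wd

end

end Claimed.Agent.R315
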