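import Claimed.Agent.R315.Sc.SideA

/-!
# Row 315, package Sc, L-SC-SIDE (helper199), part B: the bulk   (prefix `sc_sd_`)
-/

set_option autoImplicit false
open scoped ContDiff Topology ENNReal RealInnerProductSpace
open MeasureTheory Set Metric

namespace Claimed.Agent.R315

noncomputable section

variable {m : ℕ} {D : ScCh m} {G : Set (E m)} {τ Λ : ℝ}

theorem sc_sd_bulk_ms (hD : D.Ok G τ Λ) : MeasurableSet (D.S ∩ D.U) :=
  hD.lam.meas.inter hD.opn.measurableSet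

/-- integrability on the bulk. -/
theorem sc_sd_bulk_int {vb : E m → ℝ} (hvb : ScTw D.U vb) {f : E m → ℝ}
    (hf : ContinuousOn f D.U) (h0 : ∀ x, x ∉ tsupport vb → f x = 0) :
    Integrable f (volume.restrict (D.S ∩ D.U)) :=
  (sc_sd_int_vol hf hvb.cpt hvb.sub h0).restrict

theorem sc_sd_bulkE_int (hD : D.Ok G τ Λ) {vb : E m → ℝ} (hvb : ScTw D.U vb) :
    Integrable (fun x => D.Gam x (gradient vb x) (gradient vb x) * D.rho x)
      (volume.restrict (D.S ∩ D.U)) := by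
  have hg := (sc_sd_grad_cont hvb.smooth).continuousOn (s := D.U)
  refine sc_sd_bulk_int hvb ((sc_sd_gam_cont hD hg hg).mul hD.rho_s.continuousOn) fun x hx => ?_
  rw [sc_sd_grad_zero hx]
  simp

theorem sc_sd_bulkE_nonneg (hD : D.Ok G τ Λ) (vb : E m → ℝ) : 0 ≤ D.bulkE vb :=
  setIntegral_nonneg (sc_sd_bulk_ms hD) fun x hx =>
    mul_nonneg (hD.gam_nonneg hx.2 _) (hD.rho_pos x hx.2).le

/-! ### the bulk mass -/

theorem sc_sd_bulkM_aem (hD : D.Ok G τ Λ) {vb : E m → ℝ} (hvb : ScTw D.U vb) :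
    AEMeasurable (fun x => vb x ^ 2 * D.rho x) (volume.restrict (D.S ∩ D.U)) :=
  ((hvb.smooth.continuous.pow 2).aestronglyMeasurable.mul
    ((sc_sd_aesm_rho hD volume).mono_measure
      (Measure.restrict_mono inter_subset_right le_rfl))).aemeasurable

theorem sc_sd_bulkM_nn (hD : D.Ok G τ Λ) (vb : E m → ℝ) :
    ∀ᵐ x ∂(volume.restrict (D.S ∩ D.U)), 0 ≤ vb x ^ 2 * D.rho x := by
  filter_upwards [ae_restrict_mem (sc_sd_bulk_ms hD)] with x hx
  exact mul_nonneg (sq_nonneg _) (hD.rho_pos x hx.2).le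

theorem sc_sd_bulkM_dint (hD : D.Ok G τ Λ) {vb : E m → ℝ} (hvb : ScTw D.U vb) {h : E m → ℝ}
    (hh : Continuous h) :
    Integrable (fun x => vb x ^ 2 * D.rho x * h x) (volume.restrict (D.S ∩ D.U)) := by
  refine sc_sd_bulk_int hvb (((hvb.smooth.continuous.pow 2).continuousOn.mul
    hD.rho_s.continuousOn).mul hh.continuousOn) fun x hx => ?_
  rw [image_eq_zero_of_notMem_tsupport hx]
  simp

theorem sc_sd_bulkM_fin (hD : D.Ok G τ Λ) {vb : E m → ℝ} (hvb : ScTw D.U vb) :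
    IsFiniteMeasure (D.bulkM vb) := by
  have h := sc_sd_bulkM_dint hD hvb (h := fun _ => 1) continuous_const
  simp only [mul_one] at h
  exact isFiniteMeasure_withDensity_ofReal h.2

theorem sc_sd_bulkM_bdd {vb : E m → ℝ} (hvb : ScTw D.U vb) :
    ∃ R : ℝ, ∀ R', R ≤ R' → D.bulkM vb {x | R' < ‖x‖} = 0 := by
  obtain ⟨R, hR⟩ := hvb.cpt.isBounded.subset_closedBall (0 : E m)
  refine ⟨R, fun R' hR' => sc_sd_wd_zero
    (isOpen_lt continuous_const continuous_norm).measurableSet fun x hx => ?_⟩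
  have hx' : x ∉ tsupport vb := fun h => by
    have := hR h
    rw [mem_closedBall_zero_iff] at this
    exact absurd (lt_of_le_of_lt hR' hx) (not_lt.2 this)
  rw [image_eq_zero_of_notMem_tsupport hx']
  simp

theorem sc_sd_bulkM_mul (hD : D.Ok G τ Λ) {vb : E m → ℝ} (hvb : ScTw D.U vb) {χ : E m → ℝ}
    (hχ : ContDiff ℝ ∞ χ) :
    D.bulkM (fun x => χ x * vb x) =
      (D.bulkM vb).withDensity fun x => ENNReal.ofReal (χ x ^ 2) := by
  unfold ScCh.bulkM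
  rw [← sc_sd_wd_mul (sc_sd_bulkM_aem hD hvb) hχ.continuous.measurable]
  congr 1
  funext x
  congr 1
  ring

theorem sc_sd_bulkM_integral (hD : D.Ok G τ Λ) {vb : E m → ℝ} (hvb : ScTw D.U vb) (h : E m → ℝ) :
    ∫ x, h x ∂(D.bulkM vb) = ∫ x in D.S ∩ D.U, vb x ^ 2 * D.rho x * h x :=
  sc_sd_wd_integral (sc_sd_bulkM_aem hD hvb) (sc_sd_bulkM_nn hD vb) h

theorem sc_sd_bulkM_integrable (hD : D.Ok G τ Λ) {vb : E m → ℝ} (hvb : ScTw D.U vb) {h : E m → ℝ}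
    (hh : Continuous h) : Integrable h (D.bulkM vb) :=
  sc_sd_wd_integrable (sc_sd_bulkM_aem hD hvb) (sc_sd_bulkM_nn hD vb) (sc_sd_bulkM_dint hD hvb hh)

theorem sc_sd_bulkM_ae (hD : D.Ok G τ Λ) {vb : E m → ℝ} (hvb : ScTw D.U vb) {P : E m → Prop}
    (h : ∀ᵐ x ∂(D.bulkM vb), P x) :
    ∀ᵐ x ∂(volume.restrict (D.S ∩ D.U)), vb x ≠ 0 → P x := by
  have h1 := (sc_sd_wd_ae (sc_sd_bulkM_aem hD hvb)).1 h
  filter_upwards [h1, ae_restrict_mem (sc_sd_bulk_ms hD)] with x hx hxU hv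
  exact hx (mul_pos (by positivity) (hD.rho_pos x hxU.2))

/-! ### IMS in the bulk -/

theorem sc_sd_ims_pw (hD : D.Ok G τ Λ) {x : E m} (hx : x ∈ D.U) {vb : E m → ℝ}
    (hvb : DifferentiableAt ℝ vb x) {ι : Type} (s : Finset ι) (χ : ι → E m → ℝ)
    (hχ : ∀ i ∈ s, ContDiff ℝ ∞ (χ i)) (hsum : ∀ x, ∑ i ∈ s, χ i x ^ 2 = 1) :
    ∑ i ∈ s, D.Gam x (gradient (fun y => χ i y * vb y) x) (gradient (fun y => χ i y * vb y) x) =
      D.Gam x (gradient vb x) (gradient vb x) +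
        vb x ^ 2 * ∑ i ∈ s, D.Gam x (gradient (χ i) x) (gradient (χ i) x) := by
  have hs := hD.gam.symm x hx
  have h1 : ∀ i ∈ s,
      D.Gam x (gradient (fun y => χ i y * vb y) x) (gradient (fun y => χ i y * vb y) x) =
      χ i x ^ 2 * D.Gam x (gradient vb x) (gradient vb x) +
        2 * vb x * (χ i x * fderiv ℝ (χ i) x (Gmt.gmtSharp (D.Gam x) (gradient vb x))) +
        vb x ^ 2 * D.Gam x (gradient (χ i) x) (gradient (χ i) x) := by
    intro i hi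
    have hB : fderiv ℝ (χ i) x (Gmt.gmtSharp (D.Gam x) (gradient vb x)) =
        D.Gam x (gradient vb x) (gradient (χ i) x) := by
      rw [← sc_grad_inner, real_inner_comm, sc_sharp_inner]
    rw [sc_sd_grad_mul ((hχ i hi).differentiable (by simp) x) hvb, hB]
    simp only [map_add, map_smul, _root_.add_apply, _root_.smul_apply, smul_eq_mul]
    rw [hs (gradient (χ i) x) (gradient vb x)]
    ring
  rw [Finset.sum_congr rfl h1, Finset.sum_add_distrib, Finset.sum_add_distrib, ← Finset.sum_mul,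
    hsum x, one_mul, ← Finset.mul_sum, sc_sd_sum_chi s χ hχ hsum, mul_zero, add_zero,
    ← Finset.mul_sum]

theorem sc_sd_chi_cont {ι : Type} (s : Finset ι) (χ : ι → E m → ℝ)
    (hχ : ∀ i ∈ s, ContDiff ℝ ∞ (χ i)) : Continuous fun x => ∑ i ∈ s, ‖fderiv ℝ (χ i) x‖ ^ 2 :=
  continuous_finsetSum s fun i hi => ((hχ i hi).continuous_fderiv (by simp)).norm.pow 2

theorem sc_sd_bulk_ims (hD : D.Ok G τ Λ) (hτ : τ ≤ 0.005) {vb : E m → ℝ} (hvb : ScTw D.U vb)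
    (hG : ∀ᵐ x ∂(volume.restrict (D.S ∩ D.U)), vb x ≠ 0 → x ∈ G) {ι : Type} (s : Finset ι)
    (χ : ι → E m → ℝ) (hχ : ∀ i ∈ s, ContDiff ℝ ∞ (χ i)) (hsum : ∀ x, ∑ i ∈ s, χ i x ^ 2 = 1) :
    ∑ i ∈ s, D.bulkE (fun x => χ i x * vb x) ≤ D.bulkE vb +
      1.005 * ∫ x in D.S ∩ D.U, vb x ^ 2 * D.rho x * (∑ i ∈ s, ‖fderiv ℝ (χ i) x‖ ^ 2) := by
  have hi1 := fun i (hi : i ∈ s) => sc_sd_bulkE_int hD (hvb.mul (hχ i hi))
  have hi2 := (sc_sd_bulkM_dint hD hvb (sc_sd_chi_cont s χ hχ)).const_mul 1.005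
  unfold ScCh.bulkE
  rw [← integral_finsetSum s hi1, ← integral_const_mul,
    ← integral_add (sc_sd_bulkE_int hD hvb) hi2]
  refine integral_mono_ae (integrable_finsetSum s hi1) ((sc_sd_bulkE_int hD hvb).add hi2) ?_
  filter_upwards [hG, ae_restrict_mem (sc_sd_bulk_ms hD)] with x hx hxU
  have hρ := hD.rho_pos x hxU.2
  rw [← Finset.sum_mul,
    sc_sd_ims_pw hD hxU.2 (hvb.smooth.differentiable (by simp) x) s χ hχ hsum, add_mul]
  have key : vb x ^ 2 * ∑ i ∈ s, D.Gam x (gradient (χ i) x) (gradient (χ i) x) ≤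
      1.005 * (vb x ^ 2 * ∑ i ∈ s, ‖fderiv ℝ (χ i) x‖ ^ 2) := by
    by_cases hv : vb x = 0
    · simp [hv]
    · have h1 : ∑ i ∈ s, D.Gam x (gradient (χ i) x) (gradient (χ i) x) ≤
          ∑ i ∈ s, 1.005 * ‖fderiv ℝ (χ i) x‖ ^ 2 := by
        refine Finset.sum_le_sum fun i _ => ?_
        rw [← sc_sd_grad_norm]
        exact sc_sd_gam_le hD hτ (hx hv) _
      rw [← Finset.mul_sum] at h1
      have := mul_le_mul_of_nonneg_left h1 (sq_nonneg (vb x))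
      linarith
  have := mul_le_mul_of_nonneg_right key hρ.le
  linarith

/-! ### the bulk inequality -/

theorem sc_sd_int_cont (hD : D.Ok G τ Λ) {g : E m → ℝ} (hg : Continuous g) {K : Set (E m)}
    (hK : IsCompact K) (hKU : K ⊆ D.U) (h0 : ∀ x, x ∉ K → g x = 0) : Integrable g D.mu := by
  obtain ⟨C, hC⟩ := hK.exists_bound_of_continuousOn hg.continuousOn
  exact sc_sd_int hD hg.aestronglyMeasurable hK hKU
    (Filter.Eventually.of_forall fun x hx => hC x hx) (Filter.Eventually.of_forall h0)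

theorem sc_sd_sqrt_inv_cont (z : E m) (L : Submodule ℝ (E m)) {κ : ℝ} (hκ : 0 < κ) :
    Continuous fun x => (Real.sqrt (scZ2 z L κ x))⁻¹ :=
  (Real.continuous_sqrt.comp (scZ2_contDiff z L κ).continuous).inv₀
    fun x => (Real.sqrt_pos.2 (scZ2_pos z L hκ x)).ne'

theorem sc_sd_inv_cont (z : E m) (L : Submodule ℝ (E m)) {κ : ℝ} (hκ : 0 < κ) :
    Continuous fun x => (scZ2 z L κ x)⁻¹ :=
  (scZ2_contDiff z L κ).continuous.inv₀ fun x => (scZ2_pos z L hκ x).ne'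

theorem sc_sd_bulk_div (hD : D.Ok G τ Λ) (z : E m) (L : Submodule ℝ (E m)) {κ : ℝ} (hκ : 0 < κ)
    {vb : E m → ℝ} (hvb : ContDiff ℝ ∞ vb) {x : E m} (hx : x ∈ D.U) :
    Gmt.gmtDiv (fun y => (vb y * vb y) • (D.rho y • D.Y z L κ y)) x =
      vb x ^ 2 * Gmt.gmtDiv (fun y => D.rho y • D.Y z L κ y) x +
        2 * vb x * D.rho x * D.Gam x (scXi z L κ x) (gradient vb x) := by
  have hvd : DifferentiableAt ℝ vb x := hvb.differentiable (by simp) x
  have hZ : DifferentiableAt ℝ (fun y => D.rho y • D.Y z L κ y) x :=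
    ((hD.rho_s.smul (ScCh.Y_contDiffOn hD z L hκ)).contDiffAt
      (hD.opn.mem_nhds hx)).differentiableAt (by simp)
  have hY : ⟪D.Y z L κ x, gradient vb x⟫ = D.Gam x (scXi z L κ x) (gradient vb x) :=
    sc_sharp_inner _ _ _
  rw [sc_div_smul (v := fun y => vb y * vb y) (hvd.fun_mul hvd) hZ, fderiv_fun_mul hvd hvd, ← hY,
    real_inner_comm, sc_grad_inner]
  simp only [_root_.add_apply, _root_.smul_apply, smul_eq_mul, map_smul]
  ring

theorem sc_sd_bulk_bdry (hD : D.Ok G τ Λ) (hτ : τ ≤ 0.005) (z : E m) (L : Submodule ℝ (E m))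
    {κ : ℝ} (hκ : 0 < κ) {vb : E m → ℝ} (hvb : ScTw D.U vb)
    (hb2 : ∀ᵐ x ∂D.mu, vb x ≠ 0 → x ∈ G) :
    ∫ x, ⟪(vb x * vb x) • (D.rho x • D.Y z L κ x), D.nu x⟫ ∂((Gmt.gmtMu D.S).restrict D.U) ≤
      1.0025 * ∫ x, vb x ^ 2 * (Real.sqrt (scZ2 z L κ x))⁻¹ ∂D.mu := by
  have hLF := Gmt.gmt_lam_lf hD.data hD.lam
  have hνm := sc_sd_aesm_nu D ((Gmt.gmtMu D.S).restrict D.U)
  have hdm : AEMeasurable (fun x => D.rho x * Real.sqrt (D.Gam x (D.nu x) (D.nu x)))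
      ((Gmt.gmtMu D.S).restrict D.U) :=
    (sc_sd_aesm_rho hD _).aemeasurable.mul
      (Real.continuous_sqrt.measurable.comp_aemeasurable (sc_sd_aesm_bil hD _ hνm hνm).aemeasurable)
  have hae : ∀ᵐ x ∂((Gmt.gmtMu D.S).restrict D.U), x ∈ D.U ∧ ‖D.nu x‖ = 1 := by
    filter_upwards [ae_restrict_mem hD.opn.measurableSet, Gmt.norm_gmtNu_ae hD.opn hLF]
      with x h1 h2 using ⟨h1, h2⟩
  have hnn : ∀ᵐ x ∂((Gmt.gmtMu D.S).restrict D.U),
      0 ≤ D.rho x * Real.sqrt (D.Gam x (D.nu x) (D.nu x)) := by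
    filter_upwards [hae] with x hx
    exact mul_nonneg (hD.rho_pos x hx.1).le (Real.sqrt_nonneg _)
  have hpos : ∀ x, x ∈ D.U → ‖D.nu x‖ = 1 → 0 < D.Gam x (D.nu x) (D.nu x) := by
    intro x hxU hν
    refine hD.gam.pos x hxU _ fun h => ?_
    rw [h, norm_zero] at hν
    exact zero_ne_one hν
  have e1 : ∫ x, vb x ^ 2 * (D.Gam x (scXi z L κ x) (D.nu x) /
        Real.sqrt (D.Gam x (D.nu x) (D.nu x))) ∂D.mu =
      ∫ x, ⟪(vb x * vb x) • (D.rho x • D.Y z L κ x), D.nu x⟫ ∂((Gmt.gmtMu D.S).restrict D.U) := by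
    rw [hD.mu_eq, sc_sd_wd_integral hdm hnn]
    refine integral_congr_ae ?_
    filter_upwards [hae] with x hx
    have hn : 0 < Real.sqrt (D.Gam x (D.nu x) (D.nu x)) := Real.sqrt_pos.2 (hpos x hx.1 hx.2)
    have hY : ⟪D.Y z L κ x, D.nu x⟫ = D.Gam x (scXi z L κ x) (D.nu x) := sc_sharp_inner _ _ _
    rw [real_inner_smul_left, real_inner_smul_left, hY]
    field_simp
  have hint : Integrable (fun x => vb x ^ 2 * (Real.sqrt (scZ2 z L κ x))⁻¹) D.mu :=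
    sc_sd_int_cont hD ((hvb.smooth.continuous.pow 2).mul (sc_sd_sqrt_inv_cont z L hκ)) hvb.cpt
      hvb.sub fun x hx => by rw [image_eq_zero_of_notMem_tsupport hx]; simp
  rw [← e1, ← integral_const_mul]
  refine sc_sd_integral_le (hint.const_mul _) (Filter.Eventually.of_forall fun x => by positivity) ?_
  filter_upwards [hD.nu_ae, hb2] with x hx hG
  by_cases hv : vb x = 0
  · simp [hv]
  have hxG := hG hv
  have hq := scZ2_pos z L hκ x
  have hB := hpos x hx.1 hx.2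
  have hn : 0 < Real.sqrt (D.Gam x (D.nu x) (D.nu x)) := Real.sqrt_pos.2 hB
  have hs : 0 < (Real.sqrt (scZ2 z L κ x))⁻¹ := inv_pos.2 (Real.sqrt_pos.2 hq)
  have hs2 : (Real.sqrt (scZ2 z L κ x))⁻¹ ^ 2 = (scZ2 z L κ x)⁻¹ := by
    rw [inv_pow, Real.sq_sqrt hq.le]
  have h1 := sc_bil_cs (hD.gam.symm x hx.1) (hD.gam.pos x hx.1) (scXi z L κ x) (D.nu x)
  have h2 := sc_sd_gam_le hD hτ hxG (scXi z L κ x)
  have h3 := scXi_norm_sq_le z L hκ x
  have h4 : (D.Gam x (scXi z L κ x) (D.nu x) / Real.sqrt (D.Gam x (D.nu x) (D.nu x))) ^ 2 ≤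
      (1.0025 * (Real.sqrt (scZ2 z L κ x))⁻¹) ^ 2 := by
    rw [div_pow, Real.sq_sqrt hB.le, mul_pow, hs2, div_le_iff₀ hB]
    have h5 : D.Gam x (scXi z L κ x) (scXi z L κ x) ≤ 1.0025 ^ 2 * (scZ2 z L κ x)⁻¹ := by
      have : 0 ≤ (scZ2 z L κ x)⁻¹ := (inv_pos.2 hq).le
      nlinarith
    exact h1.trans (mul_le_mul_of_nonneg_right h5 hB.le)
  have h6 := (le_abs_self _).trans (abs_le_of_sq_le_sq h4 (by positivity))
  have := mul_le_mul_of_nonneg_left h6 (sq_nonneg (vb x))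
  linarith

theorem sc_sd_bulk_box_aux (hD : D.Ok G τ Λ) (hτ : τ ≤ 0.005) {z : E m} {L : Submodule ℝ (E m)}
    {κ ζ₀ : ℝ} (hκ : 0 < κ) {vb : E m → ℝ} (hvb : ScTw D.U vb)
    (H : ∀ x ∈ G, scZ2 z L κ x ≤ ζ₀ ^ 2 → 5.8 * D.rho x * (scZ2 z L κ x)⁻¹ ≤
      Gmt.gmtDiv (fun y => D.rho y • D.Y z L κ y) x)
    (hb1 : ∀ᵐ x ∂(volume.restrict (D.S ∩ D.U)), vb x ≠ 0 → x ∈ G ∧ scZ2 z L κ x ≤ ζ₀ ^ 2)
    (hb2 : ∀ᵐ x ∂D.mu, vb x ≠ 0 → x ∈ G) :
    4.79 * ∫ x in D.S ∩ D.U, vb x ^ 2 * D.rho x * (scZ2 z L κ x)⁻¹ ≤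
      D.bulkE vb + 1.0025 * ∫ x, vb x ^ 2 * (Real.sqrt (scZ2 z L κ x))⁻¹ ∂D.mu := by
  have hT : Gmt.GmtTestS D.U (fun x => (vb x * vb x) • (D.rho x • D.Y z L κ x)) :=
    sc_test_field hD.opn (hvb.mul hvb.smooth) (hD.rho_s.smul (ScCh.Y_contDiffOn hD z L hκ))
  have hGG := Gmt.gmt_gauss_green_restrict hD.opn (Gmt.gmt_lam_lf hD.data hD.lam) hT.test
  have h1 : ∫ x in D.S, Gmt.gmtDiv (fun x => (vb x * vb x) • (D.rho x • D.Y z L κ x)) x =
      ∫ x in D.S ∩ D.U, Gmt.gmtDiv (fun x => (vb x * vb x) • (D.rho x • D.Y z L κ x)) x :=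
    setIntegral_eq_of_subset_of_forall_sdiff_eq_zero hD.lam.meas inter_subset_left fun x hx =>
      Gmt.gmtDiv_eq_zero_of_notMem fun h => hx.2 ⟨hx.1, hT.sub h⟩
  have h3 := sc_sd_bulk_bdry hD hτ z L hκ hvb hb2
  have hdi : Integrable (Gmt.gmtDiv (fun x => (vb x * vb x) • (D.rho x • D.Y z L κ x)))
      (volume.restrict (D.S ∩ D.U)) := (Gmt.gmtDiv_integrable hT.test).restrict
  have h2 : 4.79 * ∫ x in D.S ∩ D.U, vb x ^ 2 * D.rho x * (scZ2 z L κ x)⁻¹ ≤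
      (∫ x in D.S ∩ D.U, Gmt.gmtDiv (fun x => (vb x * vb x) • (D.rho x • D.Y z L κ x)) x) +
        D.bulkE vb := by
    unfold ScCh.bulkE
    rw [← integral_const_mul, ← integral_add hdi (sc_sd_bulkE_int hD hvb)]
    refine integral_mono_ae ((sc_sd_bulkM_dint hD hvb (sc_sd_inv_cont z L hκ)).const_mul _)
      (hdi.add (sc_sd_bulkE_int hD hvb)) ?_
    filter_upwards [hb1, ae_restrict_mem (sc_sd_bulk_ms hD)] with x hx hxU
    have hρ := hD.rho_pos x hxU.2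
    rw [sc_sd_bulk_div hD z L hκ hvb.smooth hxU.2]
    have hgg := hD.gam_nonneg hxU.2 (gradient vb x)
    by_cases hv : vb x = 0
    · simp only [hv]
      have := mul_nonneg hgg hρ.le
      simpa using this
    obtain ⟨hxG, hxq⟩ := hx hv
    have hq := scZ2_pos z L hκ x
    have e1 := H x hxG hxq
    have e2 := hD.gam_nonneg hxU.2 (vb x • scXi z L κ x + gradient vb x)
    simp only [map_add, map_smul, _root_.add_apply, _root_.smul_apply, smul_eq_mul] at e2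
    rw [hD.gam.symm x hxU.2 (gradient vb x) (scXi z L κ x)] at e2
    have e3 := (sc_sd_gam_le hD hτ hxG (scXi z L κ x)).trans
      (mul_le_mul_of_nonneg_left (scXi_norm_sq_le z L hκ x) (by norm_num))
    have e4 := mul_le_mul_of_nonneg_left e1 (sq_nonneg (vb x))
    have e5 := mul_le_mul_of_nonneg_left e3 (mul_nonneg (sq_nonneg (vb x)) hρ.le)
    have e6 := mul_nonneg e2 hρ.le
    have e7 : 0 ≤ vb x ^ 2 * D.rho x * (scZ2 z L κ x)⁻¹ := by positivity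
    nlinarith
  have h4 : ∫ x, ⟪(vb x * vb x) • (D.rho x • D.Y z L κ x), Gmt.gmtNu D.S x⟫
      ∂((Gmt.gmtMu D.S).restrict D.U) ≤
      1.0025 * ∫ x, vb x ^ 2 * (Real.sqrt (scZ2 z L κ x))⁻¹ ∂D.mu := h3
  linarith

end

end Claimed.Agent.R315
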