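import Claimed.Agent.R315.Sc.SideB

/-!
# Row 315, package Sc, L-SC-SIDE (helper199), part C: cylinders   (prefix `sc_sd_`)
-/

set_option autoImplicit false
open scoped ContDiff Topology ENNReal RealInnerProductSpace
open MeasureTheory Set Metric

namespace Claimed.Agent.R315

noncomputable section

variable {m : ℕ} {D : ScCh m} {G : Set (E m)} {τ Λ : ℝ}

/-! ### calculus on the cylinder -/

theorem sc_sd_dt_eq {vc : E m × ℝ → ℝ} (h : ContDiff ℝ ∞ vc) (x : E m) (t : ℝ) :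
    scDt vc x t = fderiv ℝ vc (x, t) (0, 1) := by
  have h1 : HasFDerivAt vc (fderiv ℝ vc (x, t)) (x, t) :=
    (h.differentiable (by simp) _).hasFDerivAt
  have h2 : HasDerivAt (fun s : ℝ => ((x, s) : E m × ℝ)) ((0 : E m), (1 : ℝ)) t :=
    (hasDerivAt_const t x).prodMk (hasDerivAt_id t)
  exact (h1.comp_hasDerivAt t h2).deriv

theorem sc_sd_gx_eq {vc : E m × ℝ → ℝ} (h : ContDiff ℝ ∞ vc) (x : E m) (t : ℝ) :
    scGx vc x t = (InnerProductSpace.toDual ℝ (E m)).symm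
      ((fderiv ℝ vc (x, t)).comp (ContinuousLinearMap.inl ℝ (E m) ℝ)) := by
  have h1 : HasFDerivAt vc (fderiv ℝ vc (x, t)) (x, t) :=
    (h.differentiable (by simp) _).hasFDerivAt
  have h2 : HasFDerivAt (fun y : E m => ((y, t) : E m × ℝ)) (ContinuousLinearMap.inl ℝ (E m) ℝ) x :=
    (hasFDerivAt_id x).prodMk (hasFDerivAt_const t x)
  have h3 := (h1.comp x h2).fderiv
  unfold scGx gradient
  rw [show (fun y => vc (y, t)) = vc ∘ fun y => (y, t) from rfl, h3]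

theorem sc_sd_dt_cont {vc : E m × ℝ → ℝ} (h : ContDiff ℝ ∞ vc) :
    Continuous fun y : E m × ℝ => scDt vc y.1 y.2 := by
  have : (fun y : E m × ℝ => scDt vc y.1 y.2) = fun y => fderiv ℝ vc y (0, 1) :=
    funext fun y => sc_sd_dt_eq h y.1 y.2
  rw [this]
  exact (h.continuous_fderiv (by simp)).clm_apply continuous_const

theorem sc_sd_gx_cont {vc : E m × ℝ → ℝ} (h : ContDiff ℝ ∞ vc) :
    Continuous fun y : E m × ℝ => scGx vc y.1 y.2 := by
  have : (fun y : E m × ℝ => scGx vc y.1 y.2) = fun y => (InnerProductSpace.toDual ℝ (E m)).symm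
      ((fderiv ℝ vc y).comp (ContinuousLinearMap.inl ℝ (E m) ℝ)) :=
    funext fun y => sc_sd_gx_eq h y.1 y.2
  rw [this]
  exact (InnerProductSpace.toDual ℝ (E m)).symm.continuous.comp
    ((h.continuous_fderiv (by simp)).clm_comp continuous_const)

theorem sc_sd_dt_zero {vc : E m × ℝ → ℝ} (h : ContDiff ℝ ∞ vc) {y : E m × ℝ}
    (hy : y ∉ tsupport vc) : scDt vc y.1 y.2 = 0 := by
  rw [sc_sd_dt_eq h, Prod.mk.eta, fderiv_of_notMem_tsupport ℝ hy]
  rfl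

theorem sc_sd_gx_zero {vc : E m × ℝ → ℝ} (h : ContDiff ℝ ∞ vc) {y : E m × ℝ}
    (hy : y ∉ tsupport vc) : scGx vc y.1 y.2 = 0 := by
  rw [sc_sd_gx_eq h, Prod.mk.eta, fderiv_of_notMem_tsupport ℝ hy]
  simp

theorem sc_sd_dt_mul (χ : E m → ℝ) (vc : E m × ℝ → ℝ) (x : E m) (t : ℝ) :
    scDt (fun y => χ y.1 * vc y) x t = χ x * scDt vc x t := by
  unfold scDt
  exact deriv_const_mul_field (χ x)

/-! ### supports -/

theorem sc_sd_K1 {U : Set (E m)} {vc : E m × ℝ → ℝ} (h : ScTc U vc) :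
    IsCompact (Prod.fst '' tsupport vc) ∧ Prod.fst '' tsupport vc ⊆ U :=
  ⟨h.cpt.image continuous_fst, by rintro _ ⟨y, hy, rfl⟩; exact (h.sub hy).1⟩

theorem sc_sd_off_K1 {vc : E m × ℝ → ℝ} {x : E m} (hx : x ∉ Prod.fst '' tsupport vc) (t : ℝ) :
    (x, t) ∉ tsupport vc := fun hy => hx ⟨(x, t), hy, rfl⟩

theorem sc_sd_slice {U : Set (E m)} {vc : E m × ℝ → ℝ} (h : ScTc U vc) (t : ℝ) :
    ScTw U (fun x => vc (x, t)) := by
  obtain ⟨hK, hKU⟩ := sc_sd_K1 h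
  have h0 : ∀ x, x ∉ Prod.fst '' tsupport vc → vc (x, t) = 0 := fun x hx =>
    image_eq_zero_of_notMem_tsupport (sc_sd_off_K1 hx t)
  have hsub : tsupport (fun x => vc (x, t)) ⊆ Prod.fst '' tsupport vc :=
    closure_minimal (fun x hx => by_contra fun hn => hx (h0 x hn)) hK.isClosed
  exact ⟨h.smooth.comp (contDiff_id.prodMk contDiff_const),
    hK.of_isClosed_subset (isClosed_tsupport _) hsub, hsub.trans hKU⟩

/-- functions on the lines `{x} × ℝ`. -/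
theorem sc_sd_line_int {U : Set (E m)} {vc : E m × ℝ → ℝ} (h : ScTc U vc) {F : E m × ℝ → ℝ}
    (hF : Continuous F) (h0 : ∀ y, y ∉ tsupport vc → F y = 0) (x : E m) :
    Integrable fun t => F (x, t) := by
  refine (hF.comp (continuous_const.prodMk continuous_id)).integrable_of_hasCompactSupport ?_
  refine HasCompactSupport.intro (h.cpt.image continuous_snd) fun t ht => ?_
  exact h0 _ fun hy => ht ⟨(x, t), hy, rfl⟩

/-! ### Fubini -/

theorem sc_sd_int_prod (hD : D.Ok G τ Λ) (I : Set ℝ) {g : E m × ℝ → ℝ}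
    (hg : AEStronglyMeasurable g (D.mu.prod (volume.restrict I))) {C : ℝ}
    {K : Set (E m × ℝ)} (hK : IsCompact K) (hKU : K ⊆ D.U ×ˢ univ)
    (hC : ∀ y ∈ K, |g y| ≤ C) (h0 : ∀ y, y ∉ K → g y = 0) :
    Integrable g (D.mu.prod (volume.restrict I)) := by
  have := sc_sd_sigmaFinite hD
  have hK₁ : IsCompact (Prod.fst '' K) := hK.image continuous_fst
  have hK₂ : IsCompact (Prod.snd '' K) := hK.image continuous_snd
  have hK₁U : Prod.fst '' K ⊆ D.U := by rintro _ ⟨y, hy, rfl⟩; exact (hKU hy).1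
  have h1 : Integrable ((Prod.fst '' K).indicator fun _ => |C|) D.mu :=
    (integrable_indicator_iff hK₁.measurableSet).2
      (integrableOn_const (sc_sd_mu_compact hD hK₁ hK₁U).ne)
  have h2 : Integrable ((Prod.snd '' K).indicator fun _ => (1 : ℝ)) (volume.restrict I) :=
    ((integrable_indicator_iff hK₂.measurableSet).2
      (integrableOn_const hK₂.measure_lt_top.ne)).restrict
  refine (h1.mul_prod h2).mono' hg (Filter.Eventually.of_forall fun y => ?_)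
  by_cases hy : y ∈ K
  · have hy1 : y.1 ∈ Prod.fst '' K := ⟨y, hy, rfl⟩
    have hy2 : y.2 ∈ Prod.snd '' K := ⟨y, hy, rfl⟩
    rw [indicator_of_mem hy1, indicator_of_mem hy2, mul_one, Real.norm_eq_abs]
    exact (hC y hy).trans (le_abs_self C)
  · rw [h0 y hy, norm_zero]
    exact mul_nonneg (indicator_nonneg (fun _ _ => abs_nonneg C) _)
      (indicator_nonneg (fun _ _ => zero_le_one) _)

theorem sc_sd_swap (hD : D.Ok G τ Λ) {I : Set ℝ} {g : E m × ℝ → ℝ}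
    (hg : Integrable g (D.mu.prod (volume.restrict I))) :
    ∫ x, (∫ t in I, g (x, t)) ∂D.mu = ∫ t in I, (∫ x, g (x, t) ∂D.mu) := by
  have := sc_sd_sigmaFinite hD
  exact integral_integral_swap (f := fun x t => g (x, t)) hg

theorem sc_sd_prod_cont (hD : D.Ok G τ Λ) (I : Set ℝ) {vc : E m × ℝ → ℝ} (hvc : ScTc D.U vc)
    {g : E m × ℝ → ℝ} (hg : Continuous g) (h0 : ∀ y, y ∉ tsupport vc → g y = 0) :
    Integrable g (D.mu.prod (volume.restrict I)) := by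
  obtain ⟨C, hC⟩ := hvc.cpt.exists_bound_of_continuousOn hg.continuousOn
  exact sc_sd_int_prod hD I hg.aestronglyMeasurable hvc.cpt hvc.sub (fun y hy => hC y hy) h0

theorem sc_sd_prod_V (hD : D.Ok G τ Λ) (I : Set ℝ) {vc : E m × ℝ → ℝ} (hvc : ScTc D.U vc)
    {h : E m → ℝ} (hh : Continuous h) :
    Integrable (fun y : E m × ℝ => vc y ^ 2 * h y.1) (D.mu.prod (volume.restrict I)) :=
  sc_sd_prod_cont hD I hvc ((hvc.smooth.continuous.pow 2).mul (hh.comp continuous_fst))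
    fun y hy => by rw [image_eq_zero_of_notMem_tsupport hy]; simp

theorem sc_sd_prod_T (hD : D.Ok G τ Λ) (I : Set ℝ) {vc : E m × ℝ → ℝ} (hvc : ScTc D.U vc) :
    Integrable (fun y : E m × ℝ => scDt vc y.1 y.2 ^ 2) (D.mu.prod (volume.restrict I)) :=
  sc_sd_prod_cont hD I hvc ((sc_sd_dt_cont hvc.smooth).pow 2)
    fun y hy => by rw [sc_sd_dt_zero hvc.smooth hy]; simp

theorem sc_sd_aesm_qw' {α : Type*} [MeasurableSpace α] {P : Measure α} {B : α → Gmt.Bil m}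
    {ν a : α → E m} (hB : AEStronglyMeasurable B P) (hν : AEStronglyMeasurable ν P)
    (ha : AEStronglyMeasurable a P) :
    AEStronglyMeasurable (fun y => scQw (B y) (ν y) (a y)) P := by
  unfold scQw
  have h1 := sc_sd_aesm_clm_apply (sc_sd_aesm_clm_apply hB ha) ha
  have h2 := sc_sd_aesm_clm_apply (sc_sd_aesm_clm_apply hB ha) hν
  have h3 := sc_sd_aesm_clm_apply (sc_sd_aesm_clm_apply hB hν) hν
  exact h1.sub ((h2.aemeasurable.pow_const 2).div h3.aemeasurable).aestronglyMeasurable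

theorem sc_sd_prod_Q (hD : D.Ok G τ Λ) (I : Set ℝ) {vc : E m × ℝ → ℝ} (hvc : ScTc D.U vc) :
    Integrable (fun y : E m × ℝ => scQw (D.Gam y.1) (D.nu y.1) (scGx vc y.1 y.2))
      (D.mu.prod (volume.restrict I)) := by
  have := sc_sd_sigmaFinite hD
  obtain ⟨hK, hKU⟩ := sc_sd_K1 hvc
  obtain ⟨C₁, hC₁0, hC₁⟩ := sc_sd_gam_bdd hD hK hKU
  obtain ⟨C₂, hC₂⟩ := hvc.cpt.exists_bound_of_continuousOn
    (sc_sd_gx_cont hvc.smooth).continuousOn
  have hGam : AEStronglyMeasurable D.Gam D.mu := sc_sd_aesm_gam hD (Gmt.gmtPerM D.A D.S)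
  refine sc_sd_int_prod hD I (sc_sd_aesm_qw' hGam.comp_fst
    ((Gmt.measurable_gmtNu D.S).comp measurable_fst).aestronglyMeasurable
    (sc_sd_gx_cont hvc.smooth).aestronglyMeasurable) (C := C₁ * C₂ * C₂) hvc.cpt hvc.sub
    (fun y hy => ?_) fun y hy => ?_
  · have hy1 : y.1 ∈ Prod.fst '' tsupport vc := ⟨y, hy, rfl⟩
    obtain ⟨hb1, hb2⟩ := sc_sd_qw_bounds hD (hKU hy1) (D.nu y.1) (scGx vc y.1 y.2)
    rw [abs_of_nonneg hb1]
    refine hb2.trans ((le_abs_self _).trans ((hC₁ _ hy1 _ _).trans ?_))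
    have h3 := hC₂ y hy
    have h4 : 0 ≤ C₂ := (norm_nonneg _).trans h3
    gcongr
  · rw [sc_sd_gx_zero hvc.smooth hy]
    unfold scQw
    simp

/-! ### the cylinder energy -/

theorem sc_sd_cylE_eq (hD : D.Ok G τ Λ) (I : Set ℝ) {vc : E m × ℝ → ℝ} (hvc : ScTc D.U vc) :
    D.cylE I vc = (∫ x, (∫ t in I, scQw (D.Gam x) (D.nu x) (scGx vc x t)) ∂D.mu) +
      ∫ x, (∫ t in I, scDt vc x t ^ 2) ∂D.mu := by
  have := sc_sd_sigmaFinite hD
  have hQ := sc_sd_prod_Q hD I hvc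
  have hT := sc_sd_prod_T hD I hvc
  have e1 := integral_prod (fun y : E m × ℝ =>
    scQw (D.Gam y.1) (D.nu y.1) (scGx vc y.1 y.2) + scDt vc y.1 y.2 ^ 2) (hQ.add hT)
  have e2 := integral_prod _ hQ
  have e3 := integral_prod _ hT
  have e4 := integral_add hQ hT
  unfold ScCh.cylE
  rw [← e2, ← e3, ← e4]
  exact e1.symm

theorem sc_sd_cylQ_nonneg (hD : D.Ok G τ Λ) (I : Set ℝ) (vc : E m × ℝ → ℝ) :
    0 ≤ ∫ x, (∫ t in I, scQw (D.Gam x) (D.nu x) (scGx vc x t)) ∂D.mu :=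
  integral_nonneg_of_ae ((sc_sd_ae_mem D hD.opn).mono fun _ hx =>
    integral_nonneg fun _ => (sc_sd_qw_bounds hD hx _ _).1)

theorem sc_sd_cylT_nonneg (D : ScCh m) (I : Set ℝ) (vc : E m × ℝ → ℝ) :
    0 ≤ ∫ x, (∫ t in I, scDt vc x t ^ 2) ∂D.mu :=
  integral_nonneg fun _ => integral_nonneg fun _ => sq_nonneg _

theorem sc_sd_cylE_nonneg (hD : D.Ok G τ Λ) (I : Set ℝ) (vc : E m × ℝ → ℝ) : 0 ≤ D.cylE I vc :=
  integral_nonneg_of_ae ((sc_sd_ae_mem D hD.opn).mono fun _ hx =>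
    integral_nonneg fun _ => add_nonneg (sc_sd_qw_bounds hD hx _ _).1 (sq_nonneg _))

theorem sc_sd_swap_V (hD : D.Ok G τ Λ) (I : Set ℝ) {vc : E m × ℝ → ℝ} (hvc : ScTc D.U vc)
    {h : E m → ℝ} (hh : Continuous h) :
    ∫ x, (∫ t in I, vc (x, t) ^ 2) * h x ∂D.mu = ∫ t in I, (∫ x, vc (x, t) ^ 2 * h x ∂D.mu) := by
  rw [← sc_sd_swap hD (sc_sd_prod_V hD I hvc hh)]
  refine integral_congr_ae (Filter.Eventually.of_forall fun x => ?_)
  exact (integral_mul_const _ _).symm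

theorem sc_sd_cyl_box_aux (hD : D.Ok G τ Λ) {z : E m} {L : Submodule ℝ (E m)} {κ ζ₀ : ℝ}
    (hκ : 0 < κ) {I : Set ℝ} (hI : MeasurableSet I) {vc : E m × ℝ → ℝ} (hvc : ScTc D.U vc)
    (H : ∀ w : E m → ℝ, ScTw D.U w → (∀ᵐ x ∂D.mu, w x ≠ 0 → x ∈ G ∧ scZ2 z L κ x ≤ ζ₀ ^ 2) →
      3.39 * ∫ x, w x ^ 2 * (scZ2 z L κ x)⁻¹ ∂D.mu ≤ D.wallE w)
    (hG : ∀ᵐ x ∂D.mu, (∃ t ∈ I, vc (x, t) ≠ 0) → x ∈ G ∧ scZ2 z L κ x ≤ ζ₀ ^ 2) :
    3.39 * ∫ x, (∫ t in I, vc (x, t) ^ 2) * (scZ2 z L κ x)⁻¹ ∂D.mu ≤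
      ∫ x, (∫ t in I, scQw (D.Gam x) (D.nu x) (scGx vc x t)) ∂D.mu := by
  have := sc_sd_sigmaFinite hD
  have hV := sc_sd_prod_V hD I hvc (sc_sd_inv_cont z L hκ)
  have hQ := sc_sd_prod_Q hD I hvc
  rw [sc_sd_swap_V hD I hvc (sc_sd_inv_cont z L hκ), sc_sd_swap hD hQ, ← integral_const_mul]
  refine setIntegral_mono_on (hV.integral_prod_right.const_mul _) hQ.integral_prod_right hI
    fun t ht => ?_
  exact H _ (sc_sd_slice hvc t) (hG.mono fun x hx h => hx ⟨t, ht, h⟩)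

theorem sc_sd_cyl_ims (hD : D.Ok G τ Λ) (hτ : τ ≤ 0.005) {I : Set ℝ} (hI : MeasurableSet I)
    {vc : E m × ℝ → ℝ} (hvc : ScTc D.U vc)
    (hG : ∀ᵐ x ∂D.mu, (∃ t ∈ I, vc (x, t) ≠ 0) → x ∈ G) {ι : Type} (s : Finset ι)
    (χ : ι → E m → ℝ) (hχ : ∀ i ∈ s, ContDiff ℝ ∞ (χ i)) (hsum : ∀ x, ∑ i ∈ s, χ i x ^ 2 = 1) :
    ∑ i ∈ s, D.cylE I (fun y => χ i y.1 * vc y) ≤ D.cylE I vc +
      1.005 * ∫ x, (∫ t in I, vc (x, t) ^ 2) * (∑ i ∈ s, ‖fderiv ℝ (χ i) x‖ ^ 2) ∂D.mu := by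
  have := sc_sd_sigmaFinite hD
  have hQi := fun i (hi : i ∈ s) => sc_sd_prod_Q hD I (hvc.mul (hχ i hi))
  have hTi := fun i (hi : i ∈ s) => sc_sd_prod_T hD I (hvc.mul (hχ i hi))
  have hQ := sc_sd_prod_Q hD I hvc
  have hV := sc_sd_prod_V hD I hvc (sc_sd_chi_cont s χ hχ)
  -- the vertical part
  have hT : ∑ i ∈ s, ∫ x, (∫ t in I, scDt (fun y => χ i y.1 * vc y) x t ^ 2) ∂D.mu =
      ∫ x, (∫ t in I, scDt vc x t ^ 2) ∂D.mu := by
    rw [← integral_finsetSum s fun i hi => (hTi i hi).integral_prod_left]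
    refine integral_congr_ae (Filter.Eventually.of_forall fun x => ?_)
    have h1 : ∀ i ∈ s, ∫ t in I, scDt (fun y => χ i y.1 * vc y) x t ^ 2 =
        χ i x ^ 2 * ∫ t in I, scDt vc x t ^ 2 := by
      intro i _
      rw [← integral_const_mul]
      refine integral_congr_ae (Filter.Eventually.of_forall fun t => ?_)
      simp only [sc_sd_dt_mul, mul_pow]
    simp only []
    rw [Finset.sum_congr rfl h1, ← Finset.sum_mul, hsum x, one_mul]
  -- the horizontal part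
  have hQs : ∑ i ∈ s, ∫ x, (∫ t in I, scQw (D.Gam x) (D.nu x)
        (scGx (fun y => χ i y.1 * vc y) x t)) ∂D.mu ≤
      (∫ x, (∫ t in I, scQw (D.Gam x) (D.nu x) (scGx vc x t)) ∂D.mu) +
      1.005 * ∫ x, (∫ t in I, vc (x, t) ^ 2) * (∑ i ∈ s, ‖fderiv ℝ (χ i) x‖ ^ 2) ∂D.mu := by
    rw [sc_sd_swap_V hD I hvc (sc_sd_chi_cont s χ hχ), sc_sd_swap hD hQ,
      Finset.sum_congr rfl fun i hi => sc_sd_swap hD (hQi i hi),
      ← integral_finsetSum s fun i hi => (hQi i hi).integral_prod_right, ← integral_const_mul,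
      ← integral_add hQ.integral_prod_right (hV.integral_prod_right.const_mul _)]
    refine setIntegral_mono_on (integrable_finsetSum s fun i hi => (hQi i hi).integral_prod_right)
      (hQ.integral_prod_right.add (hV.integral_prod_right.const_mul _)) hI fun t ht => ?_
    have h1 := sc_wall_ims hD hτ (sc_sd_slice hvc t) (hG.mono fun x hx h => hx ⟨t, ht, h⟩)
      s χ hχ hsum
    have h2 : ∫ x, (∑ i ∈ s, ‖fderiv ℝ (χ i) x‖ ^ 2) * vc (x, t) ^ 2 ∂D.mu =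
        ∫ x, vc (x, t) ^ 2 * (∑ i ∈ s, ‖fderiv ℝ (χ i) x‖ ^ 2) ∂D.mu :=
      integral_congr_ae (Filter.Eventually.of_forall fun x => mul_comm _ _)
    rw [h2] at h1
    exact h1
  rw [Finset.sum_congr rfl fun i hi => sc_sd_cylE_eq hD I (hvc.mul (hχ i hi)),
    Finset.sum_add_distrib, hT, sc_sd_cylE_eq hD I hvc]
  linarith

/-! ### the cylinder mass -/

theorem sc_sd_cylM_meas {vc : E m × ℝ → ℝ} (hvc : Continuous vc) (I : Set ℝ) :
    Measurable fun x => ∫ t in I, vc (x, t) ^ 2 := by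
  have hc : Continuous fun p : E m × ℝ => vc (p.1, p.2) ^ 2 :=
    (hvc.comp (continuous_fst.prodMk continuous_snd)).pow 2
  exact (StronglyMeasurable.integral_prod_right (ν := volume.restrict I)
    (f := fun (x : E m) (t : ℝ) => vc (x, t) ^ 2) hc.stronglyMeasurable).measurable

theorem sc_sd_cylM_nn (μ : Measure (E m)) (vc : E m × ℝ → ℝ) (I : Set ℝ) :
    ∀ᵐ x ∂μ, 0 ≤ ∫ t in I, vc (x, t) ^ 2 :=
  Filter.Eventually.of_forall fun _ => integral_nonneg fun _ => sq_nonneg _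

theorem sc_sd_cylM_dint (hD : D.Ok G τ Λ) (I : Set ℝ) {vc : E m × ℝ → ℝ} (hvc : ScTc D.U vc)
    {h : E m → ℝ} (hh : Continuous h) :
    Integrable (fun x => (∫ t in I, vc (x, t) ^ 2) * h x) D.mu := by
  have := sc_sd_sigmaFinite hD
  refine (sc_sd_prod_V hD I hvc hh).integral_prod_left.congr
    (Filter.Eventually.of_forall fun x => ?_)
  show ∫ t in I, vc (x, t) ^ 2 * h x = (∫ t in I, vc (x, t) ^ 2) * h x
  exact integral_mul_const _ _

theorem sc_sd_cylM_fin (hD : D.Ok G τ Λ) (I : Set ℝ) {vc : E m × ℝ → ℝ} (hvc : ScTc D.U vc) :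
    IsFiniteMeasure (D.cylM I vc) := by
  have h := sc_sd_cylM_dint hD I hvc (h := fun _ => 1) continuous_const
  simp only [mul_one] at h
  exact isFiniteMeasure_withDensity_ofReal h.2

theorem sc_sd_cylM_bdd (I : Set ℝ) {vc : E m × ℝ → ℝ} (hvc : ScTc D.U vc) :
    ∃ R : ℝ, ∀ R', R ≤ R' → D.cylM I vc {x | R' < ‖x‖} = 0 := by
  obtain ⟨R, hR⟩ := (sc_sd_K1 hvc).1.isBounded.subset_closedBall (0 : E m)
  refine ⟨R, fun R' hR' => sc_sd_wd_zero
    (isOpen_lt continuous_const continuous_norm).measurableSet fun x hx => ?_⟩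
  have hx' : x ∉ Prod.fst '' tsupport vc := fun h => by
    have := hR h
    rw [mem_closedBall_zero_iff] at this
    exact absurd (lt_of_le_of_lt hR' hx) (not_lt.2 this)
  have h0 : ∀ t, vc (x, t) ^ 2 = 0 := fun t => by
    rw [image_eq_zero_of_notMem_tsupport (sc_sd_off_K1 hx' t)]; simp
  simp only [h0]
  simp

theorem sc_sd_cylM_mul (I : Set ℝ) {vc : E m × ℝ → ℝ} (hvc : ScTc D.U vc) {χ : E m → ℝ}
    (hχ : ContDiff ℝ ∞ χ) :
    D.cylM I (fun y => χ y.1 * vc y) =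
      (D.cylM I vc).withDensity fun x => ENNReal.ofReal (χ x ^ 2) := by
  unfold ScCh.cylM
  rw [← sc_sd_wd_mul (sc_sd_cylM_meas hvc.smooth.continuous I).aemeasurable
    hχ.continuous.measurable]
  congr 1
  funext x
  congr 1
  rw [← integral_const_mul]
  refine integral_congr_ae (Filter.Eventually.of_forall fun t => ?_)
  simp only [mul_pow]

theorem sc_sd_cylM_integral (I : Set ℝ) {vc : E m × ℝ → ℝ} (hvc : ScTc D.U vc) (h : E m → ℝ) :
    ∫ x, h x ∂(D.cylM I vc) = ∫ x, (∫ t in I, vc (x, t) ^ 2) * h x ∂D.mu :=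
  sc_sd_wd_integral (sc_sd_cylM_meas hvc.smooth.continuous I).aemeasurable
    (sc_sd_cylM_nn _ vc I) h

theorem sc_sd_cylM_integrable (hD : D.Ok G τ Λ) (I : Set ℝ) {vc : E m × ℝ → ℝ}
    (hvc : ScTc D.U vc) {h : E m → ℝ} (hh : Continuous h) : Integrable h (D.cylM I vc) :=
  sc_sd_wd_integrable (sc_sd_cylM_meas hvc.smooth.continuous I).aemeasurable
    (sc_sd_cylM_nn _ vc I) (sc_sd_cylM_dint hD I hvc hh)

theorem sc_sd_line_pos {U : Set (E m)} {vc : E m × ℝ → ℝ} (hvc : ScTc U vc) {I : Set ℝ}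
    (hI : IsOpen I) {x : E m} (h : ∃ t ∈ I, vc (x, t) ≠ 0) : 0 < ∫ t in I, vc (x, t) ^ 2 := by
  have hc : Continuous fun t => vc (x, t) ^ 2 :=
    (hvc.smooth.continuous.comp (continuous_const.prodMk continuous_id)).pow 2
  have hi : Integrable fun t => vc (x, t) ^ 2 :=
    sc_sd_line_int hvc (F := fun y => vc y ^ 2) (hvc.smooth.continuous.pow 2)
      (fun y hy => by rw [image_eq_zero_of_notMem_tsupport hy]; simp) x
  rw [setIntegral_pos_iff_support_of_nonneg_ae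
    (Filter.Eventually.of_forall fun t => sq_nonneg _) hi.integrableOn]
  obtain ⟨t, ht, hv⟩ := h
  exact (hc.isOpen_support.inter hI).measure_pos volume ⟨t, pow_ne_zero 2 hv, ht⟩

theorem sc_sd_cylM_ae {I : Set ℝ} (hI : IsOpen I) {vc : E m × ℝ → ℝ} (hvc : ScTc D.U vc)
    {P : E m → Prop} (h : ∀ᵐ x ∂(D.cylM I vc), P x) :
    ∀ᵐ x ∂D.mu, (∃ t ∈ I, vc (x, t) ≠ 0) → P x := by
  have h1 := (sc_sd_wd_ae (sc_sd_cylM_meas hvc.smooth.continuous I).aemeasurable).1 h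
  filter_upwards [h1] with x hx hv
  exact hx (sc_sd_line_pos hvc hI hv)

/-! ### the seam -/

theorem sc_sd_seam_1d {g : ℝ → ℝ} (hg : ContDiff ℝ 1 g) (hc : HasCompactSupport g) {a : ℝ}
    (ha : 0 < a) : g 0 ^ 2 ≤ ∫ t in Ioi (0 : ℝ), (a * g t ^ 2 + a⁻¹ * deriv g t ^ 2) := by
  have hgc : Continuous g := hg.continuous
  have hd : Differentiable ℝ g := hg.differentiable one_ne_zero
  have hdc : Continuous (deriv g) := hg.continuous_deriv le_rfl
  have hdcs : HasCompactSupport (deriv g) := hc.deriv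
  have i1 : Integrable fun t => a * g t ^ 2 + a⁻¹ * deriv g t ^ 2 := by
    refine Continuous.integrable_of_hasCompactSupport (by fun_prop) ?_
    refine HasCompactSupport.add ?_ ?_
    · refine hc.mono fun t ht => ?_
      simp only [Function.mem_support, ne_eq] at ht ⊢
      intro h0; exact ht (by simp [h0])
    · refine hdcs.mono fun t ht => ?_
      simp only [Function.mem_support, ne_eq] at ht ⊢
      intro h0; exact ht (by simp [h0])
  have i2 : Integrable fun t => 2 * g t * deriv g t := by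
    refine Continuous.integrable_of_hasCompactSupport (by fun_prop) ?_
    refine hc.mono fun t ht => ?_
    simp only [Function.mem_support, ne_eq] at ht ⊢
    intro h0; exact ht (by simp [h0])
  have hlim : Filter.Tendsto (fun t => g t ^ 2) Filter.atTop (𝓝 0) := by
    obtain ⟨R, hR⟩ := hc.isCompact.isBounded.subset_closedBall (0 : ℝ)
    refine tendsto_const_nhds.congr' ?_
    filter_upwards [Filter.eventually_gt_atTop R] with t ht
    have : t ∉ tsupport g := fun h => by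
      have := hR h
      rw [mem_closedBall_zero_iff, Real.norm_eq_abs] at this
      linarith [le_abs_self t]
    rw [image_eq_zero_of_notMem_tsupport this]
    simp
  have key := integral_Ioi_of_hasDerivAt_of_tendsto (f := fun t => g t ^ 2)
    (f' := fun t => 2 * g t * deriv g t) (a := 0) (m := 0)
    ((hgc.pow 2).continuousWithinAt)
    (fun t _ => by
      have := (hd t).hasDerivAt.fun_pow 2
      simpa using this) i2.integrableOn hlim
  have h1 : g 0 ^ 2 = ∫ t in Ioi (0 : ℝ), -(2 * g t * deriv g t) := by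
    rw [integral_neg, key]; ring
  rw [h1]
  refine setIntegral_mono_on i2.neg.integrableOn i1.integrableOn measurableSet_Ioi fun t _ => ?_
  have h2 : 0 ≤ a⁻¹ * (a * g t + deriv g t) ^ 2 := by positivity
  have h3 : a⁻¹ * (a * g t + deriv g t) ^ 2
      = a * g t ^ 2 + a⁻¹ * deriv g t ^ 2 + 2 * g t * deriv g t := by
    field_simp
    ring
  linarith

theorem sc_sd_seam (hD : D.Ok G τ Λ) {v : (E m → ℝ) × (E m × ℝ → ℝ)} (hv : D.IsJ v) (z : E m)
    (L : Submodule ℝ (E m)) {κ : ℝ} (hκ : 0 < κ) :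
    ∫ x, v.1 x ^ 2 * (Real.sqrt (scZ2 z L κ x))⁻¹ ∂D.mu ≤
      0.5 * ∫ x, (∫ t in Ioi (0 : ℝ), v.2 (x, t) ^ 2) * (scZ2 z L κ x)⁻¹ ∂D.mu +
      2 * ∫ x, (∫ t in Ioi (0 : ℝ), scDt v.2 x t ^ 2) ∂D.mu := by
  have := sc_sd_sigmaFinite hD
  have i1 := (sc_sd_cylM_dint hD (Ioi 0) hv.c (sc_sd_inv_cont z L hκ)).const_mul 0.5
  have i2 := (sc_sd_prod_T hD (Ioi 0) hv.c).integral_prod_left.const_mul 2
  rw [← integral_const_mul, ← integral_const_mul, ← integral_add i1 i2]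
  refine sc_sd_integral_le (i1.add i2) (Filter.Eventually.of_forall fun x => ?_) ?_
  · have hq := scZ2_pos z L hκ x
    have h1 : 0 ≤ ∫ t in Ioi (0 : ℝ), v.2 (x, t) ^ 2 := integral_nonneg fun _ => sq_nonneg _
    have h2 : 0 ≤ ∫ t in Ioi (0 : ℝ), scDt v.2 x t ^ 2 := integral_nonneg fun _ => sq_nonneg _
    positivity
  filter_upwards [hv.seam] with x hx
  have hq := scZ2_pos z L hκ x
  have hs : 0 < (Real.sqrt (scZ2 z L κ x))⁻¹ := inv_pos.2 (Real.sqrt_pos.2 hq)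
  have hs2 : (Real.sqrt (scZ2 z L κ x))⁻¹ ^ 2 = (scZ2 z L κ x)⁻¹ := by
    rw [inv_pow, Real.sq_sqrt hq.le]
  have hg : ContDiff ℝ 1 fun t => v.2 (x, t) :=
    (hv.c.smooth.comp (contDiff_const.prodMk contDiff_id)).of_le (by simp)
  have hc : HasCompactSupport fun t => v.2 (x, t) :=
    HasCompactSupport.intro (hv.c.cpt.image continuous_snd) fun t ht =>
      image_eq_zero_of_notMem_tsupport fun hy => ht ⟨(x, t), hy, rfl⟩
  have j1 : Integrable fun t => v.2 (x, t) ^ 2 :=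
    sc_sd_line_int hv.c (F := fun y => v.2 y ^ 2) (hv.c.smooth.continuous.pow 2)
      (fun y hy => by rw [image_eq_zero_of_notMem_tsupport hy]; simp) x
  have j2 : Integrable fun t => scDt v.2 x t ^ 2 :=
    sc_sd_line_int hv.c (F := fun y => scDt v.2 y.1 y.2 ^ 2) ((sc_sd_dt_cont hv.c.smooth).pow 2)
      (fun y hy => by rw [sc_sd_dt_zero hv.c.smooth hy]; simp) x
  have ha : 0 < (Real.sqrt (scZ2 z L κ x))⁻¹ / 2 := by positivity
  have h1 := sc_sd_seam_1d hg hc ha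
  have h2 : ∫ t in Ioi (0 : ℝ), ((Real.sqrt (scZ2 z L κ x))⁻¹ / 2 * v.2 (x, t) ^ 2 +
      ((Real.sqrt (scZ2 z L κ x))⁻¹ / 2)⁻¹ * deriv (fun t => v.2 (x, t)) t ^ 2) =
      (Real.sqrt (scZ2 z L κ x))⁻¹ / 2 * (∫ t in Ioi (0 : ℝ), v.2 (x, t) ^ 2) +
      ((Real.sqrt (scZ2 z L κ x))⁻¹ / 2)⁻¹ * ∫ t in Ioi (0 : ℝ), scDt v.2 x t ^ 2 := by
    rw [← integral_const_mul, ← integral_const_mul]
    exact integral_add (j1.restrict.const_mul _) (j2.restrict.const_mul _)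
  rw [h2, hx] at h1
  have h3 := mul_le_mul_of_nonneg_right h1 hs.le
  have h4 : ((Real.sqrt (scZ2 z L κ x))⁻¹ / 2)⁻¹ * (Real.sqrt (scZ2 z L κ x))⁻¹ = 2 := by
    field_simp
  rw [← hs2]
  have h5 : (((Real.sqrt (scZ2 z L κ x))⁻¹ / 2 * ∫ t in Ioi (0 : ℝ), v.2 (x, t) ^ 2) +
      ((Real.sqrt (scZ2 z L κ x))⁻¹ / 2)⁻¹ * ∫ t in Ioi (0 : ℝ), scDt v.2 x t ^ 2) *
      (Real.sqrt (scZ2 z L κ x))⁻¹ =
      0.5 * ((∫ t in Ioi (0 : ℝ), v.2 (x, t) ^ 2) * (Real.sqrt (scZ2 z L κ x))⁻¹ ^ 2) +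
      (((Real.sqrt (scZ2 z L κ x))⁻¹ / 2)⁻¹ * (Real.sqrt (scZ2 z L κ x))⁻¹) *
        ∫ t in Ioi (0 : ℝ), scDt v.2 x t ^ 2 := by ring
  rw [h5, h4] at h3
  exact h3

end

end Claimed.Agent.R315
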