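import Claimed.Agent.R315.Sc.Side

/-!
# Row 315, package Sc (P Appendix C.2), part 7: **(HY) IN A CHART** (export to SH-GLOB).   Architect: helper257.   PACKAGE L-SC-TOP.

`F` closed, nonempty, `(η₀, r_F)`-flat (`ScFlat` = conclusion of `Gmt.gmt_sing_flat`; also `F × ℝ^k`), `δ = infDist · F` (Euclidean distance of the chart),
the data are controlled (`ScCh.Ok`) on `G = U ∩ {δ ≤ r₀}`.  Tests are LOCAL: smooth on `U` only, and `{δ ≤ r₀} ∩ supp` is relatively compact in `U` (`ScLoc`):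
no condition away from `F`, they may meet `F` and the singular set.  For all `ρ > 0`:
`3.55 ∫_{δ<d} max(δ,ρ)⁻² v² ≤ N_{δ < r₀}(v) + C ∫_{δ < r₀} v²`,  `d, C` depend only on `m, r_F, r₀, Λ`.

PROOF (the same three times).  `η₀` from `sc_hardy_abs m`; `τ₀, c₀` from `sc_sp?_ok`; `ζ₀ = c₀/(Λ+1)`; `d', C'` from `sc_hardy_abs` for `(r_F, ζ₀)`.
Cut `(c, g) = sc_cut F (W := 1) (s := s₁)`, `s₁ = r₀/(e+1)`: `c = 1` on `{δ ≤ 3s₁/4}` (as `g = 0`, `c² = 1`; only `c² = 1` is used), `c = 0` on `{δ ≥ r₀}`.  `d = min d' (3s₁/4)`.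
`w₁ = c · w · 1_U` is a test (`sc_loc_test`: smooth at `x ∈ U`; near `x ∉ U` it vanishes, since the compact `K ⊆ U` of `ScLoc` has positive distance to `x`).
Apply `sc_hardy_abs` to `w₁` (it lives in `G`).  Pointwise `Qw(∇(c w)) ≤ Qw(∇(c w)) + Qw(∇(g w)) = Qw(∇w) + w² (Qw(∇c) + Qw(∇g)) ≤ Qw(∇ w) + 1.005 e w²`,
`e ≤ 25/16 scb (3s₁/4)⁻²`, and `c w = 0` near every point with `δ ≥ r₀`.  On the OPEN tube the integrands vanish off the compact `K` of `ScLoc` (so they are integrable).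
(3.55 and not 3.5: the gauge of `Sh/Defs.lean` is `0.995 ×` the chart distance, `3.5/0.995² ≤ 3.55`.)
WINDOWS (`sc_qw_win`): for `θ = ∏ c_i` (`c_i² + g_i² = 1`) pointwise `Qw(∇(θ w)) ≤ Qw(∇ w) + 1.005 (∑ b_i) w²`: induction on the number of factors, `(∏ c_i)² ≤ 1`, two-piece identity `sc_qw_pair`.  `C = C' + 1.71 · 25/16 scb (3s₁/4)⁻²`.
-/

set_option autoImplicit false
open scoped ContDiff Topology ENNReal RealInnerProductSpace
open MeasureTheory Set Metric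

namespace Claimed.Agent.R315

noncomputable section

variable {m : ℕ}

/-- local scalar tests. -/
def ScLoc (U F : Set (E m)) (r₀ : ℝ) (w : E m → ℝ) : Prop :=
  ContDiffOn ℝ ∞ w U ∧ ∃ K, IsCompact K ∧ K ⊆ U ∧ ∀ x ∈ U, infDist x F ≤ r₀ → w x ≠ 0 → x ∈ K

/-- local cylinder tests. -/
def ScLocC (U F : Set (E m)) (r₀ : ℝ) (vc : E m × ℝ → ℝ) : Prop :=
  ContDiffOn ℝ ∞ vc (U ×ˢ (univ : Set ℝ)) ∧ ∃ K, IsCompact K ∧ K ⊆ U ×ˢ (univ : Set ℝ) ∧
    ∀ y : E m × ℝ, y.1 ∈ U → infDist y.1 F ≤ r₀ → vc y ≠ 0 → y ∈ K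

/-- the closed tube. -/
def scTube (F : Set (E m)) (r : ℝ) : Set (E m) := {x | infDist x F ≤ r}

/-- the open tube. -/
def scTubeO (F : Set (E m)) (r : ℝ) : Set (E m) := {x | infDist x F < r}

/-- smooth extension by zero of a product with a cut-off (general normed space). -/
theorem sct_test_aux {X : Type*} [NormedAddCommGroup X] [NormedSpace ℝ X] {U K : Set X}
    (hU : IsOpen U) (hK : IsCompact K) (hKU : K ⊆ U) {w c : X → ℝ} (hw : ContDiffOn ℝ ∞ w U)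
    (hc : ContDiff ℝ ∞ c) (hs : ∀ x ∈ U, c x ≠ 0 → w x ≠ 0 → x ∈ K) :
    ContDiff ℝ ∞ (fun x => c x * U.indicator w x) ∧
      HasCompactSupport (fun x => c x * U.indicator w x) ∧
      tsupport (fun x => c x * U.indicator w x) ⊆ U := by
  have hsupp : Function.support (fun x => c x * U.indicator w x) ⊆ K := by
    intro x hx
    have hx' : c x * U.indicator w x ≠ 0 := hx
    have h1 : c x ≠ 0 := left_ne_zero_of_mul hx'
    have h2 : U.indicator w x ≠ 0 := right_ne_zero_of_mul hx'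
    have hxU : x ∈ U := by
      by_contra h
      exact h2 (indicator_of_notMem h w)
    rw [indicator_of_mem hxU] at h2
    exact hs x hxU h1 h2
  have hts : tsupport (fun x => c x * U.indicator w x) ⊆ K := closure_minimal hsupp hK.isClosed
  refine ⟨?_, HasCompactSupport.of_support_subset_isCompact hK hsupp, hts.trans hKU⟩
  rw [contDiff_iff_contDiffAt]
  intro x
  by_cases hx : x ∈ U
  · have h1 : ContDiffAt ℝ ∞ (fun x => c x * w x) x :=
      hc.contDiffAt.mul (hw.contDiffAt (hU.mem_nhds hx))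
    refine h1.congr_of_eventuallyEq ?_
    filter_upwards [hU.mem_nhds hx] with y hy
    rw [indicator_of_mem hy]
  · have hxK : x ∉ K := fun h => hx (hKU h)
    refine (contDiffAt_const (c := (0 : ℝ))).congr_of_eventuallyEq ?_
    filter_upwards [hK.isClosed.isOpen_compl.mem_nhds hxK] with y hy
    by_contra h
    exact hy (hsupp h)

theorem sc_loc_test {U F : Set (E m)} (hU : IsOpen U) {r₀ : ℝ} {w c : E m → ℝ} (hw : ScLoc U F r₀ w)
    (hc : ContDiff ℝ ∞ c) (hc0 : ∀ x, r₀ ≤ infDist x F → c x = 0) :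
    ScTw U (fun x => c x * U.indicator w x) := by
  obtain ⟨hws, K, hK, hKU, hKw⟩ := hw
  obtain ⟨h1, h2, h3⟩ := sct_test_aux hU hK hKU hws hc fun x hx hcx hwx =>
    hKw x hx (by
      by_contra h
      exact hcx (hc0 x (not_le.1 h).le)) hwx
  exact ⟨h1, h2, h3⟩

theorem sc_loc_testC {U F : Set (E m)} (hU : IsOpen U) {r₀ : ℝ} {vc : E m × ℝ → ℝ} {c : E m → ℝ}
    (hw : ScLocC U F r₀ vc) (hc : ContDiff ℝ ∞ c) (hc0 : ∀ x, r₀ ≤ infDist x F → c x = 0) :
    ScTc U (fun y => c y.1 * (U ×ˢ (univ : Set ℝ)).indicator vc y) := by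
  obtain ⟨hws, K, hK, hKU, hKw⟩ := hw
  obtain ⟨h1, h2, h3⟩ := sct_test_aux (c := fun y : E m × ℝ => c y.1) (hU.prod isOpen_univ) hK hKU hws
    (hc.comp contDiff_fst) fun y hy hcy hwy =>
    hKw y hy.1 (by
      by_contra h
      exact hcy (hc0 y.1 (not_le.1 h).le)) hwy
  exact ⟨h1, h2, h3⟩

/-- windows: finite products of IMS cut-offs. -/
def ScWin (θ : E m → ℝ) (B₀ : ℝ) : Prop :=
  ∃ (n : ℕ) (c g : Fin n → E m → ℝ) (b : Fin n → ℝ),
    (∀ i, ContDiff ℝ ∞ (c i) ∧ ContDiff ℝ ∞ (g i)) ∧ (∀ i x, c i x ^ 2 + g i x ^ 2 = 1) ∧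
    (∀ i x, ‖fderiv ℝ (c i) x‖ ^ 2 + ‖fderiv ℝ (g i) x‖ ^ 2 ≤ b i) ∧ (∀ x, θ x = ∏ i, c i x) ∧
    ∑ i, b i ≤ B₀

theorem sct_qb_add_right (B : Gmt.Bil m) (ν ξ a b : E m) (s t : ℝ) :
    scQb B ν ξ (s • a + t • b) = s * scQb B ν ξ a + t * scQb B ν ξ b := by
  unfold scQb
  simp only [map_add, map_smul, _root_.add_apply, _root_.smul_apply, smul_eq_mul]
  ring

theorem sct_pair_grad {c g : E m → ℝ} (hc : ContDiff ℝ ∞ c) (hg : ContDiff ℝ ∞ g)
    (hsum : ∀ y, c y ^ 2 + g y ^ 2 = 1) (x : E m) :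
    c x • gradient c x + g x • gradient g x = 0 := by
  apply ext_inner_right ℝ
  intro a
  have h := sc_sum_chi_fderiv (Finset.univ : Finset (Fin 2)) ![c, g]
    (fun i _ => by fin_cases i <;> simp [hc, hg]) (fun y => by simpa [Fin.sum_univ_two] using hsum y) x a
  rw [inner_add_left, real_inner_smul_left, real_inner_smul_left, sc_grad_inner, sc_grad_inner,
    inner_zero_left]
  simpa [Fin.sum_univ_two] using h

/-- the first half of `sc_qw_pair`, all `ν`. -/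
theorem sct_qw_pair {B : Gmt.Bil m} (hs : ∀ ξ η, B ξ η = B η ξ) (hp : ∀ ξ, ξ ≠ 0 → 0 < B ξ ξ)
    (hB : ∀ ξ : E m, B ξ ξ ≤ 1.005 * ‖ξ‖ ^ 2) (ν : E m) {c g w : E m → ℝ} {x : E m}
    (hc : ContDiff ℝ ∞ c) (hg : ContDiff ℝ ∞ g) (hsum : ∀ y, c y ^ 2 + g y ^ 2 = 1)
    (hw : DifferentiableAt ℝ w x) :
    scQw B ν (gradient (fun y => c y * w y) x) ≤ scQw B ν (gradient w x) +
      1.005 * (‖fderiv ℝ c x‖ ^ 2 + ‖fderiv ℝ g x‖ ^ 2) * w x ^ 2 := by
  have hdc : DifferentiableAt ℝ c x := (hc.differentiable (by simp)) x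
  have hdg : DifferentiableAt ℝ g x := (hg.differentiable (by simp)) x
  have hz := sct_pair_grad hc hg hsum x
  have e1 := scQw_add_smul B hs ν (gradient w x) (gradient c x) (c x) (w x)
  have e2 := scQw_add_smul B hs ν (gradient w x) (gradient g x) (g x) (w x)
  have e3 := sct_qb_add_right B ν (gradient w x) (gradient c x) (gradient g x) (c x) (g x)
  rw [hz] at e3
  have e4 : scQb B ν (gradient w x) 0 = 0 := by simp [scQb]
  rw [e4] at e3
  have n2 := (scQw_bounds hs hp ν (g x • gradient w x + w x • gradient g x)).1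
  have b1 := ((scQw_bounds hs hp ν (gradient c x)).2).trans (hB _)
  have b2 := ((scQw_bounds hs hp ν (gradient g x)).2).trans (hB _)
  rw [sc_grad_norm] at b1 b2
  rw [sc_grad_mul hdc hw, e1]
  rw [e2] at n2
  have hsx := hsum x
  have hw2 : 0 ≤ w x ^ 2 := sq_nonneg _
  have k1 := mul_le_mul_of_nonneg_left b1 hw2
  have k2 := mul_le_mul_of_nonneg_left b2 hw2
  have key : c x ^ 2 * scQw B ν (gradient w x) + g x ^ 2 * scQw B ν (gradient w x)
      = scQw B ν (gradient w x) := by rw [← add_mul, hsx, one_mul]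
  have key2 : 2 * c x * w x * scQb B ν (gradient w x) (gradient c x)
      + 2 * g x * w x * scQb B ν (gradient w x) (gradient g x) = 0 := by
    linear_combination (-2 * w x) * e3
  nlinarith

/-- the two-piece pointwise IMS inequality (`B` symmetric positive definite, `B ξ ξ ≤ 1.005 |ξ|²`). -/
theorem sc_qw_pair {B : Gmt.Bil m} (hs : ∀ ξ η, B ξ η = B η ξ) (hp : ∀ ξ, ξ ≠ 0 → 0 < B ξ ξ)
    (hB : ∀ ξ : E m, B ξ ξ ≤ 1.005 * ‖ξ‖ ^ 2) (ν : E m) {c g w : E m → ℝ} {x : E m}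
    (hc : ContDiff ℝ ∞ c) (hg : ContDiff ℝ ∞ g) (hsum : ∀ y, c y ^ 2 + g y ^ 2 = 1)
    (hw : DifferentiableAt ℝ w x) :
    scQw B ν (gradient (fun y => c y * w y) x) ≤ scQw B ν (gradient w x) +
      1.005 * (‖fderiv ℝ c x‖ ^ 2 + ‖fderiv ℝ g x‖ ^ 2) * w x ^ 2 ∧
    B (gradient (fun y => c y * w y) x) (gradient (fun y => c y * w y) x) ≤
      B (gradient w x) (gradient w x) +
      1.005 * (‖fderiv ℝ c x‖ ^ 2 + ‖fderiv ℝ g x‖ ^ 2) * w x ^ 2 := by
  refine ⟨sct_qw_pair hs hp hB ν hc hg hsum hw, ?_⟩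
  have h := sct_qw_pair hs hp hB 0 hc hg hsum hw
  have e : ∀ ξ : E m, scQw B 0 ξ = B ξ ξ := fun ξ => by simp [scQw]
  rwa [e, e] at h

/-- finite products of cut-offs, over a finset. -/
theorem sct_qw_win {B : Gmt.Bil m} (hs : ∀ ξ η, B ξ η = B η ξ) (hp : ∀ ξ, ξ ≠ 0 → 0 < B ξ ξ)
    (hB : ∀ ξ : E m, B ξ ξ ≤ 1.005 * ‖ξ‖ ^ 2) (ν : E m) {ι : Type} (s : Finset ι)
    (c g : ι → E m → ℝ) (b : ι → ℝ) (hcg : ∀ i, ContDiff ℝ ∞ (c i) ∧ ContDiff ℝ ∞ (g i))
    (hsum : ∀ i x, c i x ^ 2 + g i x ^ 2 = 1)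
    (hb : ∀ i x, ‖fderiv ℝ (c i) x‖ ^ 2 + ‖fderiv ℝ (g i) x‖ ^ 2 ≤ b i) {w : E m → ℝ} {x : E m}
    (hw : DifferentiableAt ℝ w x) :
    scQw B ν (gradient (fun y => (∏ i ∈ s, c i y) * w y) x) ≤
      scQw B ν (gradient w x) + 1.005 * (∑ i ∈ s, b i) * w x ^ 2 ∧ (∏ i ∈ s, c i x) ^ 2 ≤ 1 := by
  classical
  induction s using Finset.induction_on with
  | empty => simp
  | insert a s ha ih =>
    obtain ⟨ih1, ih2⟩ := ih
    have hd : DifferentiableAt ℝ (fun y => (∏ i ∈ s, c i y) * w y) x := by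
      refine DifferentiableAt.fun_mul ?_ hw
      exact ((contDiff_prod (t := s) (f := c) fun i _ => (hcg i).1).differentiable (by simp)) x
    have h1 := sct_qw_pair hs hp hB ν (hcg a).1 (hcg a).2 (hsum a) hd
    have e : (fun y => (∏ i ∈ insert a s, c i y) * w y) =
        fun y => c a y * ((∏ i ∈ s, c i y) * w y) := by
      funext y
      rw [Finset.prod_insert ha, mul_assoc]
    have hca : c a x ^ 2 ≤ 1 := by nlinarith [hsum a x, sq_nonneg (g a x)]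
    have hba := hb a x
    have hba0 : 0 ≤ ‖fderiv ℝ (c a) x‖ ^ 2 + ‖fderiv ℝ (g a) x‖ ^ 2 := by positivity
    constructor
    · rw [e, Finset.sum_insert ha]
      have k1 : ((∏ i ∈ s, c i x) * w x) ^ 2 ≤ w x ^ 2 := by
        rw [mul_pow]
        nlinarith [sq_nonneg (w x)]
      have k2 : (‖fderiv ℝ (c a) x‖ ^ 2 + ‖fderiv ℝ (g a) x‖ ^ 2) * ((∏ i ∈ s, c i x) * w x) ^ 2
          ≤ b a * w x ^ 2 := mul_le_mul hba k1 (sq_nonneg _) (hba0.trans hba)
      nlinarith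
    · rw [Finset.prod_insert ha, mul_pow]
      nlinarith [sq_nonneg (c a x), sq_nonneg (∏ i ∈ s, c i x)]

/-- the pointwise IMS inequality for a window. -/
theorem sc_qw_win {B : Gmt.Bil m} (hs : ∀ ξ η, B ξ η = B η ξ) (hp : ∀ ξ, ξ ≠ 0 → 0 < B ξ ξ)
    (hB : ∀ ξ : E m, B ξ ξ ≤ 1.005 * ‖ξ‖ ^ 2) (ν : E m) {θ w : E m → ℝ} {B₀ : ℝ} (hθ : ScWin θ B₀)
    {x : E m} (hw : DifferentiableAt ℝ w x) :
    scQw B ν (gradient (fun y => θ y * w y) x) ≤ scQw B ν (gradient w x) + 1.005 * B₀ * w x ^ 2 ∧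
    B (gradient (fun y => θ y * w y) x) (gradient (fun y => θ y * w y) x) ≤
      B (gradient w x) (gradient w x) + 1.005 * B₀ * w x ^ 2 ∧ θ x ^ 2 ≤ 1 := by
  obtain ⟨n, c, g, b, hcg, hsum, hb, hθe, hbB⟩ := hθ
  have e : (fun y => θ y * w y) = fun y => (∏ i ∈ (Finset.univ : Finset (Fin n)), c i y) * w y := by
    funext y
    rw [hθe]
  have h1 := sct_qw_win hs hp hB ν Finset.univ c g b hcg hsum hb hw
  have h2 := sct_qw_win hs hp hB 0 Finset.univ c g b hcg hsum hb hw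
  have e0 : ∀ ξ : E m, scQw B 0 ξ = B ξ ξ := fun ξ => by simp [scQw]
  rw [e0, e0] at h2
  have hw2 : 0 ≤ w x ^ 2 := sq_nonneg _
  have k : 1.005 * (∑ i, b i) * w x ^ 2 ≤ 1.005 * B₀ * w x ^ 2 := by
    have := mul_le_mul_of_nonneg_right hbB hw2
    nlinarith
  rw [e, hθe]
  exact ⟨h1.1.trans (by linarith), h2.1.trans (by linarith), h1.2⟩

/-! ### tools for the three proofs -/

theorem sct_tubeO_open (F : Set (E m)) (r : ℝ) : IsOpen (scTubeO F r) :=
  isOpen_lt (continuous_infDist_pt F) continuous_const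

theorem sct_tubeO_meas (F : Set (E m)) (r : ℝ) : MeasurableSet (scTubeO F r) :=
  (sct_tubeO_open F r).measurableSet

/-- the cut of the three proofs. -/
theorem sct_cut (F : Set (E m)) {r₀ : ℝ} (hr : 0 < r₀) :
    ∃ c g : E m → ℝ, ContDiff ℝ ∞ c ∧ ContDiff ℝ ∞ g ∧ (∀ x, c x ^ 2 + g x ^ 2 = 1) ∧
      (∀ x, infDist x F ≤ 3 / 4 * (r₀ / (Real.exp 1 + 1)) → c x ^ 2 = 1) ∧
      (∀ x, r₀ ≤ infDist x F → c =ᶠ[𝓝 x] 0) ∧
      (∀ x, ‖fderiv ℝ c x‖ ^ 2 + ‖fderiv ℝ g x‖ ^ 2 ≤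
        25 / 16 * scb * ((3 / 4 * (r₀ / (Real.exp 1 + 1))) ^ 2)⁻¹) := by
  have he : 0 < Real.exp 1 := Real.exp_pos 1
  have hs : 0 < r₀ / (Real.exp 1 + 1) := by positivity
  obtain ⟨s₁, hs₁⟩ : ∃ s₁ : ℝ, s₁ = r₀ / (Real.exp 1 + 1) := ⟨_, rfl⟩
  rw [← hs₁] at hs ⊢
  have hr₀ : r₀ = (Real.exp 1 + 1) * s₁ := by rw [hs₁]; field_simp
  obtain ⟨c, g, hc, hg, hsum, hg0, hc0, hle, hz⟩ := sc_cut F (W := 1) one_pos hs
  refine ⟨c, g, hc, hg, hsum, fun x hx => ?_, fun x hx => ?_, fun x => ?_⟩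
  · have := hsum x
    rw [hg0 x hx] at this
    linarith
  · have hop : IsOpen {y : E m | (Real.exp 1 + 1 / 4) * s₁ < infDist y F} :=
      isOpen_lt continuous_const (continuous_infDist_pt F)
    have hxm : x ∈ {y : E m | (Real.exp 1 + 1 / 4) * s₁ < infDist y F} := by
      show (Real.exp 1 + 1 / 4) * s₁ < infDist x F
      nlinarith
    filter_upwards [hop.mem_nhds hxm] with y hy
    exact hc0 y (le_of_lt hy)
  · have hb := scb_spec.1
    by_cases hx : infDist x F ≤ 3 / 4 * s₁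
    · obtain ⟨e1, e2⟩ := hz x (Or.inl hx)
      rw [e1, e2]
      have : (0 : ℝ) ≤ 25 / 16 * scb * ((3 / 4 * s₁) ^ 2)⁻¹ := by positivity
      simpa using this
    · push Not at hx
      refine (hle x).trans ?_
      have h1 : (infDist x F ^ 2)⁻¹ ≤ ((3 / 4 * s₁) ^ 2)⁻¹ :=
        inv_anti₀ (by positivity) (pow_le_pow_left₀ (by positivity) hx.le 2)
      have h2 : 25 / 16 * scb / 1 ^ 2 = 25 / 16 * scb := by norm_num
      rw [h2]
      exact mul_le_mul_of_nonneg_left h1 (by positivity)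

/-- upper comparison of integrals. -/
theorem sct_int_le {α : Type*} [MeasurableSpace α] {ν : Measure α} {T : Set α}
    (hT : MeasurableSet T) {f₁ f : α → ℝ} (h0 : 0 ≤ᵐ[ν] f₁) (hf : IntegrableOn f T ν)
    (hle : ∀ᵐ x ∂ν, x ∈ T → f₁ x ≤ f x) (hz : ∀ᵐ x ∂ν, x ∉ T → f₁ x = 0) :
    ∫ x, f₁ x ∂ν ≤ ∫ x in T, f x ∂ν := by
  rw [← integral_indicator hT]
  refine integral_mono_of_nonneg h0 (hf.integrable_indicator hT) ?_
  filter_upwards [hle, hz] with x h1 h2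
  by_cases hx : x ∈ T
  · rw [indicator_of_mem hx]; exact h1 hx
  · rw [indicator_of_notMem hx, h2 hx]

/-- lower comparison of integrals. -/
theorem sct_le_int {α : Type*} [MeasurableSpace α] {ν : Measure α} {T : Set α}
    (hT : MeasurableSet T) {f f₁ : α → ℝ} (hf₁ : Integrable f₁ ν) (h0 : 0 ≤ᵐ[ν] f₁)
    (hf0 : ∀ᵐ x ∂ν, x ∈ T → 0 ≤ f x) (hle : ∀ᵐ x ∂ν, x ∈ T → f x ≤ f₁ x) :
    ∫ x in T, f x ∂ν ≤ ∫ x, f₁ x ∂ν := by
  rw [← integral_indicator hT]
  refine integral_mono_of_nonneg ?_ hf₁ ?_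
  · filter_upwards [hf0] with x h1
    by_cases hx : x ∈ T
    · rw [indicator_of_mem hx]; exact h1 hx
    · rw [indicator_of_notMem hx]; rfl
  · filter_upwards [hle, h0] with x h1 h2
    by_cases hx : x ∈ T
    · rw [indicator_of_mem hx]; exact h1 hx
    · rw [indicator_of_notMem hx]; exact h2

/-- integrals with respect to `ν.withDensity (ofReal φ)`. -/
theorem sct_wd_int {α : Type*} [MeasurableSpace α] (ν : Measure α) {φ : α → ℝ}
    (hφ : AEMeasurable φ ν) (h0 : 0 ≤ᵐ[ν] φ) (g : α → ℝ) :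
    ∫ x, g x ∂(ν.withDensity fun x => ENNReal.ofReal (φ x)) = ∫ x, φ x * g x ∂ν := by
  rw [integral_withDensity_eq_integral_toReal_smul₀ hφ.ennreal_ofReal
    (Filter.Eventually.of_forall fun x => ENNReal.ofReal_lt_top)]
  refine integral_congr_ae ?_
  filter_upwards [h0] with x hx
  rw [ENNReal.toReal_ofReal hx, smul_eq_mul]

theorem sct_wd_ae {α : Type*} [MeasurableSpace α] (ν : Measure α) {φ : α → ℝ}
    (hφ : AEMeasurable φ ν) {P : α → Prop} (h : ∀ᵐ x ∂ν, φ x ≠ 0 → P x) :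
    ∀ᵐ x ∂(ν.withDensity fun x => ENNReal.ofReal (φ x)), P x := by
  rw [ae_withDensity_iff' hφ.ennreal_ofReal]
  filter_upwards [h] with x hx h1
  refine hx fun h0 => h1 ?_
  rw [h0, ENNReal.ofReal_zero]

theorem sct_scM_meas (F : Set (E m)) (ρ : ℝ) : Measurable (scM F ρ) := by
  unfold scM
  exact (((continuous_infDist_pt F).measurable.max measurable_const).pow_const 2).inv

theorem sct_scM_nonneg (F : Set (E m)) (ρ : ℝ) (x : E m) : 0 ≤ scM F ρ x := by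
  unfold scM
  positivity

theorem sct_scM_le (F : Set (E m)) {ρ : ℝ} (hρ : 0 < ρ) (x : E m) : scM F ρ x ≤ (ρ ^ 2)⁻¹ := by
  unfold scM
  exact inv_anti₀ (by positivity) (pow_le_pow_left₀ hρ.le (le_max_right _ _) 2)

theorem sct_grad_contOn {U : Set (E m)} (hU : IsOpen U) {w : E m → ℝ} (hw : ContDiffOn ℝ ∞ w U) :
    ContinuousOn (gradient w) U := by
  unfold gradient
  exact (InnerProductSpace.toDual ℝ (E m)).symm.continuous.comp_continuousOn
    (hw.continuousOn_fderiv_of_isOpen hU (by simp))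

theorem sct_grad_congr {w w' : E m → ℝ} {x : E m} (h : w =ᶠ[𝓝 x] w') :
    gradient w x = gradient w' x := by
  unfold gradient
  rw [h.fderiv_eq]

theorem sct_grad_zero {w : E m → ℝ} {x : E m} (h : w =ᶠ[𝓝 x] 0) : gradient w x = 0 := by
  rw [sct_grad_congr h]
  unfold gradient
  simp

variable {D : ScCh m} {G F : Set (E m)} {τ Λ r₀ : ℝ}

theorem sct_ae_U (hD : D.Ok G τ Λ) : ∀ᵐ x ∂D.mu, x ∈ D.U := ae_restrict_mem hD.opn.measurableSet

/-- integrability on a measurable set. -/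
theorem sct_intOn (hD : D.Ok G τ Λ) {g : E m → ℝ} (hg : AEStronglyMeasurable g D.mu) {C : ℝ}
    {K T : Set (E m)} (hK : IsCompact K) (hKU : K ⊆ D.U) (hT : MeasurableSet T)
    (hC : ∀ x ∈ K, |g x| ≤ C) (h0 : ∀ x ∈ D.U ∩ T, x ∉ K → g x = 0) : IntegrableOn g T D.mu := by
  have h1 : Integrable ((D.U ∩ T).indicator g) D.mu := by
    refine sc_int_mu' hD (hg.indicator (hD.opn.measurableSet.inter hT)) hK hKU (C := C)
      (fun x hx => ?_) (fun x hx => ?_)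
    · by_cases h : x ∈ D.U ∩ T
      · rw [indicator_of_mem h]; exact hC x hx
      · rw [indicator_of_notMem h, abs_zero]; exact (abs_nonneg _).trans (hC x hx)
    · by_cases h : x ∈ D.U ∩ T
      · rw [indicator_of_mem h]; exact h0 x h hx
      · exact indicator_of_notMem h _
  rw [← integrable_indicator_iff hT]
  refine h1.congr ?_
  filter_upwards [sct_ae_U hD] with x hx
  by_cases h : x ∈ T
  · have h' : x ∈ D.U ∩ T := mem_inter hx h
    rw [indicator_of_mem h, indicator_of_mem h']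
  · have h' : x ∉ D.U ∩ T := fun h' => h (mem_of_mem_inter_right h')
    rw [indicator_of_notMem h, indicator_of_notMem h']

/-- a local test vanishes near the points of the open tube off its compact set. -/
theorem sct_loc_zero {U : Set (E m)} (hU : IsOpen U) {w : E m → ℝ} {K : Set (E m)}
    (hK : IsCompact K) (hKw : ∀ x ∈ U, infDist x F ≤ r₀ → w x ≠ 0 → x ∈ K) {x : E m}
    (hx : x ∈ U ∩ scTubeO F r₀) (hxK : x ∉ K) : w =ᶠ[𝓝 x] 0 := by
  filter_upwards [hU.mem_nhds hx.1, (sct_tubeO_open F r₀).mem_nhds hx.2,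
    hK.isClosed.isOpen_compl.mem_nhds hxK] with y h1 h2 h3
  by_contra h
  exact h3 (hKw y h1 (le_of_lt h2) h)

/-- the form of the chart is `≤ 1.005 |ξ|²` on the tube. -/
theorem sct_close (hD : D.Ok G τ Λ) (hτ : τ ≤ 0.005) {x : E m} (hx : x ∈ G) (ξ : E m) :
    D.Gam x ξ ξ ≤ 1.005 * ‖ξ‖ ^ 2 := by
  have a2 := (abs_le.1 (hD.close x hx ξ)).2
  nlinarith [sq_nonneg ‖ξ‖]

/-- comparison on the wall. -/
theorem sct_wall_cmp (hD : D.Ok (D.U ∩ scTube F r₀) τ Λ) (hτ : τ ≤ 0.005) {w : E m → ℝ}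
    (hw : ScLoc D.U F r₀ w) {c g : E m → ℝ} (hc : ContDiff ℝ ∞ c) (hg : ContDiff ℝ ∞ g)
    (hsum : ∀ x, c x ^ 2 + g x ^ 2 = 1) (hc0 : ∀ x, r₀ ≤ infDist x F → c =ᶠ[𝓝 x] 0) {e₀ : ℝ}
    (he : ∀ x, ‖fderiv ℝ c x‖ ^ 2 + ‖fderiv ℝ g x‖ ^ 2 ≤ e₀) :
    D.wallE (fun x => c x * D.U.indicator w x) ≤
        ∫ x in scTubeO F r₀, scQw (D.Gam x) (D.nu x) (gradient w x) ∂D.mu +
        1.005 * e₀ * ∫ x in scTubeO F r₀, w x ^ 2 ∂D.mu ∧
      ∫ x, (c x * D.U.indicator w x) ^ 2 ∂D.mu ≤ ∫ x in scTubeO F r₀, w x ^ 2 ∂D.mu := by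
  obtain ⟨hws, K, hK, hKU, hKw⟩ := hw
  have hT := sct_tubeO_meas F r₀
  have hU := hD.opn
  have hwm : AEMeasurable w D.mu := hws.continuousOn.aemeasurable hU.measurableSet
  have hgm : AEMeasurable (gradient w) D.mu :=
    (sct_grad_contOn hU hws).aemeasurable hU.measurableSet
  -- integrability
  have hi2 : IntegrableOn (fun x => w x ^ 2) (scTubeO F r₀) D.mu := by
    obtain ⟨C, hC⟩ := hK.bddAbove_image ((hws.continuousOn.mono hKU).pow 2).abs
    refine sct_intOn hD (hwm.pow_const 2).aestronglyMeasurable hK hKU hT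
      (fun x hx => hC (mem_image_of_mem _ hx)) fun x hx hxK => ?_
    have : w x = 0 := (sct_loc_zero hU hK hKw hx hxK).self_of_nhds
    simp [this]
  have hi1 : IntegrableOn (fun x => scQw (D.Gam x) (D.nu x) (gradient w x)) (scTubeO F r₀) D.mu := by
    have hcc : ContinuousOn (fun x => D.Gam x (gradient w x) (gradient w x)) K :=
      ((hD.gam.smooth.continuousOn.mono hKU).clm_apply ((sct_grad_contOn hU hws).mono hKU)).clm_apply
        ((sct_grad_contOn hU hws).mono hKU)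
    obtain ⟨C, hC⟩ := hK.bddAbove_image hcc
    refine sct_intOn hD (hD.aem_Qw hgm).aestronglyMeasurable hK hKU hT (C := C)
      (fun x hx => ?_) fun x hx hxK => ?_
    · obtain ⟨h1, h2⟩ := scQw_bounds (hD.gam.symm x (hKU hx)) (hD.gam.pos x (hKU hx)) (D.nu x)
        (gradient w x)
      rw [abs_of_nonneg h1]
      exact h2.trans (hC (mem_image_of_mem _ hx))
    · rw [sct_grad_zero (sct_loc_zero hU hK hKw hx hxK), scQw_zero]
  constructor
  · unfold ScCh.wallE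
    rw [← integral_const_mul, ← integral_add hi1 (hi2.const_mul _)]
    refine sct_int_le hT ?_ (hi1.add (hi2.const_mul _)) ?_ ?_
    · filter_upwards [sct_ae_U hD] with x hx
      exact (scQw_bounds (hD.gam.symm x hx) (hD.gam.pos x hx) _ _).1
    · filter_upwards [sct_ae_U hD] with x hx hxT
      have hxG : x ∈ D.U ∩ scTube F r₀ := mem_inter hx (le_of_lt (show infDist x F < r₀ from hxT))
      have e1 : (fun x => c x * D.U.indicator w x) =ᶠ[𝓝 x] fun y => c y * w y := by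
        filter_upwards [hU.mem_nhds hx] with y hy
        rw [indicator_of_mem hy]
      rw [sct_grad_congr e1]
      have hdw : DifferentiableAt ℝ w x :=
        (hws.contDiffAt (hU.mem_nhds hx)).differentiableAt (by simp)
      have h1 := sct_qw_pair (hD.gam.symm x hx) (hD.gam.pos x hx) (sct_close hD hτ hxG) (D.nu x)
        hc hg hsum hdw
      have h2 := mul_le_mul_of_nonneg_right (he x) (sq_nonneg (w x))
      nlinarith
    · refine Filter.Eventually.of_forall fun x hxT => ?_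
      have hx' : r₀ ≤ infDist x F := not_lt.1 hxT
      have e1 : (fun x => c x * D.U.indicator w x) =ᶠ[𝓝 x] 0 := by
        filter_upwards [hc0 x hx'] with y hy
        rw [hy]
        simp
      rw [sct_grad_zero e1, scQw_zero]
  · refine sct_int_le hT (Filter.Eventually.of_forall fun x => sq_nonneg _) hi2 ?_ ?_
    · filter_upwards [sct_ae_U hD] with x hx hxT
      rw [indicator_of_mem hx, mul_pow]
      have : c x ^ 2 ≤ 1 := by nlinarith [hsum x, sq_nonneg (g x)]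
      nlinarith [sq_nonneg (w x)]
    · refine Filter.Eventually.of_forall fun x hxT => ?_
      have hx' : r₀ ≤ infDist x F := not_lt.1 hxT
      have : c x = 0 := (hc0 x hx').self_of_nhds
      simp [this]

/-- **(HY) on the wall**. -/
theorem sc_hardy_wall (hm : 8 ≤ m) : ∃ η₀ τ₀ : ℝ, 0 < η₀ ∧ 0 < τ₀ ∧ ∀ rF r₀ Λ : ℝ, 0 < rF → 0 < r₀ →
    0 ≤ Λ → ∃ d C : ℝ, 0 < d ∧ d ≤ r₀ ∧ 0 < C ∧ ∀ (D : ScCh m) (F : Set (E m)), IsClosed F →
    F.Nonempty → ScFlat F η₀ rF → D.Ok (D.U ∩ scTube F r₀) τ₀ Λ →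
    ∀ w : E m → ℝ, ScLoc D.U F r₀ w → ∀ ρ : ℝ, 0 < ρ →
      3.55 * ∫ x in scTubeO F d, scM F ρ x * w x ^ 2 ∂D.mu ≤
        1.7 * ∫ x in scTubeO F r₀, scQw (D.Gam x) (D.nu x) (gradient w x) ∂D.mu +
        C * ∫ x in scTubeO F r₀, w x ^ 2 ∂D.mu := by
  obtain ⟨η₀, hη₀, habs⟩ := sc_hardy_abs m
  obtain ⟨τ₀, c₀, hτ₀, hτ₀', hc₀, hok⟩ := sc_spW_ok hm
  refine ⟨η₀, τ₀, hη₀, hτ₀, fun rF r₀ Λ hrF hr₀ hΛ => ?_⟩
  have hζ : 0 < c₀ / (Λ + 1) := by positivity
  have hΛζ : Λ * (c₀ / (Λ + 1)) ≤ c₀ := by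
    rw [← mul_div_assoc, div_le_iff₀ (by positivity)]; nlinarith
  obtain ⟨d', C', hd', hC', H⟩ := habs rF (c₀ / (Λ + 1)) hrF hζ
  have he1 : 0 < Real.exp 1 := Real.exp_pos 1
  obtain ⟨s₁, hs₁⟩ : ∃ s₁ : ℝ, s₁ = 3 / 4 * (r₀ / (Real.exp 1 + 1)) := ⟨_, rfl⟩
  have hs₁0 : 0 < s₁ := by rw [hs₁]; positivity
  have hs₁r : s₁ ≤ r₀ := by
    rw [hs₁, ← mul_div_assoc, div_le_iff₀ (by positivity)]; nlinarith
  obtain ⟨e₀, he₀⟩ : ∃ e₀ : ℝ, e₀ = 25 / 16 * scb * (s₁ ^ 2)⁻¹ := ⟨_, rfl⟩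
  have he₀0 : 0 < e₀ := by rw [he₀]; have := scb_spec.1; positivity
  refine ⟨min d' s₁, C' + 1.71 * e₀, lt_min hd' hs₁0, (min_le_right _ _).trans hs₁r,
    by positivity, ?_⟩
  intro D F hF hFne hflat hD w hw ρ hρ
  obtain ⟨c, g, hc, hg, hsum, hc1, hc0, he⟩ := sct_cut F hr₀
  rw [← hs₁] at hc1 he
  rw [← he₀] at he
  have hc0' : ∀ x, r₀ ≤ infDist x F → c x = 0 := fun x hx => (hc0 x hx).self_of_nhds
  have hw₁ := sc_loc_test hD.opn hw hc hc0'
  have hX := hok D _ τ₀ Λ _ hD le_rfl hζ hΛζ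
  obtain ⟨hcmp1, hcmp2⟩ := sct_wall_cmp hD hτ₀' hw hc hg hsum hc0 he
  obtain ⟨w₁, hw₁def⟩ : ∃ w₁ : E m → ℝ, w₁ = fun x => c x * D.U.indicator w x := ⟨_, rfl⟩
  rw [← hw₁def] at hw₁ hcmp1
  have hw₁x : ∀ x, w₁ x = c x * D.U.indicator w x := fun x => by rw [hw₁def]
  simp only [← hw₁x] at hcmp2
  have hvG : ∀ᵐ x ∂(D.spW.ms ⟨w₁, hw₁⟩), x ∈ D.U ∩ scTube F r₀ := by
    refine (D.wallM_ae hw₁.smooth.continuous).2 ?_
    filter_upwards [sct_ae_U hD] with x hx hne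
    refine mem_inter hx ?_
    by_contra hcon
    have : r₀ ≤ infDist x F := (not_le.1 hcon).le
    exact hne (by rw [hw₁x, hc0' x this, zero_mul])
  have hmain := H D.spW _ F hX hF hFne hflat ⟨w₁, hw₁⟩ hvG ρ hρ
  have hT' : MeasurableSet {x : E m | infDist x F < d'} := sct_tubeO_meas F d'
  have t1 : ∫ x in {x | infDist x F < d'}, scM F ρ x ∂(D.spW.ms ⟨w₁, hw₁⟩) =
      ∫ x, w₁ x ^ 2 * ({x | infDist x F < d'}.indicator (scM F ρ) x) ∂D.mu := by
    rw [← integral_indicator hT']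
    exact D.wallM_int hw₁.smooth.continuous _
  have t2 : (D.spW.ms ⟨w₁, hw₁⟩ univ).toReal = ∫ x, w₁ x ^ 2 ∂D.mu := by
    have := D.wallM_int hw₁.smooth.continuous (fun _ => (1 : ℝ))
    simp only [integral_const, smul_eq_mul, mul_one] at this
    exact this
  have t3 : D.spW.N ⟨w₁, hw₁⟩ = 1.7 * D.wallE w₁ := rfl
  rw [t1, t2, t3] at hmain
  have hlow : ∫ x in scTubeO F (min d' s₁), scM F ρ x * w x ^ 2 ∂D.mu ≤
      ∫ x, w₁ x ^ 2 * ({x | infDist x F < d'}.indicator (scM F ρ) x) ∂D.mu := by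
    refine sct_le_int (sct_tubeO_meas F _) ?_ ?_ ?_ ?_
    · have h1 := sc_int_w2 hD hw₁ (continuous_const (y := (1 : ℝ)))
      simp only [mul_one] at h1
      refine h1.mul_bdd (c := (ρ ^ 2)⁻¹) ((sct_scM_meas F ρ).indicator hT').aestronglyMeasurable
        (Filter.Eventually.of_forall fun x => ?_)
      rw [Real.norm_eq_abs, abs_of_nonneg (indicator_nonneg (fun y _ => sct_scM_nonneg F ρ y) x)]
      exact (indicator_le_self' (fun y _ => sct_scM_nonneg F ρ y) x).trans (sct_scM_le F hρ x)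
    · exact Filter.Eventually.of_forall fun x =>
        mul_nonneg (sq_nonneg _) (indicator_nonneg (fun y _ => sct_scM_nonneg F ρ y) x)
    · exact Filter.Eventually.of_forall fun x _ => mul_nonneg (sct_scM_nonneg F ρ x) (sq_nonneg _)
    · filter_upwards [sct_ae_U hD] with x hx hxT
      have hxT' : infDist x F < min d' s₁ := hxT
      have h1 : x ∈ {x : E m | infDist x F < d'} := hxT'.trans_le (min_le_left _ _)
      rw [indicator_of_mem h1, hw₁x, indicator_of_mem hx, mul_pow,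
        hc1 x (hxT'.trans_le (min_le_right _ _)).le]
      linarith
  have hB : 0 ≤ ∫ x in scTubeO F r₀, w x ^ 2 ∂D.mu := integral_nonneg fun x => sq_nonneg _
  have k1 := mul_le_mul_of_nonneg_left hcmp2 hC'.le
  have k2 : 0 ≤ e₀ * ∫ x in scTubeO F r₀, w x ^ 2 ∂D.mu := mul_nonneg he₀0.le hB
  nlinarith

/-! ### cylinders -/

theorem sct_meas_ind {X Y : Type*} [TopologicalSpace X] [MeasurableSpace X] [OpensMeasurableSpace X]
    [TopologicalSpace Y] [MeasurableSpace Y] [BorelSpace Y] [Zero Y] {O : Set X}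
    (hO : MeasurableSet O) {f : X → Y} (hf : ContinuousOn f O) : Measurable (O.indicator f) := by
  classical
  rw [← Set.piecewise_eq_indicator]
  exact hf.measurable_piecewise continuousOn_const hO

theorem sct_Gx_eq {U : Set (E m)} (hU : IsOpen U) {vc : E m × ℝ → ℝ}
    (hv : ContDiffOn ℝ ∞ vc (U ×ˢ (univ : Set ℝ))) {x : E m} (hx : x ∈ U) (t : ℝ) :
    DifferentiableAt ℝ (fun y => vc (y, t)) x ∧
    scGx vc x t = (InnerProductSpace.toDual ℝ (E m)).symm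
      ((fderiv ℝ vc (x, t)).comp (ContinuousLinearMap.inl ℝ (E m) ℝ)) := by
  have hd : DifferentiableAt ℝ vc (x, t) :=
    (hv.contDiffAt ((hU.prod isOpen_univ).mem_nhds ⟨hx, mem_univ t⟩)).differentiableAt (by simp)
  have h1 : HasFDerivAt (fun y => vc (y, t))
      ((fderiv ℝ vc (x, t)).comp (ContinuousLinearMap.inl ℝ (E m) ℝ)) x :=
    HasFDerivAt.comp (g := vc) x hd.hasFDerivAt (hasFDerivAt_prodMk_left x t)
  refine ⟨h1.differentiableAt, ?_⟩
  unfold scGx gradient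
  rw [h1.fderiv]

theorem sct_Dt_eq {U : Set (E m)} (hU : IsOpen U) {vc : E m × ℝ → ℝ}
    (hv : ContDiffOn ℝ ∞ vc (U ×ˢ (univ : Set ℝ))) {x : E m} (hx : x ∈ U) (t : ℝ) :
    scDt vc x t = fderiv ℝ vc (x, t) (0, 1) := by
  have hd : DifferentiableAt ℝ vc (x, t) :=
    (hv.contDiffAt ((hU.prod isOpen_univ).mem_nhds ⟨hx, mem_univ t⟩)).differentiableAt (by simp)
  have h1 : HasFDerivAt (fun s => vc (x, s))
      ((fderiv ℝ vc (x, t)).comp (ContinuousLinearMap.inr ℝ (E m) ℝ)) t :=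
    HasFDerivAt.comp (g := vc) t hd.hasFDerivAt (hasFDerivAt_prodMk_right x t)
  unfold scDt
  rw [h1.hasDerivAt.deriv]
  simp

theorem sct_Gx_contOn {U : Set (E m)} (hU : IsOpen U) {vc : E m × ℝ → ℝ}
    (hv : ContDiffOn ℝ ∞ vc (U ×ˢ (univ : Set ℝ))) :
    ContinuousOn (fun y : E m × ℝ => scGx vc y.1 y.2) (U ×ˢ (univ : Set ℝ)) := by
  have h1 : ContinuousOn (fderiv ℝ vc) (U ×ˢ (univ : Set ℝ)) :=
    hv.continuousOn_fderiv_of_isOpen (hU.prod isOpen_univ) (by simp)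
  have h2 : ContinuousOn (fun y : E m × ℝ => (InnerProductSpace.toDual ℝ (E m)).symm
      ((fderiv ℝ vc y).comp (ContinuousLinearMap.inl ℝ (E m) ℝ))) (U ×ˢ (univ : Set ℝ)) :=
    (InnerProductSpace.toDual ℝ (E m)).symm.continuous.comp_continuousOn
      (h1.clm_comp continuousOn_const)
  exact h2.congr fun y hy => (sct_Gx_eq hU hv hy.1 y.2).2

theorem sct_Dt_contOn {U : Set (E m)} (hU : IsOpen U) {vc : E m × ℝ → ℝ}
    (hv : ContDiffOn ℝ ∞ vc (U ×ˢ (univ : Set ℝ))) :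
    ContinuousOn (fun y : E m × ℝ => scDt vc y.1 y.2) (U ×ˢ (univ : Set ℝ)) := by
  have h1 : ContinuousOn (fderiv ℝ vc) (U ×ˢ (univ : Set ℝ)) :=
    hv.continuousOn_fderiv_of_isOpen (hU.prod isOpen_univ) (by simp)
  have h2 : ContinuousOn (fun y : E m × ℝ => fderiv ℝ vc y (0, 1)) (U ×ˢ (univ : Set ℝ)) :=
    h1.clm_apply continuousOn_const
  exact h2.congr fun y hy => sct_Dt_eq hU hv hy.1 y.2

/-- a local cylinder test vanishes near the points over the open tube off its compact set. -/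
theorem sct_locC_zero {U : Set (E m)} (hU : IsOpen U) {vc : E m × ℝ → ℝ} {K : Set (E m × ℝ)}
    (hK : IsCompact K) (hKv : ∀ y : E m × ℝ, y.1 ∈ U → infDist y.1 F ≤ r₀ → vc y ≠ 0 → y ∈ K)
    {y : E m × ℝ} (hy : y.1 ∈ U ∩ scTubeO F r₀) (hyK : y ∉ K) : vc =ᶠ[𝓝 y] 0 := by
  have h1 : ∀ᶠ z : E m × ℝ in 𝓝 y, z.1 ∈ U :=
    continuous_fst.continuousAt.eventually (hU.mem_nhds hy.1)
  have h2 : ∀ᶠ z : E m × ℝ in 𝓝 y, z.1 ∈ scTubeO F r₀ :=
    continuous_fst.continuousAt.eventually ((sct_tubeO_open F r₀).mem_nhds hy.2)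
  filter_upwards [h1, h2, hK.isClosed.isOpen_compl.mem_nhds hyK] with z a1 a2 a3
  by_contra h
  exact a3 (hKv z a1 (le_of_lt a2) h)

theorem sct_Gx_zero {vc : E m × ℝ → ℝ} {x : E m} {t : ℝ} (h : vc =ᶠ[𝓝 (x, t)] 0) :
    scGx vc x t = 0 := by
  unfold scGx
  apply sct_grad_zero
  have hc : ContinuousAt (fun y : E m => (y, t)) x := by fun_prop
  exact hc.eventually h

theorem sct_Dt_zero {vc : E m × ℝ → ℝ} {x : E m} {t : ℝ} (h : vc =ᶠ[𝓝 (x, t)] 0) :
    scDt vc x t = 0 := by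
  unfold scDt
  have hc : ContinuousAt (fun s : ℝ => (x, s)) t := by fun_prop
  have h1 : (fun s => vc (x, s)) =ᶠ[𝓝 t] fun _ => (0 : ℝ) := hc.eventually h
  rw [h1.deriv_eq]
  simp

/-- outer integrability on the cylinder. -/
theorem sct_cyl_intOn (hD : D.Ok G τ Λ) {h : E m × ℝ → ℝ} {T : Set (E m)} (hT : MeasurableSet T)
    (hm : Measurable (((D.U ∩ T) ×ˢ (univ : Set ℝ)).indicator h)) {C : ℝ} {K : Set (E m × ℝ)}
    (hK : IsCompact K) (hKU : K ⊆ D.U ×ˢ (univ : Set ℝ)) (hC : ∀ y ∈ K, |h y| ≤ C)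
    (h0 : ∀ y : E m × ℝ, y.1 ∈ D.U ∩ T → y ∉ K → h y = 0) (I : Set ℝ) (hI : MeasurableSet I) :
    IntegrableOn (fun x => ∫ t in I, h (x, t)) T D.mu := by
  have h1 := (sc_cyl_swap hD hm (C := |C|) (fun y => ?_) hK hKU (fun y hy => ?_) I hI).1
  · rw [← integrable_indicator_iff hT]
    refine h1.congr ?_
    filter_upwards [sct_ae_U hD] with x hx
    by_cases hxT : x ∈ T
    · rw [indicator_of_mem hxT]
      refine integral_congr_ae (Filter.Eventually.of_forall fun t => ?_)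
      exact indicator_of_mem (show (x, t) ∈ (D.U ∩ T) ×ˢ (univ : Set ℝ) from
        ⟨mem_inter hx hxT, mem_univ t⟩) h
    · rw [indicator_of_notMem hxT]
      have : ∀ t, ((D.U ∩ T) ×ˢ (univ : Set ℝ)).indicator h (x, t) = 0 := fun t =>
        indicator_of_notMem (fun hh => hxT hh.1.2) h
      simp [this]
  · by_cases hy : y ∈ (D.U ∩ T) ×ˢ (univ : Set ℝ)
    · rw [indicator_of_mem hy]
      by_cases hyK : y ∈ K
      · exact (hC y hyK).trans (le_abs_self C)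
      · rw [h0 y hy.1 hyK]; simp
    · rw [indicator_of_notMem hy]; simp
  · by_cases hy' : y ∈ (D.U ∩ T) ×ˢ (univ : Set ℝ)
    · rw [indicator_of_mem hy']; exact h0 y hy'.1 hy
    · exact indicator_of_notMem hy' h

theorem sct_meas_Qw (hD : D.Ok G τ Λ) {O : Set (E m × ℝ)} (hO : MeasurableSet O)
    (hOU : O ⊆ D.U ×ˢ (univ : Set ℝ)) {a : E m × ℝ → E m} (ha : ContinuousOn a O) :
    Measurable (O.indicator fun y => scQw (D.Gam y.1) (D.nu y.1) (a y)) := by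
  have hΓ : Measurable (O.indicator fun y : E m × ℝ => D.Gam y.1) :=
    sct_meas_ind hO (hD.gam.smooth.continuousOn.comp continuousOn_fst fun y hy => (hOU hy).1)
  have ha' : Measurable (O.indicator a) := sct_meas_ind hO ha
  have hν : Measurable (fun y : E m × ℝ => D.nu y.1) := D.meas_nu.comp measurable_fst
  have hb : ∀ {p q : E m × ℝ → E m}, Measurable p → Measurable q →
      Measurable (fun y => (O.indicator (fun y : E m × ℝ => D.Gam y.1) y) (p y) (q y)) := by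
    intro p q hp hq
    exact ContinuousLinearMap.measurable_apply₂.comp
      ((ContinuousLinearMap.measurable_apply₂.comp (hΓ.prodMk hp)).prodMk hq)
  have e : (O.indicator fun y => scQw (D.Gam y.1) (D.nu y.1) (a y)) = fun y =>
      scQw (O.indicator (fun y : E m × ℝ => D.Gam y.1) y) (D.nu y.1) (O.indicator a y) := by
    funext y
    by_cases hy : y ∈ O
    · simp only [indicator_of_mem hy]
    · simp only [indicator_of_notMem hy]
      simp [scQw]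
  rw [e]
  unfold scQw
  exact (hb ha' ha').sub (((hb ha' hν).pow_const 2).div (hb hν hν))

theorem sct_slice_int {K : Set (E m × ℝ)} (hK : IsCompact K) {x : E m} {f : ℝ → ℝ}
    (hf : Continuous f) (h0 : ∀ t, (x, t) ∉ K → f t = 0) (I : Set ℝ) :
    IntegrableOn f I volume := by
  refine (hf.integrable_of_hasCompactSupport ?_).integrableOn
  refine HasCompactSupport.of_support_subset_isCompact (hK.image continuous_snd) fun t ht => ?_
  by_contra hcon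
  exact ht (h0 t fun h => hcon ⟨(x, t), h, rfl⟩)

theorem sct_Qw_cont (B : Gmt.Bil m) (ν : E m) {a : ℝ → E m} (ha : Continuous a) :
    Continuous fun t => scQw B ν (a t) := by
  unfold scQw
  have h1 : Continuous fun t => B (a t) := B.continuous.comp ha
  exact (h1.clm_apply ha).sub (((h1.clm_apply continuous_const).pow 2).div_const _)

/-- mass density of a cylinder test. -/
theorem sct_cyl_phi (hD : D.Ok G τ Λ) {vc : E m × ℝ → ℝ} (hv : ScTc D.U vc) (I : Set ℝ)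
    (hI : MeasurableSet I) :
    Measurable (fun x => ∫ t in I, vc (x, t) ^ 2) ∧
      Integrable (fun x => ∫ t in I, vc (x, t) ^ 2) D.mu := by
  have hc : Continuous fun y => vc y ^ 2 := hv.smooth.continuous.pow 2
  constructor
  · exact (hc.measurable.stronglyMeasurable.integral_prod_right (ν := volume.restrict I)).measurable
  · have hcs : HasCompactSupport fun y => vc y ^ 2 := by
      refine HasCompactSupport.of_support_subset_isCompact hv.cpt fun y hy => ?_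
      refine subset_tsupport _ fun h0 : vc y = 0 => hy ?_
      simp [h0]
    obtain ⟨C, hC⟩ := hc.bounded_above_of_compact_support hcs
    refine (sc_cyl_swap hD hc.measurable (C := C) (fun y => hC y) hv.cpt hv.sub (fun y hy => ?_) I hI).1
    rw [image_eq_zero_of_notMem_tsupport hy]
    simp

/-- comparison on cylinders. -/
theorem sct_cyl_cmp (hD : D.Ok (D.U ∩ scTube F r₀) τ Λ) (hτ : τ ≤ 0.005) {vc : E m × ℝ → ℝ}
    (hv : ScLocC D.U F r₀ vc) {c g : E m → ℝ} (hc : ContDiff ℝ ∞ c) (hg : ContDiff ℝ ∞ g)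
    (hsum : ∀ x, c x ^ 2 + g x ^ 2 = 1) (hc0 : ∀ x, r₀ ≤ infDist x F → c =ᶠ[𝓝 x] 0) {e₀ : ℝ}
    (he : ∀ x, ‖fderiv ℝ c x‖ ^ 2 + ‖fderiv ℝ g x‖ ^ 2 ≤ e₀) (I : Set ℝ) (hI : MeasurableSet I) :
    D.cylE I (fun y => c y.1 * (D.U ×ˢ (univ : Set ℝ)).indicator vc y) ≤
        ∫ x in scTubeO F r₀,
          (∫ t in I, (scQw (D.Gam x) (D.nu x) (scGx vc x t) + scDt vc x t ^ 2)) ∂D.mu +
        1.005 * e₀ * ∫ x in scTubeO F r₀, (∫ t in I, vc (x, t) ^ 2) ∂D.mu ∧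
      ∫ x, (∫ t in I, (c x * (D.U ×ˢ (univ : Set ℝ)).indicator vc (x, t)) ^ 2) ∂D.mu ≤
        ∫ x in scTubeO F r₀, (∫ t in I, vc (x, t) ^ 2) ∂D.mu := by
  obtain ⟨hvs, K, hK, hKU, hKv⟩ := hv
  have hT := sct_tubeO_meas F r₀
  have hU := hD.opn
  have hOo : IsOpen ((D.U ∩ scTubeO F r₀) ×ˢ (univ : Set ℝ)) :=
    (hU.inter (sct_tubeO_open F r₀)).prod isOpen_univ
  have hOU : (D.U ∩ scTubeO F r₀) ×ˢ (univ : Set ℝ) ⊆ D.U ×ˢ (univ : Set ℝ) :=
    prod_mono inter_subset_left subset_rfl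
  have hA := sct_Gx_contOn hU hvs
  have hDt := sct_Dt_contOn hU hvs
  have hvc := hvs.continuousOn
  have hz : ∀ y : E m × ℝ, y.1 ∈ D.U ∩ scTubeO F r₀ → y ∉ K → vc =ᶠ[𝓝 y] 0 := fun y hy hyK =>
    sct_locC_zero hU hK hKv hy hyK
  -- outer integrability
  have him : IntegrableOn (fun x => ∫ t in I, vc (x, t) ^ 2) (scTubeO F r₀) D.mu := by
    obtain ⟨C, hC⟩ := hK.bddAbove_image ((hvc.mono hKU).pow 2).abs
    refine sct_cyl_intOn hD hT (sct_meas_ind hOo.measurableSet ((hvc.mono hOU).pow 2)) hK hKU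
      (fun y hy => hC (mem_image_of_mem _ hy)) (fun y hy hyK => ?_) I hI
    have : vc y = 0 := (hz y hy hyK).self_of_nhds
    simp [this]
  have hie : IntegrableOn (fun x => ∫ t in I,
      (scQw (D.Gam x) (D.nu x) (scGx vc x t) + scDt vc x t ^ 2)) (scTubeO F r₀) D.mu := by
    have hcc : ContinuousOn (fun y : E m × ℝ => D.Gam y.1 (scGx vc y.1 y.2) (scGx vc y.1 y.2)) K :=
      (((hD.gam.smooth.continuousOn.comp continuousOn_fst fun y hy => (hKU hy).1)).clm_apply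
        (hA.mono hKU)).clm_apply (hA.mono hKU)
    obtain ⟨C₁, hC₁⟩ := hK.bddAbove_image hcc
    obtain ⟨C₂, hC₂⟩ := hK.bddAbove_image ((hDt.mono hKU).pow 2)
    have hmeas : Measurable (((D.U ∩ scTubeO F r₀) ×ˢ (univ : Set ℝ)).indicator fun y : E m × ℝ =>
        scQw (D.Gam y.1) (D.nu y.1) (scGx vc y.1 y.2) + scDt vc y.1 y.2 ^ 2) := by
      have m1 := sct_meas_Qw hD hOo.measurableSet hOU (hA.mono hOU)
      have m2 := sct_meas_ind hOo.measurableSet ((hDt.mono hOU).pow 2)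
      have := m1.add m2
      rwa [← indicator_add'] at this
    refine sct_cyl_intOn (h := fun y : E m × ℝ =>
        scQw (D.Gam y.1) (D.nu y.1) (scGx vc y.1 y.2) + scDt vc y.1 y.2 ^ 2) hD hT hmeas hK hKU
      (C := C₁ + C₂) (fun y hy => ?_) (fun y hy hyK => ?_) I hI
    · obtain ⟨h1, h2⟩ := scQw_bounds (hD.gam.symm y.1 (hKU hy).1) (hD.gam.pos y.1 (hKU hy).1)
        (D.nu y.1) (scGx vc y.1 y.2)
      rw [abs_of_nonneg (add_nonneg h1 (sq_nonneg _))]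
      exact add_le_add (h2.trans (hC₁ (mem_image_of_mem _ hy))) (hC₂ (mem_image_of_mem _ hy))
    · have h1 : vc =ᶠ[𝓝 (y.1, y.2)] 0 := hz y hy hyK
      simp only [sct_Gx_zero h1, sct_Dt_zero h1, scQw_zero]
      simp
  -- the slices
  have hsl : ∀ x ∈ D.U ∩ scTubeO F r₀,
      IntegrableOn (fun t => vc (x, t) ^ 2) I volume ∧
      IntegrableOn (fun t => scQw (D.Gam x) (D.nu x) (scGx vc x t) + scDt vc x t ^ 2) I volume := by
    intro x hx
    have hcx : Continuous fun t : ℝ => (x, t) := by fun_prop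
    have hmem : ∀ t : ℝ, (x, t) ∈ D.U ×ˢ (univ : Set ℝ) := fun t => ⟨hx.1, mem_univ t⟩
    constructor
    · refine sct_slice_int (x := x) hK ((hvc.comp_continuous hcx hmem).pow 2) (fun t ht => ?_) I
      have : vc (x, t) = 0 := (hz (x, t) hx ht).self_of_nhds
      simp [this]
    · refine sct_slice_int (x := x) hK ((sct_Qw_cont _ _ (hA.comp_continuous hcx hmem)).add
        ((hDt.comp_continuous hcx hmem).pow 2)) (fun t ht => ?_) I
      have h1 : vc =ᶠ[𝓝 (x, t)] 0 := hz (x, t) hx ht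
      show scQw (D.Gam x) (D.nu x) (scGx vc x t) + scDt vc x t ^ 2 = 0
      rw [sct_Gx_zero h1, sct_Dt_zero h1, scQw_zero]
      simp
  have hc2 : ∀ x, c x ^ 2 ≤ 1 := fun x => by nlinarith [hsum x, sq_nonneg (g x)]
  constructor
  · unfold ScCh.cylE
    rw [← integral_const_mul, ← integral_add hie (him.const_mul _)]
    refine sct_int_le hT ?_ (hie.add (him.const_mul _)) ?_ ?_
    · filter_upwards [sct_ae_U hD] with x hx
      exact integral_nonneg fun t => add_nonneg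
        (scQw_bounds (hD.gam.symm x hx) (hD.gam.pos x hx) _ _).1 (sq_nonneg _)
    · filter_upwards [sct_ae_U hD] with x hx hxT
      have hxG : x ∈ D.U ∩ scTube F r₀ := mem_inter hx (le_of_lt (show infDist x F < r₀ from hxT))
      obtain ⟨s1, s2⟩ := hsl x (mem_inter hx hxT)
      rw [← integral_const_mul, ← integral_add s2 (s1.const_mul _)]
      refine integral_mono_of_nonneg (Filter.Eventually.of_forall fun t => add_nonneg
        (scQw_bounds (hD.gam.symm x hx) (hD.gam.pos x hx) _ _).1 (sq_nonneg _))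
        (s2.add (s1.const_mul _)) (Filter.Eventually.of_forall fun t => ?_)
      have e1 : (fun y => c (y, t).1 * (D.U ×ˢ (univ : Set ℝ)).indicator vc (y, t)) =ᶠ[𝓝 x]
          fun y => c y * vc (y, t) := by
        filter_upwards [hU.mem_nhds hx] with y hy
        rw [indicator_of_mem (show (y, t) ∈ D.U ×ˢ (univ : Set ℝ) from ⟨hy, mem_univ t⟩)]
      have e2 : scGx (fun y => c y.1 * (D.U ×ˢ (univ : Set ℝ)).indicator vc y) x t =
          gradient (fun y => c y * vc (y, t)) x := by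
        unfold scGx
        exact sct_grad_congr e1
      have e3 : scDt (fun y => c y.1 * (D.U ×ˢ (univ : Set ℝ)).indicator vc y) x t =
          c x * scDt vc x t := by
        unfold scDt
        have : (fun s => c (x, s).1 * (D.U ×ˢ (univ : Set ℝ)).indicator vc (x, s)) =
            fun s => c x * vc (x, s) := by
          funext s
          rw [indicator_of_mem (show (x, s) ∈ D.U ×ˢ (univ : Set ℝ) from ⟨hx, mem_univ s⟩)]
        rw [this, deriv_const_mul_field]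
      have h1 := sct_qw_pair (hD.gam.symm x hx) (hD.gam.pos x hx) (sct_close hD hτ hxG) (D.nu x)
        hc hg hsum (sct_Gx_eq hU hvs hx t).1
      have h2 := mul_le_mul_of_nonneg_right (he x) (sq_nonneg (vc (x, t)))
      have h3 : (c x * scDt vc x t) ^ 2 ≤ scDt vc x t ^ 2 := by
        rw [mul_pow]
        nlinarith [hc2 x, sq_nonneg (scDt vc x t)]
      have h4 : scGx vc x t = gradient (fun y => vc (y, t)) x := rfl
      simp only [e2, e3, h4]
      nlinarith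
    · refine Filter.Eventually.of_forall fun x hxT => ?_
      have hx' : r₀ ≤ infDist x F := not_lt.1 hxT
      have e1 : ∀ t : ℝ, (fun y : E m × ℝ => c y.1 * (D.U ×ˢ (univ : Set ℝ)).indicator vc y)
          =ᶠ[𝓝 (x, t)] 0 := by
        intro t
        have hcf : ContinuousAt (fun z : E m × ℝ => z.1) (x, t) := continuous_fst.continuousAt
        have : ∀ᶠ z : E m × ℝ in 𝓝 (x, t), c z.1 = (0 : E m → ℝ) z.1 :=
          hcf.eventually (hc0 x hx')
        filter_upwards [this] with y hy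
        rw [hy]
        simp
      simp only [sct_Gx_zero (e1 _), sct_Dt_zero (e1 _), scQw_zero]
      simp
  · refine sct_int_le hT (Filter.Eventually.of_forall fun x => integral_nonneg fun t => sq_nonneg _)
      him ?_ ?_
    · filter_upwards [sct_ae_U hD] with x hx hxT
      obtain ⟨s1, s2⟩ := hsl x (mem_inter hx hxT)
      refine integral_mono_of_nonneg (Filter.Eventually.of_forall fun t => sq_nonneg _) s1
        (Filter.Eventually.of_forall fun t => ?_)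
      simp only
      rw [indicator_of_mem (show (x, t) ∈ D.U ×ˢ (univ : Set ℝ) from ⟨hx, mem_univ t⟩), mul_pow]
      nlinarith [hc2 x, sq_nonneg (vc (x, t))]
    · refine Filter.Eventually.of_forall fun x hxT => ?_
      have hx' : r₀ ≤ infDist x F := not_lt.1 hxT
      have : c x = 0 := (hc0 x hx').self_of_nhds
      simp [this]

theorem sct_cylM_int (hD : D.Ok G τ Λ) {vc : E m × ℝ → ℝ} (hv : ScTc D.U vc) (I : Set ℝ)
    (hI : MeasurableSet I) (g : E m → ℝ) :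
    ∫ x, g x ∂(D.cylM I vc) = ∫ x, (∫ t in I, vc (x, t) ^ 2) * g x ∂D.mu :=
  sct_wd_int D.mu (sct_cyl_phi hD hv I hI).1.aemeasurable
    (Filter.Eventually.of_forall fun _ => integral_nonneg fun _ => sq_nonneg _) g

theorem sct_cylM_ae (hD : D.Ok G τ Λ) {vc : E m × ℝ → ℝ} (hv : ScTc D.U vc) (I : Set ℝ)
    (hI : MeasurableSet I) {P : E m → Prop}
    (h : ∀ᵐ x ∂D.mu, (∫ t in I, vc (x, t) ^ 2) ≠ 0 → P x) : ∀ᵐ x ∂(D.cylM I vc), P x :=
  sct_wd_ae D.mu (sct_cyl_phi hD hv I hI).1.aemeasurable h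

theorem sct_ind_bd (F : Set (E m)) {ρ : ℝ} (hρ : 0 < ρ) (d : ℝ) (x : E m) :
    0 ≤ {x | infDist x F < d}.indicator (scM F ρ) x ∧
      {x | infDist x F < d}.indicator (scM F ρ) x ≤ (ρ ^ 2)⁻¹ :=
  ⟨indicator_nonneg (fun y _ => sct_scM_nonneg F ρ y) x,
    (indicator_le_self' (fun y _ => sct_scM_nonneg F ρ y) x).trans (sct_scM_le F hρ x)⟩

theorem sct_ind_meas (F : Set (E m)) (ρ d : ℝ) :
    Measurable ({x | infDist x F < d}.indicator (scM F ρ)) :=
  (sct_scM_meas F ρ).indicator (sct_tubeO_meas F d)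

/-- lower bound of the Hardy term on cylinders. -/
theorem sct_cyl_low (hD : D.Ok G τ Λ) {vc : E m × ℝ → ℝ} {c : E m → ℝ}
    (hv₁ : ScTc D.U (fun y => c y.1 * (D.U ×ˢ (univ : Set ℝ)).indicator vc y)) (I : Set ℝ)
    (hI : MeasurableSet I) {d d' : ℝ} (hdd : d ≤ d') (hc1 : ∀ x, infDist x F < d → c x ^ 2 = 1)
    {ρ : ℝ} (hρ : 0 < ρ) :
    ∫ x in scTubeO F d, scM F ρ x * (∫ t in I, vc (x, t) ^ 2) ∂D.mu ≤
      ∫ x, (∫ t in I, (c x * (D.U ×ˢ (univ : Set ℝ)).indicator vc (x, t)) ^ 2) *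
        ({x | infDist x F < d'}.indicator (scM F ρ) x) ∂D.mu := by
  refine sct_le_int (sct_tubeO_meas F _) ?_ ?_ ?_ ?_
  · refine (sct_cyl_phi hD hv₁ I hI).2.mul_bdd (c := (ρ ^ 2)⁻¹)
      (sct_ind_meas F ρ d').aestronglyMeasurable (Filter.Eventually.of_forall fun x => ?_)
    rw [Real.norm_eq_abs, abs_of_nonneg (sct_ind_bd F hρ d' x).1]
    exact (sct_ind_bd F hρ d' x).2
  · exact Filter.Eventually.of_forall fun x =>
      mul_nonneg (integral_nonneg fun t => sq_nonneg _) (sct_ind_bd F hρ d' x).1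
  · exact Filter.Eventually.of_forall fun x _ =>
      mul_nonneg (sct_scM_nonneg F ρ x) (integral_nonneg fun t => sq_nonneg _)
  · filter_upwards [sct_ae_U hD] with x hx hxT
    have hxT' : infDist x F < d := hxT
    have h1 : x ∈ {x : E m | infDist x F < d'} := hxT'.trans_le hdd
    have h2 : ∀ t : ℝ, (c x * (D.U ×ˢ (univ : Set ℝ)).indicator vc (x, t)) ^ 2 = vc (x, t) ^ 2 := by
      intro t
      rw [indicator_of_mem (show (x, t) ∈ D.U ×ˢ (univ : Set ℝ) from ⟨hx, mem_univ t⟩), mul_pow,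
        hc1 x hxT', one_mul]
    rw [indicator_of_mem h1]
    simp only [h2]
    linarith

/-- **(HY) on the full cylinder**. -/
theorem sc_hardy_cyl (hm : 8 ≤ m) : ∃ η₀ τ₀ : ℝ, 0 < η₀ ∧ 0 < τ₀ ∧ ∀ rF r₀ Λ : ℝ, 0 < rF → 0 < r₀ →
    0 ≤ Λ → ∃ d C : ℝ, 0 < d ∧ d ≤ r₀ ∧ 0 < C ∧ ∀ (D : ScCh m) (F : Set (E m)), IsClosed F →
    F.Nonempty → ScFlat F η₀ rF → D.Ok (D.U ∩ scTube F r₀) τ₀ Λ →
    ∀ vc : E m × ℝ → ℝ, ScLocC D.U F r₀ vc → ∀ ρ : ℝ, 0 < ρ →
      3.55 * ∫ x in scTubeO F d, scM F ρ x * (∫ t, vc (x, t) ^ 2) ∂D.mu ≤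
        1.7 * ∫ x in scTubeO F r₀, (∫ t,
          (scQw (D.Gam x) (D.nu x) (scGx vc x t) + scDt vc x t ^ 2)) ∂D.mu +
        C * ∫ x in scTubeO F r₀, (∫ t, vc (x, t) ^ 2) ∂D.mu := by
  obtain ⟨η₀, hη₀, habs⟩ := sc_hardy_abs m
  obtain ⟨τ₀, c₀, hτ₀, hτ₀', hc₀, hok⟩ := sc_spC_ok hm
  refine ⟨η₀, τ₀, hη₀, hτ₀, fun rF r₀ Λ hrF hr₀ hΛ => ?_⟩
  have hζ : 0 < c₀ / (Λ + 1) := by positivity
  have hΛζ : Λ * (c₀ / (Λ + 1)) ≤ c₀ := by
    rw [← mul_div_assoc, div_le_iff₀ (by positivity)]; nlinarith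
  obtain ⟨d', C', hd', hC', H⟩ := habs rF (c₀ / (Λ + 1)) hrF hζ
  have he1 : 0 < Real.exp 1 := Real.exp_pos 1
  obtain ⟨s₁, hs₁⟩ : ∃ s₁ : ℝ, s₁ = 3 / 4 * (r₀ / (Real.exp 1 + 1)) := ⟨_, rfl⟩
  have hs₁0 : 0 < s₁ := by rw [hs₁]; positivity
  have hs₁r : s₁ ≤ r₀ := by
    rw [hs₁, ← mul_div_assoc, div_le_iff₀ (by positivity)]; nlinarith
  obtain ⟨e₀, he₀⟩ : ∃ e₀ : ℝ, e₀ = 25 / 16 * scb * (s₁ ^ 2)⁻¹ := ⟨_, rfl⟩
  have he₀0 : 0 < e₀ := by rw [he₀]; have := scb_spec.1; positivity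
  refine ⟨min d' s₁, C' + 1.71 * e₀, lt_min hd' hs₁0, (min_le_right _ _).trans hs₁r,
    by positivity, ?_⟩
  intro D F hF hFne hflat hD vc hv ρ hρ
  obtain ⟨c, g, hc, hg, hsum, hc1, hc0, he⟩ := sct_cut F hr₀
  rw [← hs₁] at hc1 he
  rw [← he₀] at he
  have hc0' : ∀ x, r₀ ≤ infDist x F → c x = 0 := fun x hx => (hc0 x hx).self_of_nhds
  have hv₁ := sc_loc_testC hD.opn hv hc hc0'
  have hX := hok D _ τ₀ Λ _ hD le_rfl hζ hΛζ
  obtain ⟨hcmp1, hcmp2⟩ := sct_cyl_cmp hD hτ₀' hv hc hg hsum hc0 he univ MeasurableSet.univ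
  have hlow := sct_cyl_low (F := F) hD hv₁ univ MeasurableSet.univ (min_le_left d' s₁)
    (fun x hx => hc1 x (hx.trans_le (min_le_right _ _)).le) hρ
  obtain ⟨vc₁, hvc₁def⟩ : ∃ vc₁ : E m × ℝ → ℝ,
      vc₁ = fun y => c y.1 * (D.U ×ˢ (univ : Set ℝ)).indicator vc y := ⟨_, rfl⟩
  rw [← hvc₁def] at hv₁ hcmp1
  have hvx : ∀ (x : E m) (t : ℝ), vc₁ (x, t) = c x * (D.U ×ˢ (univ : Set ℝ)).indicator vc (x, t) :=
    fun x t => by rw [hvc₁def]
  simp only [← hvx] at hcmp2 hlow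
  have hvG : ∀ᵐ x ∂(D.spC.ms ⟨vc₁, hv₁⟩), x ∈ D.U ∩ scTube F r₀ := by
    refine sct_cylM_ae hD hv₁ univ MeasurableSet.univ ?_
    filter_upwards [sct_ae_U hD] with x hx hne
    refine mem_inter hx ?_
    by_contra hcon
    have : r₀ ≤ infDist x F := (not_le.1 hcon).le
    refine hne ?_
    simp only [hvx, hc0' x this, zero_mul]
    simp
  have hmain := H D.spC _ F hX hF hFne hflat ⟨vc₁, hv₁⟩ hvG ρ hρ
  have t1 : ∫ x in {x | infDist x F < d'}, scM F ρ x ∂(D.spC.ms ⟨vc₁, hv₁⟩) =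
      ∫ x, (∫ t in univ, vc₁ (x, t) ^ 2) * ({x | infDist x F < d'}.indicator (scM F ρ) x) ∂D.mu := by
    have hT' : MeasurableSet {x : E m | infDist x F < d'} := sct_tubeO_meas F d'
    rw [← integral_indicator hT']
    exact sct_cylM_int hD hv₁ univ MeasurableSet.univ _
  have t2 : (D.spC.ms ⟨vc₁, hv₁⟩ univ).toReal = ∫ x, (∫ t in univ, vc₁ (x, t) ^ 2) ∂D.mu := by
    have := sct_cylM_int hD hv₁ univ MeasurableSet.univ (fun _ => (1 : ℝ))
    simp only [integral_const, smul_eq_mul, mul_one] at this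
    exact this
  have t3 : D.spC.N ⟨vc₁, hv₁⟩ = 1.7 * D.cylE univ vc₁ := rfl
  rw [t1, t2, t3] at hmain
  simp only [Measure.restrict_univ] at hmain hcmp1 hcmp2 hlow
  have hB : 0 ≤ ∫ x in scTubeO F r₀, (∫ t, vc (x, t) ^ 2) ∂D.mu :=
    integral_nonneg fun x => integral_nonneg fun t => sq_nonneg _
  have k1 := mul_le_mul_of_nonneg_left hcmp2 hC'.le
  have k2 : 0 ≤ e₀ * ∫ x in scTubeO F r₀, (∫ t, vc (x, t) ^ 2) ∂D.mu := mul_nonneg he₀0.le hB
  nlinarith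

/-! ### the bulk -/

theorem sct_SU_meas (hD : D.Ok G τ Λ) : MeasurableSet (D.S ∩ D.U) :=
  hD.lam.meas.inter hD.opn.measurableSet

theorem sct_restrict (D : ScCh m) {T : Set (E m)} (hT : MeasurableSet T) :
    (volume.restrict (D.S ∩ D.U)).restrict T = volume.restrict (D.S ∩ D.U ∩ T) := by
  rw [Measure.restrict_restrict hT, inter_comm]

/-- integrability in the bulk. -/
theorem sct_bulk_intOn (hD : D.Ok G τ Λ) {f : E m → ℝ} (hf : ContinuousOn f D.U) {K T : Set (E m)}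
    (hK : IsCompact K) (hKU : K ⊆ D.U) (hT : MeasurableSet T)
    (h0 : ∀ x ∈ D.U ∩ T, x ∉ K → f x = 0) : IntegrableOn f (D.S ∩ D.U ∩ T) volume := by
  refine ((hf.mono hKU).integrableOn_compact hK).of_forall_sdiff_eq_zero
    ((sct_SU_meas hD).inter hT) fun x hx => ?_
  exact h0 x (mem_inter hx.1.1.2 hx.1.2) hx.2

/-- comparison in the bulk. -/
theorem sct_bulk_cmp (hD : D.Ok (D.U ∩ scTube F r₀) τ Λ) (hτ : τ ≤ 0.005) {vb : E m → ℝ}
    (hw : ScLoc D.U F r₀ vb) {c g : E m → ℝ} (hc : ContDiff ℝ ∞ c) (hg : ContDiff ℝ ∞ g)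
    (hsum : ∀ x, c x ^ 2 + g x ^ 2 = 1) (hc0 : ∀ x, r₀ ≤ infDist x F → c =ᶠ[𝓝 x] 0) {e₀ : ℝ}
    (he : ∀ x, ‖fderiv ℝ c x‖ ^ 2 + ‖fderiv ℝ g x‖ ^ 2 ≤ e₀) :
    D.bulkE (fun x => c x * D.U.indicator vb x) ≤
        (∫ x in D.S ∩ D.U ∩ scTubeO F r₀, D.Gam x (gradient vb x) (gradient vb x) * D.rho x) +
        1.005 * e₀ * ∫ x in D.S ∩ D.U ∩ scTubeO F r₀, vb x ^ 2 * D.rho x ∧
      ∫ x in D.S ∩ D.U, (c x * D.U.indicator vb x) ^ 2 * D.rho x ≤
        ∫ x in D.S ∩ D.U ∩ scTubeO F r₀, vb x ^ 2 * D.rho x := by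
  obtain ⟨hws, K, hK, hKU, hKw⟩ := hw
  have hT := sct_tubeO_meas F r₀
  have hU := hD.opn
  have hgc := sct_grad_contOn hU hws
  have hae : ∀ᵐ x ∂(volume.restrict (D.S ∩ D.U)), x ∈ D.U :=
    (ae_restrict_mem (sct_SU_meas hD)).mono fun x hx => hx.2
  have hi2 : IntegrableOn (fun x => vb x ^ 2 * D.rho x) (D.S ∩ D.U ∩ scTubeO F r₀) volume := by
    refine sct_bulk_intOn hD ((hws.continuousOn.pow 2).mul hD.rho_s.continuousOn) hK hKU hT
      fun x hx hxK => ?_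
    have : vb x = 0 := (sct_loc_zero hU hK hKw hx hxK).self_of_nhds
    simp [this]
  have hi1 : IntegrableOn (fun x => D.Gam x (gradient vb x) (gradient vb x) * D.rho x)
      (D.S ∩ D.U ∩ scTubeO F r₀) volume := by
    refine sct_bulk_intOn hD (((hD.gam.smooth.continuousOn.clm_apply hgc).clm_apply hgc).mul
      hD.rho_s.continuousOn) hK hKU hT fun x hx hxK => ?_
    show D.Gam x (gradient vb x) (gradient vb x) * D.rho x = 0
    rw [sct_grad_zero (sct_loc_zero hU hK hKw hx hxK)]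
    simp
  unfold IntegrableOn at hi1 hi2
  rw [← sct_restrict D hT] at hi1 hi2 ⊢
  constructor
  · unfold ScCh.bulkE
    rw [← integral_const_mul, ← integral_add hi1 (hi2.const_mul _)]
    refine sct_int_le hT ?_ (hi1.add (hi2.const_mul _)) ?_ ?_
    · filter_upwards [hae] with x hx
      have h1 : 0 ≤ D.Gam x (gradient (fun x => c x * D.U.indicator vb x) x)
          (gradient (fun x => c x * D.U.indicator vb x) x) := by
        have := (scQw_bounds (hD.gam.symm x hx) (hD.gam.pos x hx) 0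
          (gradient (fun x => c x * D.U.indicator vb x) x))
        exact this.1.trans this.2
      exact mul_nonneg h1 (hD.rho_pos x hx).le
    · filter_upwards [hae] with x hx hxT
      have hxG : x ∈ D.U ∩ scTube F r₀ := mem_inter hx (le_of_lt (show infDist x F < r₀ from hxT))
      have e1 : (fun x => c x * D.U.indicator vb x) =ᶠ[𝓝 x] fun y => c y * vb y := by
        filter_upwards [hU.mem_nhds hx] with y hy
        rw [indicator_of_mem hy]
      rw [sct_grad_congr e1]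
      have hdw : DifferentiableAt ℝ vb x :=
        (hws.contDiffAt (hU.mem_nhds hx)).differentiableAt (by simp)
      have h1 := (sc_qw_pair (hD.gam.symm x hx) (hD.gam.pos x hx) (sct_close hD hτ hxG) (D.nu x)
        hc hg hsum hdw).2
      have h2 := mul_le_mul_of_nonneg_right (he x) (sq_nonneg (vb x))
      have h3 := (hD.rho_pos x hx).le
      have h4 : D.Gam x (gradient (fun y => c y * vb y) x) (gradient (fun y => c y * vb y) x) ≤
          D.Gam x (gradient vb x) (gradient vb x) + 1.005 * e₀ * vb x ^ 2 := by nlinarith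
      have h5 := mul_le_mul_of_nonneg_right h4 h3
      nlinarith
    · refine Filter.Eventually.of_forall fun x hxT => ?_
      have hx' : r₀ ≤ infDist x F := not_lt.1 hxT
      have e1 : (fun x => c x * D.U.indicator vb x) =ᶠ[𝓝 x] 0 := by
        filter_upwards [hc0 x hx'] with y hy
        rw [hy]
        simp
      rw [sct_grad_zero e1]
      simp
  · refine sct_int_le hT ?_ hi2 ?_ ?_
    · filter_upwards [hae] with x hx
      exact mul_nonneg (sq_nonneg _) (hD.rho_pos x hx).le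
    · filter_upwards [hae] with x hx hxT
      rw [indicator_of_mem hx, mul_pow]
      have : c x ^ 2 ≤ 1 := by nlinarith [hsum x, sq_nonneg (g x)]
      have h3 := (hD.rho_pos x hx).le
      have h4 : c x ^ 2 * vb x ^ 2 ≤ vb x ^ 2 := by nlinarith [sq_nonneg (vb x)]
      exact mul_le_mul_of_nonneg_right h4 h3
    · refine Filter.Eventually.of_forall fun x hxT => ?_
      have hx' : r₀ ≤ infDist x F := not_lt.1 hxT
      have : c x = 0 := (hc0 x hx').self_of_nhds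
      simp [this]

theorem sct_bulk_aem (hD : D.Ok G τ Λ) {vb : E m → ℝ} (hv : ScTw D.U vb) :
    AEMeasurable (fun x => vb x ^ 2 * D.rho x) (volume.restrict (D.S ∩ D.U)) :=
  ((hv.smooth.continuous.pow 2).measurable.aemeasurable).mul
    ((hD.rho_s.continuousOn.mono inter_subset_right).aemeasurable (sct_SU_meas hD))

theorem sct_bulk_nn (hD : D.Ok G τ Λ) (vb : E m → ℝ) :
    0 ≤ᵐ[volume.restrict (D.S ∩ D.U)] fun x => vb x ^ 2 * D.rho x := by
  filter_upwards [ae_restrict_mem (sct_SU_meas hD)] with x hx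
  exact mul_nonneg (sq_nonneg _) (hD.rho_pos x hx.2).le

theorem sct_bulkM_int (hD : D.Ok G τ Λ) {vb : E m → ℝ} (hv : ScTw D.U vb) (g : E m → ℝ) :
    ∫ x, g x ∂(D.bulkM vb) = ∫ x in D.S ∩ D.U, vb x ^ 2 * D.rho x * g x :=
  sct_wd_int _ (sct_bulk_aem hD hv) (sct_bulk_nn hD vb) g

theorem sct_bulkM_ae (hD : D.Ok G τ Λ) {vb : E m → ℝ} (hv : ScTw D.U vb) {P : E m → Prop}
    (h : ∀ᵐ x ∂(volume.restrict (D.S ∩ D.U)), vb x ^ 2 * D.rho x ≠ 0 → P x) :
    ∀ᵐ x ∂(D.bulkM vb), P x :=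
  sct_wd_ae _ (sct_bulk_aem hD hv) h

/-- lower bound of the Hardy term in the bulk. -/
theorem sct_bulk_low (hD : D.Ok G τ Λ) {vb c : E m → ℝ}
    (hv₁ : ScTw D.U (fun x => c x * D.U.indicator vb x)) {d d' : ℝ} (hdd : d ≤ d')
    (hc1 : ∀ x, infDist x F < d → c x ^ 2 = 1) {ρ : ℝ} (hρ : 0 < ρ) :
    ∫ x in D.S ∩ D.U ∩ scTubeO F d, scM F ρ x * vb x ^ 2 * D.rho x ≤
      ∫ x in D.S ∩ D.U, (c x * D.U.indicator vb x) ^ 2 * D.rho x *
        ({x | infDist x F < d'}.indicator (scM F ρ) x) := by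
  rw [← sct_restrict D (sct_tubeO_meas F d)]
  have hae : ∀ᵐ x ∂(volume.restrict (D.S ∩ D.U)), x ∈ D.U :=
    (ae_restrict_mem (sct_SU_meas hD)).mono fun x hx => hx.2
  refine sct_le_int (sct_tubeO_meas F _) ?_ ?_ ?_ ?_
  · have h1 : IntegrableOn (fun x => (c x * D.U.indicator vb x) ^ 2 * D.rho x)
        (D.S ∩ D.U ∩ univ) volume := by
      refine sct_bulk_intOn hD ((hv₁.smooth.continuous.continuousOn.pow 2).mul
        hD.rho_s.continuousOn) hv₁.cpt hv₁.sub MeasurableSet.univ fun x _ hxK => ?_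
      have : c x * D.U.indicator vb x = 0 :=
        image_eq_zero_of_notMem_tsupport (f := fun x => c x * D.U.indicator vb x) hxK
      show (c x * D.U.indicator vb x) ^ 2 * D.rho x = 0
      rw [this]
      simp
    rw [inter_univ] at h1
    refine Integrable.mul_bdd (c := (ρ ^ 2)⁻¹) h1
      (sct_ind_meas F ρ d').aestronglyMeasurable (Filter.Eventually.of_forall fun x => ?_)
    rw [Real.norm_eq_abs, abs_of_nonneg (sct_ind_bd F hρ d' x).1]
    exact (sct_ind_bd F hρ d' x).2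
  · filter_upwards [hae] with x hx
    exact mul_nonneg (mul_nonneg (sq_nonneg _) (hD.rho_pos x hx).le) (sct_ind_bd F hρ d' x).1
  · filter_upwards [hae] with x hx _
    exact mul_nonneg (mul_nonneg (sct_scM_nonneg F ρ x) (sq_nonneg _)) (hD.rho_pos x hx).le
  · filter_upwards [hae] with x hx hxT
    have hxT' : infDist x F < d := hxT
    have h1 : x ∈ {x : E m | infDist x F < d'} := hxT'.trans_le hdd
    rw [indicator_of_mem h1, indicator_of_mem hx, mul_pow, hc1 x hxT']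
    linarith

/-- integrals with respect to the mass measure of the joined side. -/
theorem sct_spJ_int (hD : D.Ok G τ Λ) {ζ₀ : ℝ} (hX : D.spJ.Ok G ζ₀)
    {v : (E m → ℝ) × (E m × ℝ → ℝ)} (hv : D.IsJ v) {g : E m → ℝ} (hg : ScBM g) :
    ∫ x, g x ∂(D.spJ.ms ⟨v, hv⟩) = (∫ x in D.S ∩ D.U, v.1 x ^ 2 * D.rho x * g x) +
      ∫ x, (∫ t in Ioi (0 : ℝ), v.2 (x, t) ^ 2) * g x ∂D.mu := by
  have hi : Integrable g (D.bulkM v.1 + D.cylM (Ioi 0) v.2) := hg.integrable hX ⟨v, hv⟩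
  obtain ⟨i1, i2⟩ := integrable_add_measure.1 hi
  have e : D.spJ.ms ⟨v, hv⟩ = D.bulkM v.1 + D.cylM (Ioi 0) v.2 := rfl
  rw [e, integral_add_measure i1 i2, sct_bulkM_int hD hv.b, sct_cylM_int hD hv.c _ measurableSet_Ioi]

/-- **(HY) on the joined side** (`S` side; for the other side apply it to `D.co`). -/
theorem sc_hardy_side (hm : 8 ≤ m) : ∃ η₀ τ₀ : ℝ, 0 < η₀ ∧ 0 < τ₀ ∧ ∀ rF r₀ Λ : ℝ, 0 < rF → 0 < r₀ →
    0 ≤ Λ → ∃ d C : ℝ, 0 < d ∧ d ≤ r₀ ∧ 0 < C ∧ ∀ (D : ScCh m) (F : Set (E m)), IsClosed F →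
    F.Nonempty → ScFlat F η₀ rF → D.Ok (D.U ∩ scTube F r₀) τ₀ Λ →
    ∀ (vb : E m → ℝ) (vc : E m × ℝ → ℝ), ScLoc D.U F r₀ vb → ScLocC D.U F r₀ vc →
    (∀ᵐ x ∂D.mu, vc (x, 0) = vb x) → ∀ ρ : ℝ, 0 < ρ →
      3.55 * ((∫ x in D.S ∩ D.U ∩ scTubeO F d, scM F ρ x * vb x ^ 2 * D.rho x) +
          ∫ x in scTubeO F d, scM F ρ x * (∫ t in Ioi (0 : ℝ), vc (x, t) ^ 2) ∂D.mu) ≤
        0.8 * (∫ x in D.S ∩ D.U ∩ scTubeO F r₀, D.Gam x (gradient vb x) (gradient vb x) * D.rho x) +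
        1.7 * ∫ x in scTubeO F r₀, (∫ t in Ioi (0 : ℝ),
          (scQw (D.Gam x) (D.nu x) (scGx vc x t) + scDt vc x t ^ 2)) ∂D.mu +
        C * ((∫ x in D.S ∩ D.U ∩ scTubeO F r₀, vb x ^ 2 * D.rho x) +
          ∫ x in scTubeO F r₀, (∫ t in Ioi (0 : ℝ), vc (x, t) ^ 2) ∂D.mu) := by
  obtain ⟨η₀, hη₀, habs⟩ := sc_hardy_abs m
  obtain ⟨τ₀, c₀, hτ₀, hτ₀', hc₀, hok⟩ := sc_spJ_ok hm
  refine ⟨η₀, τ₀, hη₀, hτ₀, fun rF r₀ Λ hrF hr₀ hΛ => ?_⟩
  have hζ : 0 < c₀ / (Λ + 1) := by positivity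
  have hΛζ : Λ * (c₀ / (Λ + 1)) ≤ c₀ := by
    rw [← mul_div_assoc, div_le_iff₀ (by positivity)]; nlinarith
  obtain ⟨d', C', hd', hC', H⟩ := habs rF (c₀ / (Λ + 1)) hrF hζ
  have he1 : 0 < Real.exp 1 := Real.exp_pos 1
  obtain ⟨s₁, hs₁⟩ : ∃ s₁ : ℝ, s₁ = 3 / 4 * (r₀ / (Real.exp 1 + 1)) := ⟨_, rfl⟩
  have hs₁0 : 0 < s₁ := by rw [hs₁]; positivity
  have hs₁r : s₁ ≤ r₀ := by
    rw [hs₁, ← mul_div_assoc, div_le_iff₀ (by positivity)]; nlinarith
  obtain ⟨e₀, he₀⟩ : ∃ e₀ : ℝ, e₀ = 25 / 16 * scb * (s₁ ^ 2)⁻¹ := ⟨_, rfl⟩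
  have he₀0 : 0 < e₀ := by rw [he₀]; have := scb_spec.1; positivity
  refine ⟨min d' s₁, C' + 1.71 * e₀, lt_min hd' hs₁0, (min_le_right _ _).trans hs₁r,
    by positivity, ?_⟩
  intro D F hF hFne hflat hD vb vc hb hv hseam ρ hρ
  obtain ⟨c, g, hc, hg, hsum, hc1, hc0, he⟩ := sct_cut F hr₀
  rw [← hs₁] at hc1 he
  rw [← he₀] at he
  have hc0' : ∀ x, r₀ ≤ infDist x F → c x = 0 := fun x hx => (hc0 x hx).self_of_nhds
  have hc1' : ∀ x, infDist x F < min d' s₁ → c x ^ 2 = 1 := fun x hx =>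
    hc1 x (hx.trans_le (min_le_right _ _)).le
  have hb₁ := sc_loc_test hD.opn hb hc hc0'
  have hv₁ := sc_loc_testC hD.opn hv hc hc0'
  have hX := hok D _ τ₀ Λ _ hD le_rfl hζ hΛζ
  obtain ⟨cc1, cc2⟩ := sct_cyl_cmp hD hτ₀' hv hc hg hsum hc0 he (Ioi 0) measurableSet_Ioi
  obtain ⟨cb1, cb2⟩ := sct_bulk_cmp hD hτ₀' hb hc hg hsum hc0 he
  have lc := sct_cyl_low (F := F) hD hv₁ (Ioi 0) measurableSet_Ioi (min_le_left d' s₁) hc1' hρ
  have lb := sct_bulk_low (F := F) hD hb₁ (min_le_left d' s₁) hc1' hρ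
  obtain ⟨vc₁, hvc₁def⟩ : ∃ vc₁ : E m × ℝ → ℝ,
      vc₁ = fun y => c y.1 * (D.U ×ˢ (univ : Set ℝ)).indicator vc y := ⟨_, rfl⟩
  obtain ⟨vb₁, hvb₁def⟩ : ∃ vb₁ : E m → ℝ, vb₁ = fun x => c x * D.U.indicator vb x := ⟨_, rfl⟩
  rw [← hvc₁def] at hv₁ cc1
  rw [← hvb₁def] at hb₁ cb1
  have hvx : ∀ (x : E m) (t : ℝ), vc₁ (x, t) = c x * (D.U ×ˢ (univ : Set ℝ)).indicator vc (x, t) :=
    fun x t => by rw [hvc₁def]
  have hbx : ∀ x : E m, vb₁ x = c x * D.U.indicator vb x := fun x => by rw [hvb₁def]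
  simp only [← hvx] at cc2 lc
  simp only [← hbx] at cb2 lb
  have hJ : D.IsJ (vb₁, vc₁) := by
    refine ⟨hb₁, hv₁, ?_⟩
    filter_upwards [hseam, sct_ae_U hD] with x hx hxU
    show vc₁ (x, 0) = vb₁ x
    rw [hvx, hbx, indicator_of_mem hxU,
      indicator_of_mem (show (x, (0 : ℝ)) ∈ D.U ×ˢ (univ : Set ℝ) from ⟨hxU, mem_univ _⟩), hx]
  have hvG : ∀ᵐ x ∂(D.spJ.ms ⟨(vb₁, vc₁), hJ⟩), x ∈ D.U ∩ scTube F r₀ := by
    have e : D.spJ.ms ⟨(vb₁, vc₁), hJ⟩ = D.bulkM vb₁ + D.cylM (Ioi 0) vc₁ := rfl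
    rw [e, ae_add_measure_iff]
    constructor
    · refine sct_bulkM_ae hD hb₁ ?_
      filter_upwards [ae_restrict_mem (sct_SU_meas hD)] with x hx hne
      refine mem_inter hx.2 ?_
      by_contra hcon
      have : r₀ ≤ infDist x F := (not_le.1 hcon).le
      refine hne ?_
      rw [hbx, hc0' x this]
      simp
    · refine sct_cylM_ae hD hv₁ _ measurableSet_Ioi ?_
      filter_upwards [sct_ae_U hD] with x hx hne
      refine mem_inter hx ?_
      by_contra hcon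
      have : r₀ ≤ infDist x F := (not_le.1 hcon).le
      refine hne ?_
      simp only [hvx, hc0' x this, zero_mul]
      simp
  have hmain := H D.spJ _ F hX hF hFne hflat ⟨(vb₁, vc₁), hJ⟩ hvG ρ hρ
  have hT' : MeasurableSet {x : E m | infDist x F < d'} := sct_tubeO_meas F d'
  have t1 : ∫ x in {x | infDist x F < d'}, scM F ρ x ∂(D.spJ.ms ⟨(vb₁, vc₁), hJ⟩) =
      (∫ x in D.S ∩ D.U, vb₁ x ^ 2 * D.rho x * ({x | infDist x F < d'}.indicator (scM F ρ) x)) +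
      ∫ x, (∫ t in Ioi (0 : ℝ), vc₁ (x, t) ^ 2) *
        ({x | infDist x F < d'}.indicator (scM F ρ) x) ∂D.mu := by
    rw [← integral_indicator hT']
    exact sct_spJ_int hD hX hJ ⟨sct_ind_meas F ρ d', (ρ ^ 2)⁻¹, fun x => by
      rw [abs_of_nonneg (sct_ind_bd F hρ d' x).1]
      exact (sct_ind_bd F hρ d' x).2⟩
  have t2 : (D.spJ.ms ⟨(vb₁, vc₁), hJ⟩ univ).toReal =
      (∫ x in D.S ∩ D.U, vb₁ x ^ 2 * D.rho x) +
      ∫ x, (∫ t in Ioi (0 : ℝ), vc₁ (x, t) ^ 2) ∂D.mu := by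
    have := sct_spJ_int hD hX hJ (g := fun _ => (1 : ℝ)) ⟨measurable_const, 1, fun x => by simp⟩
    simp only [integral_const, smul_eq_mul, mul_one] at this
    exact this
  have t3 : D.spJ.N ⟨(vb₁, vc₁), hJ⟩ = 0.8 * D.bulkE vb₁ + 1.7 * D.cylE (Ioi 0) vc₁ := rfl
  rw [t1, t2, t3] at hmain
  have hBc : 0 ≤ ∫ x in scTubeO F r₀, (∫ t in Ioi (0 : ℝ), vc (x, t) ^ 2) ∂D.mu :=
    integral_nonneg fun x => integral_nonneg fun t => sq_nonneg _
  have hBb : 0 ≤ ∫ x in D.S ∩ D.U ∩ scTubeO F r₀, vb x ^ 2 * D.rho x := by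
    refine setIntegral_nonneg ((sct_SU_meas hD).inter (sct_tubeO_meas F r₀)) fun x hx => ?_
    exact mul_nonneg (sq_nonneg _) (hD.rho_pos x hx.1.2).le
  have k1 := mul_le_mul_of_nonneg_left cc2 hC'.le
  have k2 := mul_le_mul_of_nonneg_left cb2 hC'.le
  have k3 := mul_nonneg he₀0.le hBc
  have k4 := mul_nonneg he₀0.le hBb
  nlinarith

/-- the flat pieces of the singular set of a chart problem (`local:flat-pieces`), in the language of this package. -/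
theorem sc_flat_pieces (hm : 8 ≤ m) {D : ScCh m} {G : Set (E m)} {τ Λ : ℝ} (hD : D.Ok G τ Λ) {η : ℝ}
    (hη : 0 < η) : ∃ (F : ℕ → Set (E m)) (r : ℕ → ℝ),
      (∀ k, IsCompact (F k) ∧ F k ⊆ Gmt.gmtSing D.S D.U ∧ 0 < r k ∧ ScFlat (F k) η (r k)) ∧
      Gmt.gmtSing D.S D.U ⊆ ⋃ k, F k := by
  obtain ⟨F, r, h1, h2, h3⟩ := Gmt.gmt_sing_flat hm hD.data hD.lam η hη
  exact ⟨F, r, fun k => ⟨(h1 k).1, (h1 k).2.1, (h1 k).2.2, fun z hz r' h0 hr => h3 k z hz r' h0 hr⟩, h2⟩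

end

end Claimed.Agent.R315
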