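import Claimed.Agent.R315.Sc.Pw
import Claimed.Agent.Lib.Gmt.FvI

/-!
# Row 315, package Sc (P Appendix C.2), part 5: the BOX inequality on the wall; `D.spW` is an `ScSp.Ok`.   Architect: helper257.   PACKAGE L-SC-WALL.

NO regularity of the wall is used: only the first variation `Gmt.gmt_lam_fv` (all smooth fields with compact support in `U`) and `Gmt.gmt_perM_eq`.
Notation of `Pw.lean`; `n = √(Gam ν ν)`, `dμ = rho n d|Dχ_S|` on `U` (`ScCh.Ok.mu_eq`: `gmt_perM_eq`, `√(A ν ν) = rho n`).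

1. `sc_test_field`: `w • Z` is smooth: at `x ∈ U` product of smooth maps, at `x ∉ tsupport w` it vanishes near `x` (`contDiff_iff_contDiffAt`, `notMem_tsupport_iff_eventuallyEq`).
2. `sc_int_mu`: bounded measurable functions vanishing off a compact `K ⊆ U` are `mu`-integrable (`GmtLAM.fin` on a `GmtCC` neighbourhood of `K` + `gmt_perM_spec`).
3. `sc_wall_id`: `gmt_lam_fv` with `X = w² • Y`, `sc_fv1_smul` (`v = w²`, `∇v = 2w∇w`), `⟪X, ν⟫ = w² Gam(ξ,ν)`, `f = p rho`; divide the density: `∫ g d|Dχ_S| = ∫ g/(rho n) dμ` (`integral_withDensity_eq_integral_toReal_smul`; `rho n > 0` a.e. as `‖ν‖ = 1` a.e.: `Gmt.norm_gmtNu_ae`).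
4. `sc_wall_box`: `4.5 ∫ w²/q ≤ ∫ w² Fv1/(rho n) = -∫ 2w Qb(∇w, ξ) + ∫ p w² Gam(ξ,ν)/n ≤ wallE w + ∫ w² Qw(ξ) + Λ ∫ w² √(Gam ξ ξ)`,
   `Qw(ξ) ≤ Gam ξ ξ ≤ 1.005/q`, `√(Gam ξ ξ) ≤ 1.0025 q^{-1/2} ≤ 1.0025 ζ₀/q`, `Λ ζ₀ ≤ 0.09`: `4.5 - 1.005 - 0.0903 ≥ 3.39`.  (`2|w Qb(∇w,ξ)| ≤ Qw(∇w) + w² Qw(ξ)`: `scQb_sq_le`.)
5. `sc_wall_ims`: pointwise `∑ Qw(∇(χ_i w)) = Qw(∇w) + w² ∑ Qw(∇χ_i)` (`scQw_add_smul`; `∑ χ_i ∇χ_i = 0` by differentiating `∑ χ_i² = 1`), `Qw(∇χ) ≤ Gam(∇χ,∇χ) ≤ 1.005 ‖fderiv χ‖²`, `1.7·1.005 ≤ 1.71`.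
6. `spW_ok`: `mul χ w = χ w` (`dif_pos`), `withDensity_mul`-type identity for `ms_mul`, `1.7·3.39 ≥ 3.8`.
-/

set_option autoImplicit false
open scoped ContDiff Topology ENNReal RealInnerProductSpace
open MeasureTheory Set Metric

namespace Claimed.Agent.R315

noncomputable section

variable {m : ℕ} {D : ScCh m} {G : Set (E m)} {τ Λ : ℝ}

theorem sc_test_field {U : Set (E m)} (hU : IsOpen U) {w : E m → ℝ} (hw : ScTw U w)
    {Z : E m → E m} (hZ : ContDiffOn ℝ ∞ Z U) : Gmt.GmtTestS U (fun x => w x • Z x) := by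
  refine ⟨?_, hw.cpt.smul_right, (tsupport_smul_subset_left w Z).trans hw.sub⟩
  rw [contDiff_iff_contDiffAt]
  intro x
  by_cases hx : x ∈ U
  · exact hw.smooth.contDiffAt.smul (hZ.contDiffAt (hU.mem_nhds hx))
  · have hx' : x ∉ tsupport w := fun h => hx (hw.sub h)
    have := notMem_tsupport_iff_eventuallyEq.1 hx'
    refine (contDiffAt_const (c := (0 : E m))).congr_of_eventuallyEq ?_
    filter_upwards [this] with y hy
    simp [hy]

theorem ScCh.Ok.data (hD : D.Ok G τ Λ) : Gmt.GmtData D.U D.A D.f := by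
  refine ⟨hD.opn, ⟨ScCh.A_smooth hD, fun x hx ξ η => ?_, fun x hx ξ hξ => ?_⟩, hD.p_s.mul hD.rho_s⟩
  · show D.rho x ^ 2 * D.Gam x ξ η = D.rho x ^ 2 * D.Gam x η ξ
    rw [hD.gam.symm x hx]
  · show 0 < D.rho x ^ 2 * D.Gam x ξ ξ
    have := hD.rho_pos x hx
    have := hD.gam.pos x hx ξ hξ
    positivity

theorem ScCh.Ok.lf (hD : D.Ok G τ Λ) : Gmt.GmtLF D.S D.U := Gmt.gmt_lam_lf hD.data hD.lam

theorem ScCh.Ok.mu_eq (hD : D.Ok G τ Λ) :
    D.mu = ((Gmt.gmtMu D.S).restrict D.U).withDensity fun x =>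
      ENNReal.ofReal (D.rho x * Real.sqrt (D.Gam x (D.nu x) (D.nu x))) := by
  unfold ScCh.mu
  rw [Gmt.gmt_perM_eq hD.opn hD.data.int hD.lf]
  apply withDensity_congr_ae
  filter_upwards [ae_restrict_mem hD.opn.measurableSet] with x hx
  rw [ScCh.A_sqrt hD hx]
  rfl

theorem ScCh.Ok.nu_ae (hD : D.Ok G τ Λ) : ∀ᵐ x ∂D.mu, x ∈ D.U ∧ ‖D.nu x‖ = 1 := by
  have h1 : ∀ᵐ x ∂D.mu, x ∈ D.U := ae_restrict_mem hD.opn.measurableSet
  have h2 : ∀ᵐ x ∂D.mu, ‖D.nu x‖ = 1 := by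
    rw [hD.mu_eq]
    exact (withDensity_absolutelyContinuous _ _).ae_le (Gmt.norm_gmtNu_ae hD.opn hD.lf)
  filter_upwards [h1, h2] with x a b using ⟨a, b⟩

theorem ScCh.Ok.mu_cpt (hD : D.Ok G τ Λ) {K : Set (E m)} (hK : IsCompact K) (hKU : K ⊆ D.U) :
    D.mu K ≠ ⊤ := by
  obtain ⟨W, hW, hKW⟩ := Gmt.gmt_exists_cc hK hD.opn hKU
  refine ne_top_of_le_ne_top (hD.lam.fin W hW) ?_
  rw [← (Gmt.gmt_perM_spec D.A D.S).2 W hW.1]
  exact (Measure.restrict_apply_le _ _).trans (measure_mono hKW)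

/-- bounded a.e. measurable functions vanishing off a compact subset of `U` are integrable. -/
theorem sc_int_mu' (hD : D.Ok G τ Λ) {g : E m → ℝ} (hg : AEStronglyMeasurable g D.mu) {C : ℝ}
    {K : Set (E m)} (hK : IsCompact K) (hKU : K ⊆ D.U) (hC : ∀ x ∈ K, |g x| ≤ C)
    (h0 : ∀ x, x ∉ K → g x = 0) : Integrable g D.mu := by
  have h1 : IntegrableOn g K D.mu := by
    refine IntegrableOn.of_bound (hD.mu_cpt hK hKU).lt_top hg.restrict C ?_
    exact (ae_restrict_iff' hK.measurableSet).2 (Filter.Eventually.of_forall fun x hx => hC x hx)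
  refine (integrableOn_iff_integrable_of_support_subset ?_).1 h1
  intro x hx
  by_contra hxK
  exact hx (h0 x hxK)

theorem sc_int_mu (hD : D.Ok G τ Λ) {g : E m → ℝ} (hg : Measurable g) {C : ℝ}
    (hC : ∀ x, |g x| ≤ C) {K : Set (E m)} (hK : IsCompact K) (hKU : K ⊆ D.U)
    (h0 : ∀ x, x ∉ K → g x = 0) : Integrable g D.mu :=
  sc_int_mu' hD hg.aestronglyMeasurable hK hKU (fun x _ => hC x) h0

/-- continuous functions with compact support in `U`. -/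
theorem sc_int_cont (hD : D.Ok G τ Λ) {g : E m → ℝ} (hg : Continuous g) {K : Set (E m)}
    (hK : IsCompact K) (hKU : K ⊆ D.U) (h0 : ∀ x, x ∉ K → g x = 0) : Integrable g D.mu := by
  obtain ⟨C, hC⟩ := hK.bddAbove_image hg.abs.continuousOn
  exact sc_int_mu' hD hg.aestronglyMeasurable hK hKU (fun x hx => hC (mem_image_of_mem _ hx)) h0

/-! ### measurability -/

theorem ScCh.Ok.aem_bil' (hD : D.Ok G τ Λ) (μ' : Measure (E m)) {a b : E m → E m}
    (ha : AEMeasurable a (μ'.restrict D.U)) (hb : AEMeasurable b (μ'.restrict D.U)) :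
    AEMeasurable (fun x => D.Gam x (a x) (b x)) (μ'.restrict D.U) := by
  have m1 : AEMeasurable D.Gam (μ'.restrict D.U) :=
    hD.gam.smooth.continuousOn.aemeasurable hD.opn.measurableSet
  have m2 : AEMeasurable (fun x => D.Gam x (a x)) (μ'.restrict D.U) :=
    ContinuousLinearMap.measurable_apply₂.comp_aemeasurable (m1.prodMk ha)
  exact ContinuousLinearMap.measurable_apply₂.comp_aemeasurable (m2.prodMk hb)

theorem ScCh.Ok.aem_bil (hD : D.Ok G τ Λ) {a b : E m → E m} (ha : AEMeasurable a D.mu)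
    (hb : AEMeasurable b D.mu) : AEMeasurable (fun x => D.Gam x (a x) (b x)) D.mu :=
  hD.aem_bil' _ ha hb

theorem ScCh.meas_nu (D : ScCh m) : Measurable D.nu := Gmt.measurable_gmtNu D.S

theorem ScCh.aem_nu (D : ScCh m) : AEMeasurable D.nu D.mu := D.meas_nu.aemeasurable

theorem ScCh.Ok.aem_Qb (hD : D.Ok G τ Λ) {a b : E m → E m} (ha : AEMeasurable a D.mu)
    (hb : AEMeasurable b D.mu) : AEMeasurable (fun x => scQb (D.Gam x) (D.nu x) (a x) (b x)) D.mu := by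
  unfold scQb
  exact (hD.aem_bil ha hb).sub (((hD.aem_bil ha D.aem_nu).mul (hD.aem_bil hb D.aem_nu)).div
    (hD.aem_bil D.aem_nu D.aem_nu))

theorem ScCh.Ok.aem_Qw (hD : D.Ok G τ Λ) {a : E m → E m} (ha : AEMeasurable a D.mu) :
    AEMeasurable (fun x => scQw (D.Gam x) (D.nu x) (a x)) D.mu := by
  simp only [scQw_eq_scQb]
  exact hD.aem_Qb ha ha

/-- the density `rho n`. -/
theorem ScCh.Ok.aem_dens (hD : D.Ok G τ Λ) (μ' : Measure (E m)) :
    AEMeasurable (fun x => ENNReal.ofReal (D.rho x * Real.sqrt (D.Gam x (D.nu x) (D.nu x))))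
      (μ'.restrict D.U) := by
  have m1 : AEMeasurable D.rho (μ'.restrict D.U) :=
    hD.rho_s.continuousOn.aemeasurable hD.opn.measurableSet
  have m2 := hD.aem_bil' μ' D.meas_nu.aemeasurable D.meas_nu.aemeasurable
  exact (m1.mul (Real.continuous_sqrt.measurable.comp_aemeasurable m2)).ennreal_ofReal

/-- change of measure `dμ = rho n d|Dχ_S|`. -/
theorem ScCh.Ok.int_mu_eq (hD : D.Ok G τ Λ) (g : E m → ℝ) :
    ∫ x, g x ∂D.mu = ∫ x in D.U, D.rho x * Real.sqrt (D.Gam x (D.nu x) (D.nu x)) * g x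
      ∂(Gmt.gmtMu D.S) := by
  rw [hD.mu_eq, integral_withDensity_eq_integral_toReal_smul₀ (hD.aem_dens _)
    (Filter.Eventually.of_forall fun x => ENNReal.ofReal_lt_top)]
  refine integral_congr_ae ?_
  filter_upwards [ae_restrict_mem hD.opn.measurableSet] with x hx
  have := hD.rho_pos x hx
  rw [ENNReal.toReal_ofReal (by positivity), smul_eq_mul]

theorem ScCh.Ok.integrable_mu_iff (hD : D.Ok G τ Λ) (g : E m → ℝ) :
    Integrable g D.mu ↔ IntegrableOn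
      (fun x => D.rho x * Real.sqrt (D.Gam x (D.nu x) (D.nu x)) * g x) D.U (Gmt.gmtMu D.S) := by
  rw [hD.mu_eq, integrable_withDensity_iff_integrable_smul₀' (hD.aem_dens _)
    (Filter.Eventually.of_forall fun x => ENNReal.ofReal_lt_top)]
  refine integrable_congr ?_
  filter_upwards [ae_restrict_mem hD.opn.measurableSet] with x hx
  have := hD.rho_pos x hx
  rw [ENNReal.toReal_ofReal (by positivity), smul_eq_mul]

theorem ScTw.sq {U : Set (E m)} {w : E m → ℝ} (hw : ScTw U w) : ScTw U (fun x => w x ^ 2) := by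
  have h := hw.mul hw.smooth
  have e : (fun x => w x ^ 2) = fun x => w x * w x := funext fun x => pow_two _
  rw [e]
  exact h

theorem sc_grad_sq {w : E m → ℝ} {x : E m} (hw : DifferentiableAt ℝ w x) :
    gradient (fun y => w y ^ 2) x = (2 * w x) • gradient w x := by
  apply ext_inner_right ℝ
  intro a
  rw [sc_grad_inner, real_inner_smul_left, sc_grad_inner, (hw.hasFDerivAt.pow 2).fderiv]
  simp

theorem scQb_smul_left (B : Gmt.Bil m) (ν ξ η : E m) (c : ℝ) :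
    scQb B ν (c • ξ) η = c * scQb B ν ξ η := by
  unfold scQb
  simp only [map_smul, _root_.smul_apply, smul_eq_mul]
  ring

/-- the integrand of the first variation identity. -/
def ScCh.wF (D : ScCh m) (z : E m) (L : Submodule ℝ (E m)) (κ : ℝ) (w : E m → ℝ) (x : E m) : ℝ :=
  w x ^ 2 * (Gmt.gmtFv1 D.A (D.Y z L κ) x (D.nu x) /
          (D.rho x * Real.sqrt (D.Gam x (D.nu x) (D.nu x)))) +
        2 * w x * scQb (D.Gam x) (D.nu x) (gradient w x) (scXi z L κ x) -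
        D.p x * w x ^ 2 * (D.Gam x (scXi z L κ x) (D.nu x) /
          Real.sqrt (D.Gam x (D.nu x) (D.nu x)))

/-- the first variation with `X = w² Y`. -/
theorem sc_wall_id (hD : D.Ok G τ Λ) (z : E m) (L : Submodule ℝ (E m)) {κ : ℝ} (hκ : 0 < κ)
    {w : E m → ℝ} (hw : ScTw D.U w) :
    Integrable (D.wF z L κ w) D.mu ∧ ∫ x, D.wF z L κ w x ∂D.mu = 0 := by
  have hX := sc_test_field hD.opn hw.sq (ScCh.Y_contDiffOn hD z L hκ)
  have hfv := Gmt.gmt_lam_fv hD.opn hD.data.int hD.data.f hD.lam hX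
  have hi1 := Gmt.gmtFv1_integrable hD.opn hD.data.int hD.lf hX.test
  have hi2 := Gmt.gmt_press_integrable hD.opn hD.data.f.continuousOn hD.lf hX.test
  have hae : ∀ᵐ x ∂((Gmt.gmtMu D.S).restrict D.U),
      D.rho x * Real.sqrt (D.Gam x (D.nu x) (D.nu x)) * D.wF z L κ w x =
      Gmt.gmtFv1 D.A (fun x => w x ^ 2 • D.Y z L κ x) x (Gmt.gmtNu D.S x) -
        D.f x * ⟪w x ^ 2 • D.Y z L κ x, Gmt.gmtNu D.S x⟫ := by
    filter_upwards [ae_restrict_mem hD.opn.measurableSet, Gmt.norm_gmtNu_ae hD.opn hD.lf]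
      with x hx hν
    have hν0 : Gmt.gmtNu D.S x ≠ 0 := by
      intro h; rw [h, norm_zero] at hν; norm_num at hν
    have hdw : DifferentiableAt ℝ w x := (hw.smooth.differentiable (by simp)) x
    rw [sc_fv1_smul hD z L hκ hx (v := fun y => w y ^ 2) (hdw.fun_pow 2) hν0, sc_grad_sq hdw,
      scQb_smul_left,
      real_inner_smul_left, ScCh.Y, sc_sharp_inner]
    have hρ := hD.rho_pos x hx
    have hn : 0 < Real.sqrt (D.Gam x (Gmt.gmtNu D.S x) (Gmt.gmtNu D.S x)) :=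
      Real.sqrt_pos.2 (hD.gam.pos x hx _ hν0)
    unfold ScCh.wF ScCh.f ScCh.nu
    field_simp
  constructor
  · rw [hD.integrable_mu_iff]
    exact ((hi1.sub hi2).integrableOn).congr (hae.mono fun x hx => hx.symm)
  · rw [hD.int_mu_eq, integral_congr_ae hae, setIntegral_eq_integral_of_forall_compl_eq_zero, hfv]
    intro x hx
    have hx' : x ∉ tsupport (fun x => w x ^ 2 • D.Y z L κ x) := fun h => hx (hX.sub h)
    rw [Gmt.gmtFv1_of_notMem _ hx', image_eq_zero_of_notMem_tsupport hx']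
    simp


/-- bounds of the tangential form, all `ν`. -/
theorem scQw_bounds {B : Gmt.Bil m} (hs : ∀ ξ η, B ξ η = B η ξ) (hp : ∀ ξ, ξ ≠ 0 → 0 < B ξ ξ)
    (ν ξ : E m) : 0 ≤ scQw B ν ξ ∧ scQw B ν ξ ≤ B ξ ξ := by
  by_cases hν : ν = 0
  · subst hν
    have : scQw B 0 ξ = B ξ ξ := by simp [scQw]
    rw [this]
    refine ⟨?_, le_rfl⟩
    by_cases h : ξ = 0
    · subst h; simp
    · exact (hp ξ h).le
  · exact (scQb_sq_le hs hp hν ξ ξ).2

theorem scQw_zero (B : Gmt.Bil m) (ν : E m) : scQw B ν 0 = 0 := by simp [scQw]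

theorem sc_grad_continuous {w : E m → ℝ} (hw : ContDiff ℝ ∞ w) : Continuous (gradient w) := by
  unfold gradient
  exact (InnerProductSpace.toDual ℝ (E m)).symm.continuous.comp (hw.continuous_fderiv (by simp))

theorem sc_grad_of_notMem {w : E m → ℝ} {x : E m} (hx : x ∉ tsupport w) : gradient w x = 0 := by
  unfold gradient
  rw [fderiv_of_notMem_tsupport ℝ hx, map_zero]

theorem sc_int_Qw (hD : D.Ok G τ Λ) {a : E m → E m} (ha : Continuous a) {K : Set (E m)}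
    (hK : IsCompact K) (hKU : K ⊆ D.U) (h0 : ∀ x, x ∉ K → a x = 0) :
    Integrable (fun x => scQw (D.Gam x) (D.nu x) (a x)) D.mu := by
  have hc : ContinuousOn (fun x => D.Gam x (a x) (a x)) K :=
    ((hD.gam.smooth.continuousOn.mono hKU).clm_apply ha.continuousOn).clm_apply ha.continuousOn
  obtain ⟨C, hC⟩ := hK.bddAbove_image hc
  refine sc_int_mu' hD (hD.aem_Qw ha.measurable.aemeasurable).aestronglyMeasurable hK hKU (C := C)
    (fun x hx => ?_) (fun x hx => by rw [h0 x hx, scQw_zero])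
  obtain ⟨h1, h2⟩ := scQw_bounds (hD.gam.symm x (hKU hx)) (hD.gam.pos x (hKU hx)) (D.nu x) (a x)
  rw [abs_of_nonneg h1]
  exact h2.trans (hC (mem_image_of_mem _ hx))

theorem sc_int_wallE (hD : D.Ok G τ Λ) {w : E m → ℝ} (hw : ScTw D.U w) :
    Integrable (fun x => scQw (D.Gam x) (D.nu x) (gradient w x)) D.mu :=
  sc_int_Qw hD (sc_grad_continuous hw.smooth) hw.cpt hw.sub fun _ hx => sc_grad_of_notMem hx

theorem sc_int_w2 (hD : D.Ok G τ Λ) {w : E m → ℝ} (hw : ScTw D.U w) {g : E m → ℝ}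
    (hg : Continuous g) : Integrable (fun x => w x ^ 2 * g x) D.mu :=
  sc_int_cont hD ((hw.smooth.continuous.pow 2).mul hg) hw.cpt hw.sub fun x hx => by
    rw [image_eq_zero_of_notMem_tsupport hx]; simp

theorem scZ2_inv_continuous (z : E m) (L : Submodule ℝ (E m)) {κ : ℝ} (hκ : 0 < κ) :
    Continuous fun x => (scZ2 z L κ x)⁻¹ :=
  (scZ2_contDiff z L κ).continuous.inv₀ fun x => (scZ2_pos z L hκ x).ne'

/-- **the box inequality on the wall**. -/
theorem sc_wall_box (hm : 8 ≤ m) : ∃ τ₀ c₀ : ℝ, 0 < τ₀ ∧ τ₀ ≤ 0.005 ∧ 0 < c₀ ∧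
    ∀ (D : ScCh m) (G : Set (E m)) (τ Λ ζ₀ : ℝ), D.Ok G τ Λ → τ ≤ τ₀ → 0 < ζ₀ → Λ * ζ₀ ≤ c₀ →
    ∀ (z : E m) (L : Submodule ℝ (E m)) (κ : ℝ), Module.finrank ℝ L ≤ m - 8 → 0 < κ →
    ∀ w : E m → ℝ, ScTw D.U w → (∀ᵐ x ∂D.mu, w x ≠ 0 → x ∈ G ∧ scZ2 z L κ x ≤ ζ₀ ^ 2) →
      3.39 * ∫ x, w x ^ 2 * (scZ2 z L κ x)⁻¹ ∂D.mu ≤ D.wallE w := by
  obtain ⟨τ₀, c₀, hτ₀, hτ₀', hc₀, hc₀', hpw⟩ := sc_pw_wall hm
  refine ⟨τ₀, c₀, hτ₀, hτ₀', hc₀, ?_⟩
  intro D G τ Λ ζ₀ hD hτ hζ₀ hΛζ z L κ hL hκ w hw hG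
  obtain ⟨hFi, hF0⟩ := sc_wall_id hD z L hκ hw
  have hi1 := sc_int_w2 hD hw (scZ2_inv_continuous z L hκ)
  have hi2 := sc_int_wallE hD hw
  have hle : ∀ᵐ x ∂D.mu, 3.39 * (w x ^ 2 * (scZ2 z L κ x)⁻¹) -
      scQw (D.Gam x) (D.nu x) (gradient w x) ≤ D.wF z L κ w x := by
    filter_upwards [hD.nu_ae, hG] with x hx hxG
    obtain ⟨hxU, hν⟩ := hx
    have hs := hD.gam.symm x hxU
    have hp := hD.gam.pos x hxU
    have hQ0 := (scQw_bounds hs hp (D.nu x) (gradient w x)).1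
    by_cases hw0 : w x = 0
    · unfold ScCh.wF
      rw [hw0]
      simp only [ne_eq, OfNat.ofNat_ne_zero, not_false_eq_true, zero_pow, zero_mul, mul_zero,
        add_zero, sub_zero, zero_sub]
      linarith
    obtain ⟨hxG', hq⟩ := hxG hw0
    obtain ⟨hτ0, hΛ0⟩ := hD.nonneg hm hxG'
    have hτ1 : τ ≤ 0.005 := hτ.trans hτ₀'
    have hc := hD.close x hxG'
    have hν0 : D.nu x ≠ 0 := by
      intro h; rw [h, norm_zero] at hν; norm_num at hν
    have hρ := hD.rho_pos x hxU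
    set q := scZ2 z L κ x with hqd
    have hq0 : 0 < q := scZ2_pos z L hκ x
    have hqi : 0 < q⁻¹ := by positivity
    set ν := D.nu x with hνd
    set N := D.Gam x ν ν with hN
    have hN1 : 0.995 ≤ N := by
      have := (abs_le.1 (hc ν)).1
      rw [hν] at this
      linarith
    have hn1 : 0.997 ≤ Real.sqrt N := Real.le_sqrt_of_sq_le (by norm_num; linarith)
    have hn : 0 < Real.sqrt N := by linarith
    have hρn : 0 < D.rho x * Real.sqrt N := by positivity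
    set ξ := scXi z L κ x with hξd
    -- W3
    have h3 : 4.5 * q⁻¹ ≤ Gmt.gmtFv1 D.A (D.Y z L κ) x ν / (D.rho x * Real.sqrt N) := by
      rw [le_div_iff₀ hρn]
      have := hpw D G τ Λ ζ₀ hD hτ hζ₀ hΛζ z L κ hL hκ x hxG' hq ν hν
      linarith
    -- W4
    have h4 : 0 ≤ scQw (D.Gam x) ν (gradient w x) + 2 * w x * scQb (D.Gam x) ν (gradient w x) ξ +
        w x ^ 2 * scQw (D.Gam x) ν ξ := by
      have e := scQw_add_smul (D.Gam x) hs ν (gradient w x) ξ 1 (w x)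
      have := (scQw_bounds hs hp ν ((1 : ℝ) • gradient w x + w x • ξ)).1
      rw [e] at this
      linarith
    have hξ2 : ‖ξ‖ ^ 2 ≤ q⁻¹ := scXi_norm_sq_le z L hκ x
    have hξ1 : ‖ξ‖ ≤ ζ₀ * q⁻¹ := scXi_norm_le z L hκ x hζ₀ hq
    have h5 : scQw (D.Gam x) ν ξ ≤ 1.005 * q⁻¹ := by
      have a1 := (scQw_bounds hs hp ν ξ).2
      have a2 := (abs_le.1 (hc ξ)).2
      nlinarith [sq_nonneg ‖ξ‖]
    -- W5
    have h6 : |D.p x * (D.Gam x ξ ν / Real.sqrt N)| ≤ 0.0908 * q⁻¹ := by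
      have a1 := sc_close_polar hs hc ξ ν
      rw [hν, mul_one] at a1
      have a2 : |⟪ξ, ν⟫| ≤ ‖ξ‖ := by
        have := abs_real_inner_le_norm ξ ν
        rwa [hν, mul_one] at this
      have a3 : |D.Gam x ξ ν| ≤ 1.005 * ‖ξ‖ := by
        have : D.Gam x ξ ν = (D.Gam x ξ ν - ⟪ξ, ν⟫) + ⟪ξ, ν⟫ := by ring
        rw [this]
        refine (abs_add_le _ _).trans ?_
        nlinarith [norm_nonneg ξ]
      have a4 : |D.Gam x ξ ν / Real.sqrt N| ≤ 1.0081 * ‖ξ‖ := by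
        rw [abs_div, abs_of_pos hn, div_le_iff₀ hn]
        nlinarith [norm_nonneg ξ]
      rw [abs_mul]
      have a5 := hD.pB x hxG'
      calc |D.p x| * |D.Gam x ξ ν / Real.sqrt N| ≤ Λ * (1.0081 * (ζ₀ * q⁻¹)) :=
            mul_le_mul a5 (a4.trans (by linarith)) (abs_nonneg _) hΛ0
        _ = 1.0081 * (Λ * ζ₀) * q⁻¹ := by ring
        _ ≤ 0.0908 * q⁻¹ := by
            apply mul_le_mul_of_nonneg_right _ hqi.le
            nlinarith
    have hw2 : 0 ≤ w x ^ 2 := sq_nonneg _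
    have e : D.wF z L κ w x = w x ^ 2 * (Gmt.gmtFv1 D.A (D.Y z L κ) x ν /
          (D.rho x * Real.sqrt N)) + 2 * w x * scQb (D.Gam x) ν (gradient w x) ξ -
        w x ^ 2 * (D.p x * (D.Gam x ξ ν / Real.sqrt N)) := by
      unfold ScCh.wF; ring
    rw [e]
    have b3 := mul_le_mul_of_nonneg_left h3 hw2
    have b5 := mul_le_mul_of_nonneg_left h5 hw2
    have b6 := mul_le_mul_of_nonneg_left (abs_le.1 h6).2 hw2
    have hwq : 0 ≤ w x ^ 2 * q⁻¹ := by positivity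
    linarith
  have := integral_mono_ae ((hi1.const_mul 3.39).sub hi2) hFi hle
  simp only [Pi.sub_apply] at this
  rw [hF0, integral_sub (hi1.const_mul 3.39) hi2, integral_const_mul] at this
  unfold ScCh.wallE
  linarith


theorem sc_grad_mul {χ w : E m → ℝ} {x : E m} (hχ : DifferentiableAt ℝ χ x)
    (hw : DifferentiableAt ℝ w x) :
    gradient (fun y => χ y * w y) x = χ x • gradient w x + w x • gradient χ x := by
  apply ext_inner_right ℝ
  intro a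
  rw [sc_grad_inner, inner_add_left, real_inner_smul_left, real_inner_smul_left, sc_grad_inner,
    sc_grad_inner, (hχ.hasFDerivAt.fun_mul hw.hasFDerivAt).fderiv]
  simp

theorem sc_grad_norm (χ : E m → ℝ) (x : E m) : ‖gradient χ x‖ = ‖fderiv ℝ χ x‖ := by
  unfold gradient
  exact LinearIsometryEquiv.norm_map _ _

theorem scQb_grad {B : Gmt.Bil m} (hs : ∀ ξ η, B ξ η = B η ξ) (ν ξ : E m) (χ : E m → ℝ) (x : E m) :
    scQb B ν ξ (gradient χ x) =
      fderiv ℝ χ x (Gmt.gmtSharp B ξ - (B ξ ν / B ν ν) • Gmt.gmtSharp B ν) := by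
  rw [← sc_grad_inner, inner_sub_right, real_inner_smul_right, real_inner_comm, sc_sharp_inner,
    real_inner_comm (Gmt.gmtSharp B ν), sc_sharp_inner, hs ν (gradient χ x)]
  unfold scQb
  ring

theorem sc_sum_chi_fderiv {ι : Type} (s : Finset ι) (χ : ι → E m → ℝ)
    (hχ : ∀ i ∈ s, ContDiff ℝ ∞ (χ i)) (hsum : ∀ x, ∑ i ∈ s, χ i x ^ 2 = 1) (x a : E m) :
    ∑ i ∈ s, χ i x * fderiv ℝ (χ i) x a = 0 := by
  have h1 : HasFDerivAt (fun y => ∑ i ∈ s, χ i y ^ 2)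
      (∑ i ∈ s, (2 • χ i x ^ (2 - 1)) • fderiv ℝ (χ i) x) x :=
    HasFDerivAt.fun_sum fun i hi =>
      ((((hχ i hi).differentiable (by simp)) x).hasFDerivAt.pow 2)
  have h2 : (fun y => ∑ i ∈ s, χ i y ^ 2) = fun _ => (1 : ℝ) := funext hsum
  rw [h2] at h1
  have h3 := h1.unique (hasFDerivAt_const (1 : ℝ) x)
  have h4 := congrArg (fun T : E m →L[ℝ] ℝ => T a) h3
  simp only [_root_.sum_apply, _root_.smul_apply, smul_eq_mul, nsmul_eq_mul,
    _root_.zero_apply] at h4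
  have h5 : ∑ i ∈ s, χ i x * fderiv ℝ (χ i) x a =
      (1 / 2) * ∑ i ∈ s, (2 : ℕ) * χ i x ^ (2 - 1) * fderiv ℝ (χ i) x a := by
    rw [Finset.mul_sum]
    refine Finset.sum_congr rfl fun i _ => ?_
    norm_num
    ring
  rw [h5, h4, mul_zero]

/-- the pointwise IMS identity. -/
theorem sc_ims_pt {B : Gmt.Bil m} (hs : ∀ ξ η, B ξ η = B η ξ) (ν : E m) {w : E m → ℝ}
    (hw : ContDiff ℝ ∞ w) {ι : Type} (s : Finset ι) (χ : ι → E m → ℝ)
    (hχ : ∀ i ∈ s, ContDiff ℝ ∞ (χ i)) (hsum : ∀ x, ∑ i ∈ s, χ i x ^ 2 = 1) (x : E m) :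
    ∑ i ∈ s, scQw B ν (gradient (fun y => χ i y * w y) x) =
      scQw B ν (gradient w x) + w x ^ 2 * ∑ i ∈ s, scQw B ν (gradient (χ i) x) := by
  have hdw : DifferentiableAt ℝ w x := (hw.differentiable (by simp)) x
  have h1 : ∀ i ∈ s, scQw B ν (gradient (fun y => χ i y * w y) x) =
      χ i x ^ 2 * scQw B ν (gradient w x) + 2 * w x * (χ i x * fderiv ℝ (χ i) x
        (Gmt.gmtSharp B (gradient w x) - (B (gradient w x) ν / B ν ν) • Gmt.gmtSharp B ν)) +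
      w x ^ 2 * scQw B ν (gradient (χ i) x) := by
    intro i hi
    rw [sc_grad_mul (((hχ i hi).differentiable (by simp)) x) hdw, scQw_add_smul B hs,
      scQb_grad hs]
    ring
  rw [Finset.sum_congr rfl h1, Finset.sum_add_distrib, Finset.sum_add_distrib, ← Finset.sum_mul,
    hsum x, ← Finset.mul_sum, sc_sum_chi_fderiv s χ hχ hsum, ← Finset.mul_sum]
  ring

/-- IMS on the wall. -/
theorem sc_wall_ims (hD : D.Ok G τ Λ) (hτ : τ ≤ 0.005) {w : E m → ℝ} (hw : ScTw D.U w)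
    (hG : ∀ᵐ x ∂D.mu, w x ≠ 0 → x ∈ G) {ι : Type} (s : Finset ι) (χ : ι → E m → ℝ)
    (hχ : ∀ i ∈ s, ContDiff ℝ ∞ (χ i)) (hsum : ∀ x, ∑ i ∈ s, χ i x ^ 2 = 1) :
    ∑ i ∈ s, D.wallE (fun x => χ i x * w x) ≤
      D.wallE w + 1.005 * ∫ x, (∑ i ∈ s, ‖fderiv ℝ (χ i) x‖ ^ 2) * w x ^ 2 ∂D.mu := by
  unfold ScCh.wallE
  have hi : ∀ i ∈ s, Integrable
      (fun x => scQw (D.Gam x) (D.nu x) (gradient (fun y => χ i y * w y) x)) D.mu :=
    fun i hi => sc_int_wallE hD (hw.mul (hχ i hi))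
  have hc : Continuous fun x => ∑ i ∈ s, ‖fderiv ℝ (χ i) x‖ ^ 2 :=
    continuous_finsetSum s fun i hi => (((hχ i hi).continuous_fderiv (by simp)).norm).pow 2
  have hi2 : Integrable (fun x => (∑ i ∈ s, ‖fderiv ℝ (χ i) x‖ ^ 2) * w x ^ 2) D.mu := by
    have := sc_int_w2 hD hw hc
    simpa only [mul_comm] using this
  have hi1 := sc_int_wallE hD hw
  rw [← integral_finsetSum s hi, ← integral_const_mul, ← integral_add hi1 (hi2.const_mul _)]
  refine integral_mono_ae (integrable_finsetSum s hi) (hi1.add (hi2.const_mul _)) ?_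
  filter_upwards [hD.nu_ae, hG] with x hx hxG
  obtain ⟨hxU, hν⟩ := hx
  have hs := hD.gam.symm x hxU
  have hp := hD.gam.pos x hxU
  rw [sc_ims_pt hs (D.nu x) hw.smooth s χ hχ hsum x]
  by_cases hw0 : w x = 0
  · rw [hw0]; simp
  have hxG' := hxG hw0
  have hc := hD.close x hxG'
  have h1 : ∑ i ∈ s, scQw (D.Gam x) (D.nu x) (gradient (χ i) x) ≤
      1.005 * ∑ i ∈ s, ‖fderiv ℝ (χ i) x‖ ^ 2 := by
    rw [Finset.mul_sum]
    refine Finset.sum_le_sum fun i _ => ?_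
    have a1 := (scQw_bounds hs hp (D.nu x) (gradient (χ i) x)).2
    have a2 := (abs_le.1 (hc (gradient (χ i) x))).2
    rw [sc_grad_norm] at a2
    nlinarith [sq_nonneg ‖fderiv ℝ (χ i) x‖]
  have := mul_le_mul_of_nonneg_left h1 (sq_nonneg (w x))
  linarith


theorem ScCh.spW_mul (D : ScCh m) {χ : E m → ℝ} (hχ : ContDiff ℝ ∞ χ) (v : D.spW.T) :
    D.spW.mul χ v = (⟨fun x => χ x * v.1 x, v.2.mul hχ⟩ : {w : E m → ℝ // ScTw D.U w}) :=
  dif_pos hχ

theorem sc_meas_w2 {w : E m → ℝ} (hw : Continuous w) :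
    Measurable fun x => ENNReal.ofReal (w x ^ 2) := (hw.pow 2).measurable.ennreal_ofReal

theorem ScCh.wallM_int (D : ScCh m) {w : E m → ℝ} (hw : Continuous w) (g : E m → ℝ) :
    ∫ x, g x ∂(D.wallM w) = ∫ x, w x ^ 2 * g x ∂D.mu := by
  unfold ScCh.wallM
  rw [integral_withDensity_eq_integral_toReal_smul (sc_meas_w2 hw)
    (Filter.Eventually.of_forall fun x => ENNReal.ofReal_lt_top)]
  refine integral_congr_ae (Filter.Eventually.of_forall fun x => ?_)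
  simp only [smul_eq_mul]
  rw [ENNReal.toReal_ofReal (sq_nonneg _)]

theorem ScCh.wallM_ae (D : ScCh m) {w : E m → ℝ} (hw : Continuous w) {P : E m → Prop} :
    (∀ᵐ x ∂(D.wallM w), P x) ↔ ∀ᵐ x ∂D.mu, w x ≠ 0 → P x := by
  unfold ScCh.wallM
  rw [ae_withDensity_iff (sc_meas_w2 hw)]
  have : ∀ x, ENNReal.ofReal (w x ^ 2) ≠ 0 ↔ w x ≠ 0 := by
    intro x
    rw [Ne, ENNReal.ofReal_eq_zero, not_le]
    constructor
    · intro h h0; rw [h0] at h; simp at h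
    · intro h; positivity
  simp only [this]

theorem ScCh.wallM_mul (D : ScCh m) {w χ : E m → ℝ} (hw : Continuous w) (hχ : Continuous χ) :
    D.wallM (fun x => χ x * w x) = (D.wallM w).withDensity fun x => ENNReal.ofReal (χ x ^ 2) := by
  unfold ScCh.wallM
  rw [← withDensity_mul _ (sc_meas_w2 hw) (sc_meas_w2 hχ)]
  congr 1
  funext x
  simp only [Pi.mul_apply]
  rw [← ENNReal.ofReal_mul (sq_nonneg _)]
  congr 1
  ring

theorem ScCh.Ok.wallM_fin (hD : D.Ok G τ Λ) {w : E m → ℝ} (hw : ScTw D.U w) :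
    IsFiniteMeasure (D.wallM w) := by
  constructor
  unfold ScCh.wallM
  rw [withDensity_apply _ MeasurableSet.univ, Measure.restrict_univ]
  have h := sc_int_w2 hD hw (continuous_const (y := (1 : ℝ)))
  simp only [mul_one] at h
  have := h.hasFiniteIntegral
  rw [hasFiniteIntegral_iff_ofReal (Filter.Eventually.of_forall fun x => sq_nonneg _)] at this
  exact this

theorem ScCh.wallM_bdd (D : ScCh m) {w : E m → ℝ} (hw : ScTw D.U w) :
    ∃ R : ℝ, D.wallM w {x | R < ‖x‖} = 0 := by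
  obtain ⟨R, hR⟩ := hw.cpt.isCompact.isBounded.subset_closedBall (0 : E m)
  refine ⟨R, ?_⟩
  have hms : MeasurableSet {x : E m | R < ‖x‖} := measurableSet_lt measurable_const measurable_norm
  unfold ScCh.wallM
  rw [withDensity_apply _ hms]
  refine setLIntegral_eq_zero hms fun x hx => ?_
  have : x ∉ tsupport w := fun h => by
    have := hR h
    rw [mem_closedBall_zero_iff] at this
    exact absurd hx (not_lt.2 this)
  simp only [image_eq_zero_of_notMem_tsupport this]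
  simp

/-- **the wall space satisfies the axioms**. -/
theorem sc_spW_ok (hm : 8 ≤ m) : ∃ τ₀ c₀ : ℝ, 0 < τ₀ ∧ τ₀ ≤ 0.005 ∧ 0 < c₀ ∧
    ∀ (D : ScCh m) (G : Set (E m)) (τ Λ ζ₀ : ℝ), D.Ok G τ Λ → τ ≤ τ₀ → 0 < ζ₀ → Λ * ζ₀ ≤ c₀ →
      D.spW.Ok G ζ₀ := by
  obtain ⟨τ₀, c₀, hτ₀, hτ₀', hc₀, hbox⟩ := sc_wall_box hm
  refine ⟨τ₀, c₀, hτ₀, hτ₀', hc₀, ?_⟩
  intro D G τ Λ ζ₀ hD hτ hζ₀ hΛζ
  refine ⟨?_, ?_, ?_, ?_, ?_, ?_⟩
  · intro v
    show 0 ≤ 1.7 * D.wallE v.1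
    have : 0 ≤ D.wallE v.1 := by
      unfold ScCh.wallE
      apply integral_nonneg_of_ae
      filter_upwards [hD.nu_ae] with x hx
      exact (scQw_bounds (hD.gam.symm x hx.1) (hD.gam.pos x hx.1) _ _).1
    positivity
  · intro v
    exact hD.wallM_fin v.2
  · intro v
    exact D.wallM_bdd v.2
  · intro v χ hχ
    rw [D.spW_mul hχ]
    exact D.wallM_mul v.2.smooth.continuous hχ.continuous
  · intro v ι s χ hvG hχ hsum
    have hvG' : ∀ᵐ x ∂D.mu, v.1 x ≠ 0 → x ∈ G := (D.wallM_ae v.2.smooth.continuous).1 hvG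
    have h1 := sc_wall_ims hD (hτ.trans hτ₀') v.2 hvG' s χ hχ hsum
    have h2 : ∑ i ∈ s, D.spW.N (D.spW.mul (χ i) v) =
        1.7 * ∑ i ∈ s, D.wallE (fun x => χ i x * v.1 x) := by
      rw [Finset.mul_sum]
      refine Finset.sum_congr rfl fun i hi => ?_
      rw [D.spW_mul (hχ i hi)]
      rfl
    rw [h2]
    have h3 : ∫ x, ∑ i ∈ s, ‖fderiv ℝ (χ i) x‖ ^ 2 ∂(D.spW.ms v) =
        ∫ x, (∑ i ∈ s, ‖fderiv ℝ (χ i) x‖ ^ 2) * v.1 x ^ 2 ∂D.mu := by
      have := D.wallM_int v.2.smooth.continuous (fun x => ∑ i ∈ s, ‖fderiv ℝ (χ i) x‖ ^ 2)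
      exact this.trans (integral_congr_ae (Filter.Eventually.of_forall fun x => mul_comm _ _))
    rw [h3]
    have h4 : 0 ≤ ∫ x, (∑ i ∈ s, ‖fderiv ℝ (χ i) x‖ ^ 2) * v.1 x ^ 2 ∂D.mu :=
      integral_nonneg fun x => by positivity
    show _ ≤ 1.7 * D.wallE v.1 + _
    nlinarith
  · intro v z L κ hL hκ hvG
    have hvG' := (D.wallM_ae v.2.smooth.continuous).1 hvG
    have h1 := hbox D G τ Λ ζ₀ hD hτ hζ₀ hΛζ z L κ hL hκ v.1 v.2 hvG'
    have h3 : ∫ x, (scZ2 z L κ x)⁻¹ ∂(D.spW.ms v) = ∫ x, v.1 x ^ 2 * (scZ2 z L κ x)⁻¹ ∂D.mu :=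
      D.wallM_int v.2.smooth.continuous _
    rw [h3]
    have h4 : 0 ≤ ∫ x, v.1 x ^ 2 * (scZ2 z L κ x)⁻¹ ∂D.mu :=
      integral_nonneg fun x => by
        have := scZ2_pos z L hκ x
        positivity
    show _ ≤ 1.7 * D.wallE v.1
    nlinarith


end

end Claimed.Agent.R315
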